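import Vale.Agent.P119.TL.Hit

/-!
# P119: TREE -> LINES, the world of lines (`helper119`)

`T` is an alive tree of the world `U ∪ T.leaves`.  In the world `lwd U T = U ∪ {msrc x | x ∈ outs T}`
the particles of `T` are replaced by sources, born at the times `r x ≥ ext x`, on their lines.
`th y` is the tree `y` of the world of lines with the histories `x` put back.
-/

open MeasureTheory Filter Topology Set
open scoped ENNReal NNReal

noncomputable section

namespace Vale.Agent.P119.TL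

open KU M M.CTree

variable {Φ : E3 → ℝ} {ε : ℝ} {L : ℕ}

/-- The source that replaces the history `x`; it is born at the time `r x`. -/
def msrc (Φ : E3 → ℝ) (ε : ℝ) (r : CTree → ℝ) (x : CTree) : Src := (r x, ln Φ ε x, x.depth)

/-- The world of the lines of `T`. -/
def lwd (Φ : E3 → ℝ) (ε : ℝ) (r : CTree → ℝ) (U : Set Src) (T : CTree) : Set Src :=
  U ∪ msrc Φ ε r '' outs T

open Classical in
/-- The substitution on the sources. -/
def fs (Φ : E3 → ℝ) (ε : ℝ) (r : CTree → ℝ) (T : CTree) (σ : Src) : CTree :=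
  if h : ∃ x ∈ outs T, msrc Φ ε r x = σ then h.choose else leaf σ

/-- The histories are put back. -/
def th (Φ : E3 → ℝ) (ε : ℝ) (r : CTree → ℝ) (T : CTree) (y : CTree) : CTree :=
  sbs (fs Φ ε r T) y

/-- The legs of `T`: the proper subtrees, and the final histories before the births. -/
def Leg (r : CTree → ℝ) (T X : CTree) (s : ℝ) : Prop :=
  (Sub X T ∧ X ≠ T) ∨ (X ∈ outs T ∧ s < r X)

/-- The hypotheses of TREE -> LINES up to the time `t`. -/
structure Setup (Φ : E3 → ℝ) (ε : ℝ) (L : ℕ) (U : Set Src) (T : CTree) (r : CTree → ℝ) (t : ℝ) :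
    Prop where
  /-- the environment is finite -/
  fin : U.Finite
  /-- the environment does not contain the particles of `T` -/
  disj : Disjoint U T.leaves
  /-- the new sources are distinct -/
  inj : InjOn (msrc Φ ε r) (outs T)
  /-- the new sources are not in the environment -/
  fresh : ∀ x ∈ outs T, msrc Φ ε r x ∉ U
  /-- the sources are born after the exits -/
  le_r : ∀ x ∈ outs T, ext Φ ε x ≤ r x
  /-- the histories survive until the births -/
  alive : ∀ x ∈ outs T, alive Φ ε L (U ∪ T.leaves) x (r x)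
  /-- if the birth is later than the exit then there is no hit at the birth -/
  lives : ∀ x ∈ outs T, r x = ext Φ ε x ∨ lives Φ ε L (U ∪ T.leaves) x (r x)
  /-- the legs of `T` make no contact with a colliding pair -/
  legs : ∀ X p s, s ≤ t → Leg r T X s → M.alive Φ ε L (U ∪ T.leaves) X s →
    live Φ ε L (U ∪ T.leaves) p s → s < ext Φ ε p → ¬hit Φ ε p X s
  /-- in the world of lines there is no contact between two descendants of `T` -/
  indep : ∀ p y s, s ≤ t → live Φ ε L (lwd Φ ε r U T) p s → M.alive Φ ε L (lwd Φ ε r U T) y s →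
    Disjoint p.leaves y.leaves → hit Φ ε p y s → p.leaves ⊆ U ∨ y.leaves ⊆ U

variable {U : Set Src} {T : CTree} {r : CTree → ℝ} {t : ℝ}

theorem lwd_finite (h : Setup Φ ε L U T r t) : (lwd Φ ε r U T).Finite :=
  h.fin.union ((outs_finite T).image _)

theorem wd_finite (h : Setup Φ ε L U T r t) : (U ∪ T.leaves).Finite :=
  h.fin.union T.leaves_finite

theorem fs_msrc (h : Setup Φ ε L U T r t) {x : CTree} (hx : x ∈ outs T) :
    fs Φ ε r T (msrc Φ ε r x) = x := by
  classical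
  have h1 : ∃ x' ∈ outs T, msrc Φ ε r x' = msrc Φ ε r x := ⟨x, hx, rfl⟩
  unfold fs
  rw [dif_pos h1]
  exact h.inj h1.choose_spec.1 hx h1.choose_spec.2

theorem fs_of_mem (h : Setup Φ ε L U T r t) {σ : Src} (hσ : σ ∈ U) : fs Φ ε r T σ = leaf σ := by
  classical
  unfold fs
  rw [dif_neg]
  rintro ⟨x, hx, rfl⟩
  exact h.fresh x hx hσ

theorem ok_T (h : Setup Φ ε L U T r t) : ok Φ ε T := (alive_pre (h.alive T (Or.inl rfl))).ok

theorem ok_out (h : Setup Φ ε L U T r t) {x : CTree} (hx : x ∈ outs T) : ok Φ ε x :=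
  (alive_pre (h.alive x hx)).ok

theorem fs_ln (h : Setup Φ ε L U T r t) {σ : Src} (hσ : σ ∈ lwd Φ ε r U T) :
    ln Φ ε (fs Φ ε r T σ) = σ.2.1 := by
  rcases hσ with hσ | ⟨x, hx, rfl⟩
  · rw [fs_of_mem h hσ]; rfl
  · rw [fs_msrc h hx]; rfl

theorem fs_depth (h : Setup Φ ε L U T r t) {σ : Src} (hσ : σ ∈ lwd Φ ε r U T) :
    (fs Φ ε r T σ).depth = σ.2.2 := by
  rcases hσ with hσ | ⟨x, hx, rfl⟩
  · rw [fs_of_mem h hσ]; rfl
  · rw [fs_msrc h hx]; rfl

theorem fs_ext (h : Setup Φ ε L U T r t) {σ : Src} (hσ : σ ∈ lwd Φ ε r U T) :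
    ext Φ ε (fs Φ ε r T σ) ≤ σ.1 := by
  rcases hσ with hσ | ⟨x, hx, rfl⟩
  · rw [fs_of_mem h hσ]; exact le_rfl
  · rw [fs_msrc h hx]; exact h.le_r x hx

theorem fs_leaves (h : Setup Φ ε L U T r t) {σ : Src} (hσ : σ ∈ lwd Φ ε r U T) :
    (fs Φ ε r T σ).leaves ⊆ ({σ} ∩ U) ∪ T.leaves := by
  rcases hσ with hσ | ⟨x, hx, rfl⟩
  · rw [fs_of_mem h hσ]
    intro τ hτ
    have : τ = σ := hτ
    exact Or.inl ⟨this, this ▸ hσ⟩
  · rw [fs_msrc h hx]
    exact (outs_leaves hx).trans subset_union_right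

variable {y : CTree}

theorem th_node (a b : CTree) : th Φ ε r T (node a b) = node (th Φ ε r T a) (th Φ ε r T b) := rfl

theorem th_leaf_msrc (h : Setup Φ ε L U T r t) {x : CTree} (hx : x ∈ outs T) :
    th Φ ε r T (leaf (msrc Φ ε r x)) = x := fs_msrc h hx

theorem th_ln (h : Setup Φ ε L U T r t) (hy : y.leaves ⊆ lwd Φ ε r U T) :
    ln Φ ε (th Φ ε r T y) = ln Φ ε y := sbs_ln fun _ hσ => fs_ln h (hy hσ)

theorem th_depth (h : Setup Φ ε L U T r t) (hy : y.leaves ⊆ lwd Φ ε r U T) :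
    (th Φ ε r T y).depth = y.depth := sbs_depth fun _ hσ => fs_depth h (hy hσ)

theorem th_of_subset (h : Setup Φ ε L U T r t) (hy : y.leaves ⊆ U) : th Φ ε r T y = y := by
  have h1 : sbs (fs Φ ε r T) y = sbs leaf y := sbs_congr fun σ hσ => fs_of_mem h (hy hσ)
  exact h1.trans (sbs_leaf y)

theorem leaves_left {a b : CTree} {W : Set Src} (h : (node a b).leaves ⊆ W) : a.leaves ⊆ W :=
  fun _ hx => h (Or.inl hx)

theorem leaves_right {a b : CTree} {W : Set Src} (h : (node a b).leaves ⊆ W) : b.leaves ⊆ W :=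
  fun _ hx => h (Or.inr hx)

theorem th_sig (h : Setup Φ ε L U T r t) {a b : CTree} (hy : (node a b).leaves ⊆ lwd Φ ε r U T) :
    sig Φ ε (th Φ ε r T (node a b)) = sig Φ ε (node a b) := by
  change hitT ε (ln Φ ε (th Φ ε r T a), ln Φ ε (th Φ ε r T b)) = hitT ε (ln Φ ε a, ln Φ ε b)
  rw [th_ln h (leaves_left hy), th_ln h (leaves_right hy)]

theorem th_ext (h : Setup Φ ε L U T r t) {a b : CTree} (hy : (node a b).leaves ⊆ lwd Φ ε r U T) :
    ext Φ ε (th Φ ε r T (node a b)) = ext Φ ε (node a b) := by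
  change sepT Φ ε (ln Φ ε (th Φ ε r T a), ln Φ ε (th Φ ε r T b)) = sepT Φ ε (ln Φ ε a, ln Φ ε b)
  rw [th_ln h (leaves_left hy), th_ln h (leaves_right hy)]

theorem th_st_node (h : Setup Φ ε L U T r t) {a b : CTree}
    (hy : (node a b).leaves ⊆ lwd Φ ε r U T) (s : ℝ) :
    st Φ ε (th Φ ε r T (node a b)) s = st Φ ε (node a b) s := by
  change (pairLine Φ ε (ln Φ ε (th Φ ε r T a), ln Φ ε (th Φ ε r T b)) s).1 =
    (pairLine Φ ε (ln Φ ε a, ln Φ ε b) s).1
  rw [th_ln h (leaves_left hy), th_ln h (leaves_right hy)]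

theorem th_ext_le (h : Setup Φ ε L U T r t) (hy : y.leaves ⊆ lwd Φ ε r U T) :
    ext Φ ε (th Φ ε r T y) ≤ ext Φ ε y := by
  cases y with
  | leaf σ => exact fs_ext h (hy (mem_singleton σ))
  | node a b => exact (th_ext h hy).le

theorem th_sig_le (hΦ : IsPotential Φ) (hε : 0 < ε) (h : Setup Φ ε L U T r t)
    (hy : y.leaves ⊆ lwd Φ ε r U T) : sig Φ ε (th Φ ε r T y) ≤ sig Φ ε y := by
  cases y with
  | leaf σ =>
    refine le_trans ?_ (fs_ext h (hy (mem_singleton σ)))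
    change sig Φ ε (fs Φ ε r T σ) ≤ _
    rcases hy (mem_singleton σ) with hσ | ⟨x, hx, rfl⟩
    · rw [fs_of_mem h hσ]; exact le_rfl
    · rw [fs_msrc h hx]; exact sig_le_ext hΦ hε (ok_out h hx)
  | node a b => exact (th_sig h hy).le

theorem th_leaves (h : Setup Φ ε L U T r t) (hy : y.leaves ⊆ lwd Φ ε r U T) :
    (th Φ ε r T y).leaves ⊆ (y.leaves ∩ U) ∪ T.leaves := by
  intro τ hτ
  have h1 : (th Φ ε r T y).leaves = ⋃ σ ∈ y.leaves, (fs Φ ε r T σ).leaves := sbs_leaves y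
  rw [h1] at hτ
  obtain ⟨σ, hσ, hτ⟩ := mem_iUnion₂.1 hτ
  rcases fs_leaves h (hy hσ) hτ with h2 | h2
  · have : τ = σ := h2.1
    exact Or.inl ⟨this ▸ hσ, h2.2⟩
  · exact Or.inr h2

theorem th_leaves_wd (h : Setup Φ ε L U T r t) (hy : y.leaves ⊆ lwd Φ ε r U T) :
    (th Φ ε r T y).leaves ⊆ U ∪ T.leaves :=
  (th_leaves h hy).trans (union_subset_union_left _ inter_subset_right)

/-- The leaves of `y` in `U` are leaves of `th y`. -/
theorem mem_th_leaves (h : Setup Φ ε L U T r t) {σ : Src} (hσ : σ ∈ y.leaves) (hU : σ ∈ U) :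
    σ ∈ (th Φ ε r T y).leaves := by
  have h1 : (th Φ ε r T y).leaves = ⋃ σ ∈ y.leaves, (fs Φ ε r T σ).leaves := sbs_leaves y
  rw [h1]
  refine mem_iUnion₂.2 ⟨σ, hσ, ?_⟩
  rw [fs_of_mem h hU]
  exact mem_singleton σ

/-- If `th y` and `th y'` have no common particle then `y` and `y'` have none. -/
theorem disjoint_of_th {y' : CTree}
    (hd : Disjoint (th Φ ε r T y).leaves (th Φ ε r T y').leaves) :
    Disjoint y.leaves y'.leaves := by
  rw [disjoint_left] at hd ⊢
  intro σ h1 h2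
  have e1 : (th Φ ε r T y).leaves = ⋃ σ ∈ y.leaves, (fs Φ ε r T σ).leaves := sbs_leaves y
  have e2 : (th Φ ε r T y').leaves = ⋃ σ ∈ y'.leaves, (fs Φ ε r T σ).leaves := sbs_leaves y'
  have h3 := (fs Φ ε r T σ).root_mem_leaves
  exact hd (e1 ▸ mem_iUnion₂.2 ⟨σ, h1, h3⟩) (e2 ▸ mem_iUnion₂.2 ⟨σ, h2, h3⟩)

/-- If `y` and `y'` have no common particle and one of them does not descend from `T`. -/
theorem disjoint_th (h : Setup Φ ε L U T r t) {y' : CTree} (hy : y.leaves ⊆ lwd Φ ε r U T)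
    (hy' : y'.leaves ⊆ lwd Φ ε r U T) (hd : Disjoint y.leaves y'.leaves)
    (hU : y.leaves ⊆ U ∨ y'.leaves ⊆ U) :
    Disjoint (th Φ ε r T y).leaves (th Φ ε r T y').leaves := by
  have hUT := disjoint_left.1 h.disj
  rw [disjoint_left] at hd ⊢
  intro σ h1 h2
  rcases hU with hU | hU
  · rw [th_of_subset h hU] at h1
    rcases th_leaves h hy' h2 with h3 | h3
    · exact hd h1 h3.1
    · exact hUT (hU h1) h3
  · rw [th_of_subset h hU] at h2
    rcases th_leaves h hy h1 with h3 | h3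
    · exact hd h3.1 h2
    · exact hUT (hU h2) h3

/-- The current line is the same. -/
theorem th_st (hΦ : IsPotential Φ) (hε : 0 < ε) (h : Setup Φ ε L U T r t)
    (hy : y.leaves ⊆ lwd Φ ε r U T) {s : ℝ} (hs : sig Φ ε y ≤ s) :
    st Φ ε (th Φ ε r T y) s = st Φ ε y s := by
  cases y with
  | leaf σ =>
    change st Φ ε (fs Φ ε r T σ) s = free s σ.2.1
    rcases hy (mem_singleton σ) with hσ | ⟨x, hx, rfl⟩
    · rw [fs_of_mem h hσ]; rfl
    · rw [fs_msrc h hx, st_after hΦ hε (ok_out h hx) ((h.le_r x hx).trans hs)]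
      rfl
  | node a b => exact th_st_node h hy s

/-- `own` for the two worlds. -/
theorem own_of_th (hΦ : IsPotential Φ) (hε : 0 < ε) (h : Setup Φ ε L U T r t) {q : CTree}
    (hq : q.leaves ⊆ lwd Φ ε r U T) (hy : y.leaves ⊆ lwd Φ ε r U T) {s : ℝ}
    (hsq : sig Φ ε q ≤ s) (hsy : ext Φ ε y ≤ s)
    (ho : own Φ ε (th Φ ε r T q) (th Φ ε r T y) s) : own Φ ε q y s := by
  obtain ⟨-, -, h3, h4⟩ := ho
  refine ⟨hsq, hsy, disjoint_of_th h3, ?_⟩
  rw [th_st hΦ hε h hq hsq, th_ln h hy] at h4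
  refine h4.imp id ?_
  rintro ⟨h5, a, b, h6, h7⟩
  cases q with
  | leaf σ =>
    exfalso
    have h8 := (fs_ext h (hq (mem_singleton σ)))
    exact absurd h5 (not_lt.2 (h8.trans hsq))
  | node c d =>
    rw [th_ext h hq] at h5
    rw [th_node] at h6
    injection h6 with h6 h8
    refine ⟨h5, c, d, rfl, ?_⟩
    have hdc : (node d c).leaves ⊆ lwd Φ ε r U T := union_subset (leaves_right hq) (leaves_left hq)
    rw [← h6, ← h8, ← th_node, th_st_node h hdc] at h7
    exact h7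

theorem th_own (hΦ : IsPotential Φ) (hε : 0 < ε) (h : Setup Φ ε L U T r t) {q : CTree}
    (hq : q.leaves ⊆ lwd Φ ε r U T) (hy : y.leaves ⊆ lwd Φ ε r U T) {s : ℝ}
    (hU : q.leaves ⊆ U ∨ y.leaves ⊆ U) (ho : own Φ ε q y s) :
    own Φ ε (th Φ ε r T q) (th Φ ε r T y) s := by
  obtain ⟨h1, h2, h3, h4⟩ := ho
  refine ⟨(th_sig_le hΦ hε h hq).trans h1, (th_ext_le h hy).trans h2,
    disjoint_th h hq hy h3 hU, ?_⟩
  rw [th_st hΦ hε h hq h1, th_ln h hy]
  refine h4.imp id ?_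
  rintro ⟨h5, a, b, rfl, h7⟩
  have hdc : (node b a).leaves ⊆ lwd Φ ε r U T := union_subset (leaves_right hq) (leaves_left hq)
  refine ⟨by rw [th_ext h hq]; exact h5, _, _, th_node a b, ?_⟩
  rw [← th_node, th_st_node h hdc]
  exact h7

end Vale.Agent.P119.TL
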