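import Vale.Agent.P119.TL.Lines

/-!
# P119: real worlds with later births (`helper119`)

`IsBW.rebirth`: in a real world the births of some particles are postponed: the particle is born
later on the line on which it is, and until then there is no force on the particles which are born
already.  The paths after the births stay the same.
-/

open MeasureTheory Filter Topology Set
open scoped ENNReal NNReal

noncomputable section

namespace Vale.Agent.P119.TL

open KU M M.CTree RB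

section general

variable {α κ : Type*} {Ψ Φ : E3 → ℝ} {ε : ℝ} {β : α → ℝ} {ℓ : α → Ph} {β' : κ → ℝ} {ℓ' : κ → Ph}
  {W : Finset α} {W' : Finset κ} {g : κ → α} {x : ℝ → α → Ph}

open Classical in
/-- The paths in the world with the later births. -/
def reb (β' : κ → ℝ) (ℓ' : κ → Ph) (W' : Finset κ) (g : κ → α) (x : ℝ → α → Ph) (t : ℝ)
    (j : κ) : Ph :=
  if j ∈ W' then if t ≤ β' j then free t (ℓ' j) else x t (g j) else free t (ℓ' j)

theorem reb_after (h0 : ∀ j ∈ W', x (β' j) (g j) = free (β' j) (ℓ' j)) {j : κ} (hj : j ∈ W')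
    {t : ℝ} (ht : β' j ≤ t) : reb β' ℓ' W' g x t j = x t (g j) := by
  classical
  unfold reb
  rw [if_pos hj]
  split_ifs with h
  · have : t = β' j := le_antisymm h ht
    rw [this, h0 j hj]
  · rfl

/-- **Rebirth**, smooth potentials. -/
theorem rebirth_isBW (hΨ : Sm Ψ) (hε : 0 < ε) (hx : IsBW Ψ ε β ℓ W x) (hg : BijOn g W' W)
    (hβ : ∀ j ∈ W', β (g j) ≤ β' j) (h0 : ∀ j ∈ W', x (β' j) (g j) = free (β' j) (ℓ' j))
    (hc : ∀ j ∈ W', ∀ k ∈ W', j ≠ k → max (β (g j)) (β (g k)) < max (β' j) (β' k) → ∀ s,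
      (s = max (β (g j)) (β (g k)) ∨
        (min (β' j) (β' k) ≤ s ∧ max (β (g j)) (β (g k)) ≤ s)) → s ≤ max (β' j) (β' k) →
      ε ≤ ‖(x s (g j)).1 - (x s (g k)).1‖) :
    IsBW Ψ ε β' ℓ' W' (reb β' ℓ' W' g x) := by
  classical
  have hafter : ∀ j ∈ W', ∀ t, β' j ≤ t → reb β' ℓ' W' g x t j = x t (g j) :=
    fun j hj t ht => reb_after h0 hj ht
  have hon : ∀ j ∈ W', ∀ k ∈ W', (On ε β' (reb β' ℓ' W' g x) j k ↔ On ε β x (g j) (g k)) := by
    intro j hj k hk
    have e1 := hafter j hj _ (le_max_left (β' j) (β' k))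
    have e2 := hafter k hk _ (le_max_right (β' j) (β' k))
    unfold On
    rw [e1, e2]
    rcases eq_or_ne j k with rfl | hne
    · simp only [sub_self, norm_zero]
    · have hm : max (β (g j)) (β (g k)) ≤ max (β' j) (β' k) := max_le_max (hβ j hj) (hβ k hk)
      rcases hm.lt_or_eq with h1 | h1
      · refine iff_of_true (hc j hj k hk hne h1 _ (Or.inr ⟨min_le_max, hm⟩) le_rfl)
          (hc j hj k hk hne h1 _ (Or.inl rfl) hm)
      · rw [h1]
  refine ⟨fun j hj t => ?_, fun j t ht => ?_, fun j => ?_, fun j hj t ht => ?_⟩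
  · unfold reb
    rw [if_neg hj]
  · unfold reb
    split_ifs <;> rfl
  · have hfree : Continuous fun t : ℝ => free t (ℓ' j) :=
      continuous_iff_continuousAt.2 fun t => (KU.hasDerivAt_free (ℓ' j) t).continuousAt
    by_cases hj : j ∈ W'
    · have e : (fun t => reb β' ℓ' W' g x t j) =
          fun t => if t ≤ β' j then free t (ℓ' j) else x t (g j) := by
        funext t
        unfold reb
        rw [if_pos hj]
      rw [e]
      refine Continuous.if_le hfree (hx.cont (g j)) continuous_id continuous_const ?_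
      rintro t rfl
      exact (h0 j hj).symm
    · have e : (fun t => reb β' ℓ' W' g x t j) = fun t => free t (ℓ' j) := by
        funext t
        unfold reb
        rw [if_neg hj]
      rw [e]
      exact hfree
  · have hgj : g j ∈ W := Finset.mem_coe.1 (hg.mapsTo (Finset.mem_coe.2 hj))
    have h1 := hx.deriv' hgj t
    set N := nbr ε β' W' (reb β' ℓ' W' g x) t j with hN
    have hNW : ∀ k ∈ N, k ∈ W' := fun k hk => (mem_nbr.1 hk).1
    have hsub : N.image g ⊆ nbr ε β W x t (g j) := by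
      intro a ha
      obtain ⟨k, hk, rfl⟩ := Finset.mem_image.1 ha
      obtain ⟨h2, h3, h4⟩ := mem_nbr.1 hk
      exact mem_nbr.2 ⟨Finset.mem_coe.1 (hg.mapsTo (Finset.mem_coe.2 h2)),
        (max_le_max (hβ j hj) (hβ k h2)).trans h3, (hon j hj k h2).1 h4⟩
    have h2 : frc Ψ ε (nbr ε β W x t (g j)) (x t) (g j) =
        frc Ψ ε N (reb β' ℓ' W' g x t) j := by
      rw [frc_subset hΨ hε hsub]
      · unfold frc
        congr 2
        rw [Finset.sum_image fun a ha b hb hab => hg.injOn (Finset.mem_coe.2 (hNW a ha))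
          (Finset.mem_coe.2 (hNW b hb)) hab]
        refine Finset.sum_congr rfl fun k hk => ?_
        rw [hafter j hj t ht, hafter k (hNW k hk) t ((le_max_right _ _).trans (mem_nbr.1 hk).2.1)]
      · intro a ha hna hne
        obtain ⟨h3, h4, h5⟩ := mem_nbr.1 ha
        obtain ⟨k, hk, rfl⟩ := hg.surjOn (Finset.mem_coe.2 h3)
        have hk : k ∈ W' := Finset.mem_coe.1 hk
        have hjk : j ≠ k := fun h => hne (by rw [h])
        have h6 : t < max (β' j) (β' k) := by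
          by_contra hcon
          exact hna (Finset.mem_image_of_mem g (mem_nbr.2 ⟨hk, not_lt.1 hcon,
            (hon j hj k hk).2 h5⟩))
        exact hc j hj k hk hjk (h4.trans_lt h6) t (Or.inr ⟨(min_le_left _ _).trans ht, h4⟩) h6.le
    rw [h2] at h1
    have e : reb β' ℓ' W' g x t j = x t (g j) := hafter j hj t ht
    rw [e]
    refine h1.congr (fun s hs => ?_) e
    exact hafter j hj s (ht.trans hs)

/-- **Rebirth.** -/
theorem rebirth (hΦ : IsPotential Φ) (hε : 0 < ε) (hg : BijOn g W' W)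
    (hβ : ∀ j ∈ W', β (g j) ≤ β' j)
    (h0 : ∀ j ∈ W', RB Φ ε β ℓ W (β' j) (g j) = free (β' j) (ℓ' j))
    (hc : ∀ j ∈ W', ∀ k ∈ W', j ≠ k → max (β (g j)) (β (g k)) < max (β' j) (β' k) → ∀ s,
      (s = max (β (g j)) (β (g k)) ∨
        (min (β' j) (β' k) ≤ s ∧ max (β (g j)) (β (g k)) ≤ s)) → s ≤ max (β' j) (β' k) →
      ε ≤ ‖(RB Φ ε β ℓ W s (g j)).1 - (RB Φ ε β ℓ W s (g k)).1‖) :
    ∀ j ∈ W', ∀ s, β' j ≤ s → RB Φ ε β' ℓ' W' s j = RB Φ ε β ℓ W s (g j) := by
  obtain ⟨k₀, hk₀, h⟩ := RB_spec hΦ hε β ℓ W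
  have h1 := RB_unique hΦ hε (β := β') (ℓ := ℓ') (W := W')
    (x := reb β' ℓ' W' g (RB Φ ε β ℓ W)) (k₀ := k₀) fun k hk =>
      rebirth_isBW (sm_trunc hΦ (hk₀.trans hk)) hε (h k hk).1 hg hβ h0 hc
  intro j hj s hs
  rw [← h1]
  exact reb_after h0 hj hs

end general

variable {Φ : E3 → ℝ} {ε : ℝ} {L : ℕ} {U : Set Src} {T : CTree} {r : CTree → ℝ} {t : ℝ}
  {hΦ : IsPotential Φ} {hε : 0 < ε} {W W' : Finset Src}

/-- **The real paths in the world of lines.** -/
theorem pos_of_setup (h : Setup Φ ε L U T r t) (hW : (W : Set Src) = U ∪ T.leaves)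
    (hW' : (W' : Set Src) = lwd Φ ε r U T) (h0 : ∀ a ∈ W, 0 ≤ a.1)
    (hrt : ∀ x ∈ outs T, r x ≤ t)
    (hR : ∀ x ∈ outs T, ∀ s < r x, ¬(Y Φ ε L hΦ hε).Exp W x.root s) :
    ∀ a ∈ W', ∀ s, a.1 ≤ s → XR Φ ε W' s a = XR Φ ε W s (rt Φ ε r T a) := by
  have hmem : ∀ a ∈ W', a ∈ lwd Φ ε r U T := fun a ha => by
    rw [← hW']; exact Finset.mem_coe.2 ha
  refine rebirth (β := fun a : Src => a.1) (ℓ := fun a : Src => a.2.1)
    (β' := fun a : Src => a.1) (ℓ' := fun a : Src => a.2.1) hΦ hε ?_ ?_ ?_ ?_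
  · rw [hW, hW']
    exact rt_bijOn h
  · exact fun a ha => rt_birth_le hΦ hε h (hmem a ha)
  · intro a ha
    rcases hmem a ha with ha' | ⟨x, hx, rfl⟩
    · rw [rt_of_mem h ha']
      exact (RB_isBW hΦ hε _ _ W).pre a _ le_rfl
    · rw [rt_msrc h hx]
      exact leg_real_birth (hΦ := hΦ) (hε := hε) h hW h0 hR hx
  · intro j hj k hk hne hm s hs hs'
    exact far_birth (hΦ := hΦ) (hε := hε) h hW h0 hrt hR (hmem j hj) (hmem k hk) hne hm hs hs'

/-- **TREE -> LINES.** -/
theorem lines (h : Setup Φ ε L U T r t) (hW : (W : Set Src) = U ∪ T.leaves)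
    (hW' : (W' : Set Src) = lwd Φ ε r U T) (h0 : ∀ a ∈ W, 0 ≤ a.1)
    (hrt : ∀ x ∈ outs T, r x ≤ t)
    (hR : ∀ x ∈ outs T, ∀ s < r x, ¬(Y Φ ε L hΦ hε).Exp W x.root s) :
    Lines Φ ε L hΦ hε W W' (rt Φ ε r T) (th Φ ε r T) t :=
  lines_of_pos h hW hW' hR (pos_of_setup h hW hW' h0 hrt hR)

end Vale.Agent.P119.TL
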