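import Vale.Agent.P119.TL.Rho
import Vale.Agent.P119.M.Sup

/-!
# P119: TREE -> LINES, the hypothesis `indep` from `NI` (`helper384`)

The world of lines of `T` is a world of the cube `Wc J`, `J ⊆ K`, in which the source of the history
`x` has the index `i x`; different histories with the same index have no common particle.

* `live_altered`, `alive_altered`: a tree which contains a source of index `i` is altered by `i`;
* `NI.not_hit`: two trees which contain sources of different indices do not hit each other;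
* `indep_of_NI`: the hypothesis `indep` of `Setup`.
-/

open MeasureTheory Filter Topology Set
open scoped ENNReal NNReal

noncomputable section

namespace Vale.Agent.P119.TL

open KU M M.CTree RB

section cube

variable {Φ : E3 → ℝ} {ε : ℝ} {L : ℕ} {ι : Type*} [DecidableEq ι] {Wc : Finset ι → Set Src}
  {K J : Finset ι} {i j : ι} {σ σ' : Src} {p y : CTree} {s t : ℝ}

/-- The source `σ` belongs to the index `i` of the cube: it is only present in the worlds `Wc J`,
`i ∈ J`. -/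
def Idx (Wc : Finset ι → Set Src) (K : Finset ι) (i : ι) (σ : Src) : Prop :=
  ∀ J, J ⊆ K → σ ∈ Wc J → i ∈ J

omit [DecidableEq ι] in
theorem Idx.not_mem_empty (h : Idx Wc K i σ) : σ ∉ Wc ∅ := fun hm =>
  Finset.notMem_empty i (h ∅ (Finset.empty_subset _) hm)

omit [DecidableEq ι] in
theorem Idx.eq_of_mem_single (h : Idx Wc K i σ) (hj : j ∈ K) (hm : σ ∈ Wc {j}) : i = j :=
  Finset.mem_singleton.1 (h {j} (Finset.singleton_subset_iff.2 hj) hm)

/-- A property which depends on one index only, and requires a source of index `i`. -/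
theorem dep_altered {P : Finset ι → Prop} (hP : Dep K P) (hi : ∀ J, J ⊆ K → P J → i ∈ J)
    (hJ : J ⊆ K) (h : P J) : i ∈ K ∧ ¬(P ∅ ↔ P {i}) := by
  obtain ⟨k, hk⟩ := hP
  have h0 : ¬P ∅ := fun h => Finset.notMem_empty i (hi ∅ (Finset.empty_subset _) h)
  rcases hk.const_or with h1 | ⟨h1, h2⟩
  · exact absurd ((h1 J ∅ hJ (Finset.empty_subset _)).1 h) h0
  · have h3 : P {k} := by
      by_contra hcon
      exact h2 ⟨fun h => absurd h h0, fun h => absurd h hcon⟩
    have h4 : i = k := Finset.mem_singleton.1 (hi {k} (Finset.singleton_subset_iff.2 h1) h3)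
    subst h4
    exact ⟨h1, h2⟩

/-- A live tree which contains a source of index `i` is altered by `i`. -/
theorem live_altered (hΦ : IsPotential Φ) (hε : 0 < ε) (hC : CubeW Wc K)
    (hNI : NI Φ ε L Wc K t) (hJ : J ⊆ K) (hs : s ≤ t) (hp : live Φ ε L (Wc J) p s)
    (hσ : σ ∈ p.leaves) (hi : Idx Wc K i σ) :
    i ∈ K ∧ ¬(live Φ ε L (Wc ∅) p s ↔ live Φ ε L (Wc {i}) p s) :=
  dep_altered (live_dep hΦ hε hC hNI p hs) (fun J' hJ' h => hi J' hJ' (h.sub hσ)) hJ hp

/-- An alive tree which contains a source of index `i` is altered by `i`. -/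
theorem alive_altered (hΦ : IsPotential Φ) (hε : 0 < ε) (hC : CubeW Wc K)
    (hNI : NI Φ ε L Wc K t) (hJ : J ⊆ K) (hs : s ≤ t) (hp : alive Φ ε L (Wc J) p s)
    (hσ : σ ∈ p.leaves) (hi : Idx Wc K i σ) :
    i ∈ K ∧ ¬(alive Φ ε L (Wc ∅) p s ↔ alive Φ ε L (Wc {i}) p s) :=
  dep_altered (alive_dep hΦ hε hC hNI p hs) (fun J' hJ' h => hi J' hJ' ((alive_pre h).sub hσ))
    hJ hp

/-- **Trees of different indices do not hit each other.** -/
theorem not_hit_of_NI (hΦ : IsPotential Φ) (hε : 0 < ε) (hC : CubeW Wc K)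
    (hNI : NI Φ ε L Wc K t) (hJ : J ⊆ K) (hs : s ≤ t) (hp : live Φ ε L (Wc J) p s)
    (hy : alive Φ ε L (Wc J) y s) (hσ : σ ∈ p.leaves) (hi : Idx Wc K i σ) (hσ' : σ' ∈ y.leaves)
    (hj : Idx Wc K j σ') (hij : i ≠ j) : ¬hit Φ ε p y s := by
  obtain ⟨h1, h2⟩ := live_altered hΦ hε hC hNI hJ hs hp hσ hi
  obtain ⟨h3, h4⟩ := alive_altered hΦ hε hC hNI hJ hs hy hσ' hj
  exact hNI.nohit i h1 j h3 hij s hs p y h2 h4

/-- All the inserted sources of a live tree have the same index. -/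
theorem idx_unique (hΦ : IsPotential Φ) (hε : 0 < ε) (hC : CubeW Wc K)
    (hNI : NI Φ ε L Wc K t) (hJ : J ⊆ K) (hs : s ≤ t) (hp : live Φ ε L (Wc J) p s)
    (hσ : σ ∈ p.leaves) (hi : Idx Wc K i σ) (hσ' : σ' ∈ p.leaves) (hj : Idx Wc K j σ') :
    i = j := by
  obtain ⟨h1, h2⟩ := live_altered hΦ hε hC hNI hJ hs hp hσ hi
  have h3 : live Φ ε L (Wc {i}) p s := by
    by_contra hcon
    refine h2 ⟨fun h => absurd (h.sub hσ) hi.not_mem_empty, fun h => absurd h hcon⟩
  exact (hj.eq_of_mem_single h1 (h3.sub hσ')).symm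

/-- The index of a source is unique. -/
theorem Idx.unique (hC : CubeW Wc K) (hi : Idx Wc K i σ) (hj : Idx Wc K j σ) (hJ : J ⊆ K)
    (hσ : σ ∈ Wc J) : i = j := by
  obtain ⟨h1, h2⟩ := dep_altered (hC.dep σ) hi hJ hσ
  have h3 : σ ∈ Wc {i} := by
    by_contra hcon
    exact h2 ⟨fun h => absurd h hi.not_mem_empty, fun h => absurd h hcon⟩
  exact (hj.eq_of_mem_single h1 h3).symm

omit [DecidableEq ι] in
/-- The indices in the standard cubes. -/
theorem idx_union {V : Set Src} {X : ι → Set Src} (hd : ∀ i j, i ≠ j → Disjoint (X i) (X j))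
    (hV : Disjoint V (X i)) (hσ : σ ∈ X i) : Idx (fun J => V ∪ ⋃ i ∈ J, X i) K i σ := by
  rintro J - (h | h)
  · exact absurd hσ (disjoint_left.1 hV h)
  · obtain ⟨j, hj, h⟩ := mem_iUnion₂.1 h
    by_cases hij : i = j
    · rw [hij]; exact hj
    · exact absurd h (disjoint_left.1 (hd i j hij) hσ)

end cube

variable {Φ : E3 → ℝ} {ε : ℝ} {L : ℕ} {U : Set Src} {T : CTree} {r : CTree → ℝ} {t : ℝ}

/-- The hypothesis `inj` of `Setup`. -/
theorem inj_of_idx {ι : Type*} [DecidableEq ι] {Wc : Finset ι → Set Src} {K J : Finset ι}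
    (hC : CubeW Wc K) (hJ : J ⊆ K) (hl : lwd Φ ε r U T = Wc J) (i : CTree → ι)
    (hi : ∀ x ∈ outs T, Idx Wc K (i x) (msrc Φ ε r x)) (hinj : InjOn i (outs T)) :
    InjOn (msrc Φ ε r) (outs T) := by
  intro x hx x' hx' he
  refine hinj hx hx' ((hi x hx).unique hC (he ▸ hi x' hx') hJ ?_)
  rw [← hl]
  exact msrc_mem hx

/-- The hypothesis `fresh` of `Setup`. -/
theorem fresh_of_idx {ι : Type*} {Wc : Finset ι → Set Src} {K J₀ : Finset ι} {i : ι} {x : CTree}
    (hJ₀ : J₀ ⊆ K) (hU : U ⊆ Wc J₀) (hi : Idx Wc K i (msrc Φ ε r x)) (hn : i ∉ J₀) :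
    msrc Φ ε r x ∉ U := fun h => hn (hi J₀ hJ₀ (hU h))

/-- **The hypothesis `indep` of `Setup`**: the world of lines is the world `Wc J` of a cube without
interaction, the sources of the histories have different indices. -/
theorem indep_of_NI (hΦ : IsPotential Φ) (hε : 0 < ε) {ι : Type*} [DecidableEq ι]
    {Wc : Finset ι → Set Src} {K J : Finset ι} (hC : CubeW Wc K) (hNI : NI Φ ε L Wc K t)
    (hJ : J ⊆ K) (hl : lwd Φ ε r U T = Wc J) (i : CTree → ι)
    (hi : ∀ x ∈ outs T, Idx Wc K (i x) (msrc Φ ε r x)) (hinj : InjOn i (outs T)) (p y : CTree)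
    (s : ℝ) (hs : s ≤ t) (hp : live Φ ε L (lwd Φ ε r U T) p s)
    (hy : alive Φ ε L (lwd Φ ε r U T) y s) (hd : Disjoint p.leaves y.leaves)
    (hh : hit Φ ε p y s) : p.leaves ⊆ U ∨ y.leaves ⊆ U := by
  by_contra hcon
  rw [not_or, not_subset, not_subset] at hcon
  obtain ⟨⟨σ, h1, h2⟩, σ', h3, h4⟩ := hcon
  obtain ⟨x, hx, rfl⟩ := (hp.sub h1).resolve_left h2
  obtain ⟨x', hx', rfl⟩ := ((alive_pre hy).sub h3).resolve_left h4
  have hne : x ≠ x' := by
    rintro rfl
    exact disjoint_left.1 hd h1 h3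
  rw [hl] at hp hy
  exact not_hit_of_NI hΦ hε hC hNI hJ hs hp hy h1 (hi x hx) h3 (hi x' hx')
    (fun h => hne (hinj hx hx' h)) hh

/-- **TREE -> LINES in a cube without interaction**: `T` is alive at the time `ρ` and its root has
not been exposed, the world of lines is a world of a cube without interaction in which the sources of
the histories have different indices. -/
theorem lines_of_NI {hΦ : IsPotential Φ} {hε : 0 < ε} {W W' : Finset Src} {ρ : ℝ}
    {ι : Type*} [DecidableEq ι] {Wc : Finset ι → Set Src} {K J : Finset ι}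
    (hC : CubeW Wc K) (hNI : NI Φ ε L Wc K t) (hJ : J ⊆ K)
    (i : CTree → ι) (hi : ∀ x ∈ outs T, Idx Wc K (i x) (msrc Φ ε (rho Φ ε T ρ) x))
    (hinj : InjOn i (outs T)) (hW' : (W' : Set Src) = Wc J)
    (hl : lwd Φ ε (rho Φ ε T ρ) U T = Wc J)
    (hd : Disjoint U T.leaves) (hW : (W : Set Src) = U ∪ T.leaves) (h0 : ∀ a ∈ W, 0 ≤ a.1)
    (fresh : ∀ x ∈ outs T, msrc Φ ε (rho Φ ε T ρ) x ∉ U)
    (hT : alive Φ ε L (U ∪ T.leaves) T ρ)
    (hlv : ρ = ext Φ ε T ∨ lives Φ ε L (U ∪ T.leaves) T ρ) (hρ : ρ ≤ t)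
    (hE : ∀ s < ρ, ¬(Y Φ ε L hΦ hε).Exp W T.root s) :
    Lines Φ ε L hΦ hε W W' (rt Φ ε (rho Φ ε T ρ) T) (th Φ ε (rho Φ ε T ρ) T) t := by
  have hU : U.Finite := W.finite_toSet.subset (by rw [hW]; exact subset_union_left)
  exact lines_rho hU hd hW (hW'.trans hl.symm) h0 hT hlv hρ hE
    (inj_of_idx hC hJ hl i hi hinj) fresh (indep_of_NI hΦ hε hC hNI hJ hl i hi hinj)

end Vale.Agent.P119.TL
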