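import Vale.Agent.P119.TL.Rebirth

/-!
# P119: TREE -> LINES for an alive tree whose root is reborn (`helper384`)

`setup_rho`: the hypotheses of TREE -> LINES for an alive tree `T` with unexposed root; the exhausts
are born at their exits, the root at the time `ρ`.
-/

open MeasureTheory Filter Topology Set
open scoped ENNReal NNReal

noncomputable section

namespace Vale.Agent.P119.TL

open KU M M.CTree RB

variable {Φ : E3 → ℝ} {ε : ℝ} {L : ℕ} {U : Set Src} {T : CTree} {ρ t : ℝ}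
  {hΦ : IsPotential Φ} {hε : 0 < ε} {W W' : Finset Src}

/-- The particles of `T` are not exposed before the births. -/
theorem not_exp_rho (hW : (W : Set Src) = U ∪ T.leaves)
    (hT : alive Φ ε L (U ∪ T.leaves) T ρ)
    (hE : ∀ s < ρ, ¬(Y Φ ε L hΦ hε).Exp W T.root s) :
    ∀ x ∈ outs T, ∀ s < rho Φ ε T ρ x, ¬(Y Φ ε L hΦ hε).Exp W x.root s := by
  intro x hx s hs
  rcases hx with rfl | hx
  · rw [rho_self] at hs
    exact hE s hs
  · rw [rho_exs (alive_pre hT).ok hx] at hs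
    rw [← hW] at hT
    refine leg_lemma (u := ρ) hT (fun s hs => hE s (hs.trans_le ?_)) hx hs
    exact (alive_pre hT).ext_le

/-- **The hypotheses of TREE -> LINES** for an alive tree with unexposed root. -/
theorem setup_rho (hU : U.Finite) (hd : Disjoint U T.leaves) (hW : (W : Set Src) = U ∪ T.leaves)
    (hT : alive Φ ε L (U ∪ T.leaves) T ρ)
    (hl : ρ = ext Φ ε T ∨ lives Φ ε L (U ∪ T.leaves) T ρ)
    (hE : ∀ s < ρ, ¬(Y Φ ε L hΦ hε).Exp W T.root s)
    (inj : InjOn (msrc Φ ε (rho Φ ε T ρ)) (outs T))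
    (fresh : ∀ x ∈ outs T, msrc Φ ε (rho Φ ε T ρ) x ∉ U)
    (indep : ∀ p y s, s ≤ t → live Φ ε L (lwd Φ ε (rho Φ ε T ρ) U T) p s →
      alive Φ ε L (lwd Φ ε (rho Φ ε T ρ) U T) y s → Disjoint p.leaves y.leaves →
      hit Φ ε p y s → p.leaves ⊆ U ∨ y.leaves ⊆ U) :
    Setup Φ ε L U T (rho Φ ε T ρ) t := by
  have hWf : (U ∪ T.leaves).Finite := hU.union T.leaves_finite
  have hok := (alive_pre hT).ok
  refine Setup.of_not_bad hΦ hε hU hd inj fresh (fun x hx => le_rho hok (alive_pre hT).ext_le hx)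
    (fun x hx => ?_) (fun x hx => ?_) (fun x hx u hu _ hbad => ?_) indep
  · rcases hx with rfl | hx
    · rw [rho_self]
      exact hT
    · rw [rho_exs hok hx]
      exact out_alive hΦ hε hWf hT hx
  · rcases hx with rfl | hx
    · rw [rho_self]
      exact hl
    · exact Or.inl (rho_exs hok hx ρ)
  · rw [← hW] at hbad
    exact not_exp_rho hW hT hE x hx u hu (exp_of_badi hbad le_rfl)

/-- **TREE -> LINES** for an alive tree with unexposed root. -/
theorem lines_rho (hU : U.Finite) (hd : Disjoint U T.leaves) (hW : (W : Set Src) = U ∪ T.leaves)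
    (hW' : (W' : Set Src) = lwd Φ ε (rho Φ ε T ρ) U T) (h0 : ∀ a ∈ W, 0 ≤ a.1)
    (hT : alive Φ ε L (U ∪ T.leaves) T ρ)
    (hl : ρ = ext Φ ε T ∨ lives Φ ε L (U ∪ T.leaves) T ρ) (hρ : ρ ≤ t)
    (hE : ∀ s < ρ, ¬(Y Φ ε L hΦ hε).Exp W T.root s)
    (inj : InjOn (msrc Φ ε (rho Φ ε T ρ)) (outs T))
    (fresh : ∀ x ∈ outs T, msrc Φ ε (rho Φ ε T ρ) x ∉ U)
    (indep : ∀ p y s, s ≤ t → live Φ ε L (lwd Φ ε (rho Φ ε T ρ) U T) p s →
      alive Φ ε L (lwd Φ ε (rho Φ ε T ρ) U T) y s → Disjoint p.leaves y.leaves →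
      hit Φ ε p y s → p.leaves ⊆ U ∨ y.leaves ⊆ U) :
    Lines Φ ε L hΦ hε W W' (rt Φ ε (rho Φ ε T ρ) T) (th Φ ε (rho Φ ε T ρ) T) t :=
  lines (setup_rho hU hd hW hT hl hE inj fresh indep) hW hW' h0
    (fun _ hx => (rho_le hΦ hε (alive_pre hT).ok (alive_pre hT).ext_le hx).trans hρ)
    (not_exp_rho hW hT hE)

end Vale.Agent.P119.TL
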