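import Vale.Agent.P119.TL.Base
import Vale.Agent.P119.TL.Rho
import Vale.Agent.P119.PB.TreeMeas

/-!
# P119: TREE -> LINES, the three replacements of ONE STEP (`helper119`)

`T` is an alive tree, `y = node T (leaf l)` its collision with the source `l`, `V` the base.

* (A) the world `w` with `T`; the root is reborn at the time of the hit: `V ∪ exl T ∪ {kc}`;
* (B1) the world `insert l w` with `T`; all sources at the exits: `V ∪ exl T ∪ {rsrc T, l}`;
* (B2) the world `insert l w` with `y`: `V ∪ exl T ∪ {rsrc y, rsrc (node (leaf l) T)}`.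
-/

open MeasureTheory Filter Topology Set
open scoped ENNReal NNReal

noncomputable section

namespace Vale.Agent.P119.TL

open KU M M.CTree RB

variable {Φ : E3 → ℝ} {ε : ℝ} {L : ℕ} {hΦ : IsPotential Φ} {hε : 0 < ε}
  {V W w : Finset Src} {T : CTree} {l : Src} {ρ t s : ℝ}

/-- The sources of the other particles of `T`. -/
def exl (Φ : E3 → ℝ) (ε : ℝ) (T : CTree) : Finset Src :=
  ((exs_finite T).image (rsrc Φ ε)).toFinset

theorem coe_exl : (exl Φ ε T : Set Src) = rsrc Φ ε '' exs T := by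
  unfold exl
  rw [Finite.coe_toFinset]

theorem msrc_rho_exs (hT : ok Φ ε T) {x : CTree} (hx : x ∈ exs T) :
    msrc Φ ε (rho Φ ε T ρ) x = rsrc Φ ε x := by
  unfold msrc rsrc
  rw [rho_exs hT hx]

theorem msrc_rho_self : msrc Φ ε (rho Φ ε T ρ) T = (ρ, ln Φ ε T, T.depth) := by
  unfold msrc
  rw [rho_self]

open Classical in
/-- The world of lines; the root is reborn at the time `ρ`. -/
def lnw (Φ : E3 → ℝ) (ε : ℝ) (V : Finset Src) (T : CTree) (ρ : ℝ) : Finset Src :=
  V ∪ exl Φ ε T ∪ {(ρ, ln Φ ε T, T.depth)}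

theorem coe_lnw (hT : ok Φ ε T) :
    (lnw Φ ε V T ρ : Set Src) = lwd Φ ε (rho Φ ε T ρ) (V : Set Src) T := by
  classical
  unfold lnw lwd outs
  rw [Finset.coe_union, Finset.coe_union, coe_exl, Finset.coe_singleton, image_insert_eq,
    msrc_rho_self, union_assoc, union_singleton]
  congr 2
  exact image_congr fun x hx => (msrc_rho_exs hT hx).symm

/-- The hypotheses of TREE -> LINES in the world of lines. -/
structure LGood (Φ : E3 → ℝ) (ε : ℝ) (L : ℕ) (V : Finset Src) (T : CTree) (ρ t : ℝ) : Prop where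
  /-- the new sources are distinct -/
  inj : InjOn (msrc Φ ε (rho Φ ε T ρ)) (outs T)
  /-- the new sources are not in the base -/
  fresh : ∀ x ∈ outs T, msrc Φ ε (rho Φ ε T ρ) x ∉ V
  /-- no contact between two descendants of `T` -/
  indep : ∀ p y s, s ≤ t → live Φ ε L (lwd Φ ε (rho Φ ε T ρ) (V : Set Src) T) p s →
    alive Φ ε L (lwd Φ ε (rho Φ ε T ρ) (V : Set Src) T) y s → Disjoint p.leaves y.leaves →
    hit Φ ε p y s → p.leaves ⊆ (V : Set Src) ∨ y.leaves ⊆ (V : Set Src)

/-- `T` is an alive tree with unexposed root in the world `W = V ∪ T.leaves`, until `ρ`. -/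
structure TGood (Φ : E3 → ℝ) (ε : ℝ) (L : ℕ) (hΦ : IsPotential Φ) (hε : 0 < ε) (V : Finset Src)
    (T : CTree) (W : Finset Src) (ρ t : ℝ) : Prop where
  /-- the particles of `T` do not belong to the base -/
  disj : Disjoint (V : Set Src) T.leaves
  /-- the world -/
  eq : (W : Set Src) = (V : Set Src) ∪ T.leaves
  /-- births -/
  births : ∀ a ∈ W, 0 ≤ a.1
  /-- `T` is alive -/
  alive : alive Φ ε L (W : Set Src) T ρ
  /-- no hit at the time `ρ`, if this is later than the exit -/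
  lives : ρ = ext Φ ε T ∨ lives Φ ε L (W : Set Src) T ρ
  /-- the root is not exposed -/
  unexp : ∀ s < ρ, ¬(Y Φ ε L hΦ hε).Exp W T.root s
  /-- the times -/
  le : ρ ≤ t

theorem TGood.ok (h : TGood Φ ε L hΦ hε V T W ρ t) : ok Φ ε T := (alive_pre h.alive).ok

theorem TGood.setup (h : TGood Φ ε L hΦ hε V T W ρ t) (hl : LGood Φ ε L V T ρ t) :
    Setup Φ ε L (V : Set Src) T (rho Φ ε T ρ) t := by
  refine setup_rho (hΦ := hΦ) (hε := hε) V.finite_toSet h.disj h.eq ?_ ?_ h.unexp hl.inj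
    (fun x hx hm => hl.fresh x hx (Finset.mem_coe.1 hm)) hl.indep
  · rw [← h.eq]; exact h.alive
  · rw [← h.eq]; exact h.lives

/-- **The replacement of `T` by its lines.** -/
theorem TGood.rep (h : TGood Φ ε L hΦ hε V T W ρ t) (hl : LGood Φ ε L V T ρ t) :
    Rep Φ ε L hΦ hε W (lnw Φ ε V T ρ) (fs Φ ε (rho Φ ε T ρ) T) t := by
  have hT : M.alive Φ ε L ((V : Set Src) ∪ T.leaves) T ρ := by rw [← h.eq]; exact h.alive
  exact Rep.of_setup (h.setup hl) h.eq (coe_lnw h.ok) h.births
    (fun x hx => (rho_le hΦ hε h.ok (alive_pre h.alive).ext_le hx).trans h.le)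
    (not_exp_rho h.eq hT h.unexp)

/-- Touches of the base. -/
theorem TGood.touch_base (h : TGood Φ ε L hΦ hε V T W ρ t) (hl : LGood Φ ε L V T ρ t)
    (hs : s ≤ t) : (Y Φ ε L hΦ hε).Touch V W s ↔
      (Y Φ ε L hΦ hε).Touch V (lnw Φ ε V T ρ) s := by
  classical
  have hset := h.setup hl
  refine (h.rep hl).touch_base (fun a ha => h.births a ?_) (fun a ha => ⟨?_, ?_⟩)
    (fun a ha hn => ?_) hs
  · rw [← Finset.mem_coe, h.eq]
    exact Or.inl (Finset.mem_coe.2 ha)
  · unfold lnw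
    exact Finset.mem_union_left _ (Finset.mem_union_left _ ha)
  · exact fs_of_mem hset (Finset.mem_coe.2 ha)
  · rw [← Finset.mem_coe, coe_lnw h.ok] at ha
    rcases ha with ha | ⟨x, hx, rfl⟩
    · exact absurd (Finset.mem_coe.1 ha) hn
    · rw [fs_msrc hset hx]
      exact (h.disj.mono_right (outs_leaves hx)).symm

/-! ### The collision with `l` -/

theorem exs_node_leaf {l : Src} : exs (node T (leaf l)) = exs T ∪ {node (leaf l) T} := by
  change exs T ∪ exs (leaf l) ∪ {node (leaf l) T} = _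
  rw [show exs (leaf l) = ∅ from rfl, union_empty]

theorem exl_node_leaf [DecidableEq Src] : exl Φ ε (node T (leaf l)) =
    exl Φ ε T ∪ {rsrc Φ ε (node (leaf l) T)} := by
  apply Finset.coe_injective
  rw [Finset.coe_union, coe_exl, coe_exl, exs_node_leaf, image_union, image_singleton,
    Finset.coe_singleton]

theorem lnw_node_leaf [DecidableEq Src] :
    lnw Φ ε V (node T (leaf l)) (ext Φ ε (node T (leaf l))) =
    V ∪ exl Φ ε T ∪ {rsrc Φ ε (node T (leaf l)), rsrc Φ ε (node (leaf l) T)} := by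
  apply Finset.coe_injective
  unfold lnw
  simp only [Finset.coe_union, Finset.coe_singleton, exl_node_leaf, Finset.coe_insert]
  change (V : Set Src) ∪ (exl Φ ε T ∪ {rsrc Φ ε (node (leaf l) T)}) ∪
    {rsrc Φ ε (node T (leaf l))} = _
  ext a
  simp only [mem_union, mem_singleton_iff, mem_insert_iff]
  tauto

theorem lnw_insert [DecidableEq Src] : lnw Φ ε (insert l V) T (ext Φ ε T) =
    V ∪ exl Φ ε T ∪ {rsrc Φ ε T, l} := by
  apply Finset.coe_injective
  unfold lnw
  simp only [Finset.coe_union, Finset.coe_singleton, Finset.coe_insert]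
  change insert l (V : Set Src) ∪ exl Φ ε T ∪ {rsrc Φ ε T} = _
  ext a
  simp only [mem_union, mem_singleton_iff, mem_insert_iff]
  tauto

/-- **(A) -> (B1)**: during the collision. -/
theorem touch_pair [DecidableEq Src] (hA : TGood Φ ε L hΦ hε V T w (sig Φ ε (node T (leaf l))) t)
    (hB : TGood Φ ε L hΦ hε (insert l V) T (insert l w) (ext Φ ε T) t)
    (lA : LGood Φ ε L V T (sig Φ ε (node T (leaf l))) t)
    (lB : LGood Φ ε L (insert l V) T (ext Φ ε T) t) (hy : ok Φ ε (node T (leaf l)))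
    (hs : s ≤ t) (h : (Y Φ ε L hΦ hε).Touch w (insert l w) s) :
    (Y Φ ε L hΦ hε).Touch (lnw Φ ε V T (sig Φ ε (node T (leaf l))))
      (lnw Φ ε (insert l V) T (ext Φ ε T)) s := by
  have hok := hA.ok
  have hl : l.1 < sig Φ ε (node T (leaf l)) := hy.2.2.2.2.2.2
  refine (hA.rep lA).touch (hB.rep lB) (fun a ha ha' => ?_) hs h
  rw [← Finset.mem_coe, coe_lnw hok] at ha ha'
  refine fs_agree (hA.setup lA) (hB.setup lB) ?_ ?_ ?_ ha ha'
  · intro x₁ hx₁ x₂ hx₂ he
    rcases hx₁ with rfl | hx₁ <;> rcases hx₂ with rfl | hx₂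
    · rfl
    · rw [msrc_rho_exs hok hx₂, ← msrc_rho_exs (ρ := sig Φ ε (node x₁ (leaf l))) hok hx₂] at he
      exact lA.inj (Or.inl rfl) (Or.inr hx₂) he
    · rw [msrc_rho_exs hok hx₁, ← msrc_rho_exs (ρ := ext Φ ε x₂) hok hx₁] at he
      exact lB.inj (Or.inr hx₁) (Or.inl rfl) he
    · rw [msrc_rho_exs hok hx₁, msrc_rho_exs hok hx₂,
        ← msrc_rho_exs (ρ := ext Φ ε T) hok hx₁, ← msrc_rho_exs (ρ := ext Φ ε T) hok hx₂] at he
      exact lB.inj (Or.inr hx₁) (Or.inr hx₂) he
  · rintro x hx hm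
    rcases Finset.mem_insert.1 (Finset.mem_coe.1 hm) with hm | hm
    · rcases hx with rfl | hx
      · rw [msrc_rho_self] at hm
        have h3 : sig Φ ε (node x (leaf l)) = l.1 := congrArg (fun q : Src => q.1) hm
        exact absurd hl (not_lt.2 h3.le)
      · refine lB.fresh x (Or.inr hx) ?_
        rw [msrc_rho_exs hok hx] at hm ⊢
        rw [hm]
        exact Finset.mem_insert_self _ _
    · exact lA.fresh x hx hm
  · exact fun x hx hm => lB.fresh x hx (Finset.mem_insert_of_mem (Finset.mem_coe.1 hm))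

/-- **(A) -> (B2)**: after the collision. -/
theorem touch_node [DecidableEq Src] (hA : TGood Φ ε L hΦ hε V T w (sig Φ ε (node T (leaf l))) t)
    (hB : TGood Φ ε L hΦ hε V (node T (leaf l)) (insert l w) (ext Φ ε (node T (leaf l))) t)
    (lA : LGood Φ ε L V T (sig Φ ε (node T (leaf l))) t)
    (lB : LGood Φ ε L V (node T (leaf l)) (ext Φ ε (node T (leaf l))) t)
    (hs : s ≤ t) (h : (Y Φ ε L hΦ hε).Touch w (insert l w) s) :
    (Y Φ ε L hΦ hε).Touch (lnw Φ ε V T (sig Φ ε (node T (leaf l))))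
      (lnw Φ ε V (node T (leaf l)) (ext Φ ε (node T (leaf l)))) s := by
  have hok := hA.ok
  have hy := hB.ok
  have h1 : ext Φ ε T < sig Φ ε (node T (leaf l)) := hy.2.2.2.2.2.1
  have h2 := sig_lt_ext hΦ hε hy
  refine (hA.rep lA).touch (hB.rep lB) (fun a ha ha' => ?_) hs h
  rw [← Finset.mem_coe, coe_lnw hok] at ha
  rw [← Finset.mem_coe, coe_lnw hy] at ha'
  refine fs_agree (hA.setup lA) (hB.setup lB) ?_ ?_ ?_ ha ha'
  · intro x₁ hx₁ x₂ hx₂ he
    -- the birth of `x₁` is before the exit of the collision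
    have hb₁ : (msrc Φ ε (rho Φ ε T (sig Φ ε (node T (leaf l)))) x₁).1 <
        ext Φ ε (node T (leaf l)) :=
      (rho_le hΦ hε hok h1.le hx₁).trans_lt h2
    have key : x₂ ∈ exs T := by
      rcases hx₂ with rfl | hx₂
      · rw [he, msrc_rho_self] at hb₁
        exact absurd hb₁ (lt_irrefl _)
      · have hx₂' := hx₂
        rw [exs_node_leaf] at hx₂'
        rcases hx₂' with hx₂' | hx₂'
        · exact hx₂'
        · rw [he, msrc_rho_exs hy hx₂, mem_singleton_iff.1 hx₂'] at hb₁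
          have e1 : (rsrc Φ ε (node (leaf l) T)).1 = ext Φ ε (node T (leaf l)) :=
            ext_swap hΦ T (leaf l)
          rw [e1] at hb₁
          exact absurd hb₁ (lt_irrefl _)
    have hx₂y : x₂ ∈ exs (node T (leaf l)) := by rw [exs_node_leaf]; exact Or.inl key
    rw [msrc_rho_exs hy hx₂y,
      ← msrc_rho_exs (ρ := sig Φ ε (node T (leaf l))) hok key] at he
    exact lA.inj hx₁ (Or.inr key) he
  · exact fun x hx hm => lA.fresh x hx (Finset.mem_coe.1 hm)
  · exact fun x hx hm => lB.fresh x hx (Finset.mem_coe.1 hm)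

end Vale.Agent.P119.TL
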