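import Vale.Agent.P119.TL.Equiv

/-!
# P119: TREE -> LINES, the labels (`helper119`)

`rt σ` is the label in `U ∪ T.leaves` of the source `σ` of the world of lines.
-/

open MeasureTheory Filter Topology Set
open scoped ENNReal NNReal

noncomputable section

namespace Vale.Agent.P119.TL

open KU M M.CTree

variable {Φ : E3 → ℝ} {ε : ℝ} {L : ℕ} {U : Set Src} {T : CTree} {r : CTree → ℝ} {t : ℝ}

/-- The label in `U ∪ T.leaves` of the source `σ` of the world of lines. -/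
def rt (Φ : E3 → ℝ) (ε : ℝ) (r : CTree → ℝ) (T : CTree) (σ : Src) : Src := (fs Φ ε r T σ).root

theorem rt_msrc (h : Setup Φ ε L U T r t) {x : CTree} (hx : x ∈ outs T) :
    rt Φ ε r T (msrc Φ ε r x) = x.root := by
  unfold rt
  rw [fs_msrc h hx]

theorem rt_of_mem (h : Setup Φ ε L U T r t) {σ : Src} (hσ : σ ∈ U) : rt Φ ε r T σ = σ := by
  unfold rt
  rw [fs_of_mem h hσ]
  rfl

theorem th_root (y : CTree) : (th Φ ε r T y).root = rt Φ ε r T y.root := sbs_root y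

theorem rt_mem (h : Setup Φ ε L U T r t) {σ : Src} (hσ : σ ∈ lwd Φ ε r U T) :
    rt Φ ε r T σ ∈ U ∪ T.leaves := by
  rcases hσ with hσ | ⟨x, hx, rfl⟩
  · rw [rt_of_mem h hσ]; exact Or.inl hσ
  · rw [rt_msrc h hx]; exact Or.inr (outs_leaves hx x.root_mem_leaves)

theorem rt_injOn (h : Setup Φ ε L U T r t) : InjOn (rt Φ ε r T) (lwd Φ ε r U T) :=
  fun _ hσ _ hσ' he => fs_root_inj h hσ hσ' he

theorem rt_surjOn (h : Setup Φ ε L U T r t) :
    SurjOn (rt Φ ε r T) (lwd Φ ε r U T) (U ∪ T.leaves) := by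
  rintro σ (hσ | hσ)
  · exact ⟨σ, Or.inl hσ, rt_of_mem h hσ⟩
  · obtain ⟨x, hx, rfl⟩ := exists_out hσ
    exact ⟨msrc Φ ε r x, Or.inr ⟨x, hx, rfl⟩, rt_msrc h hx⟩

theorem rt_bijOn (h : Setup Φ ε L U T r t) :
    BijOn (rt Φ ε r T) (lwd Φ ε r U T) (U ∪ T.leaves) :=
  ⟨fun _ => rt_mem h, rt_injOn h, rt_surjOn h⟩

/-- The births are later in the world of lines. -/
theorem rt_birth_le (hΦ : IsPotential Φ) (hε : 0 < ε) (h : Setup Φ ε L U T r t) {σ : Src}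
    (hσ : σ ∈ lwd Φ ε r U T) : (rt Φ ε r T σ).1 ≤ σ.1 := by
  rcases hσ with hσ | ⟨x, hx, rfl⟩
  · rw [rt_of_mem h hσ]
  · rw [rt_msrc h hx]
    exact ((root_birth_le_sig hΦ hε (ok_out h hx)).trans (sig_le_ext hΦ hε (ok_out h hx))).trans
      (h.le_r x hx)

end Vale.Agent.P119.TL
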