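import Vale.Agent.P119.TL.Leg
import Vale.Agent.P119.TL.Rt

/-!
# P119: TREE -> LINES, the partners of the legs (`helper119`)

* `part_mem`: the partners of the legs of `T` are particles of `T`;
* `part_out`: both are before their exits.
-/

open MeasureTheory Filter Topology Set
open scoped ENNReal NNReal

noncomputable section

namespace Vale.Agent.P119.TL

open KU M M.CTree RB

variable {Φ : E3 → ℝ} {ε : ℝ} {L : ℕ} {U : Set Src} {T : CTree} {r : CTree → ℝ} {t : ℝ}

/-- A final history is not a proper subtree of another one. -/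
theorem outs_eq_of_sub (hT : M.CTree.ok Φ ε T) {x x' : CTree} (hx : x ∈ outs T)
    (hx' : x' ∈ outs T) (h : Sub x' x) : x' = x := by
  have key : ∀ Q, Sub Q T → Sub x' Q → Q.card < T.card → False := by
    intro Q hQ h1 h2
    rcases hx' with rfl | hx'
    · exact absurd h1.card_le (not_le.2 h2)
    · exact not_sub_of_exs hT hx' (h1.trans hQ)
  rcases hx with rfl | hx
  · rcases hx' with rfl | hx'
    · rfl
    · exact absurd h (not_sub_of_exs hT hx')
  · obtain ⟨a, b, hab, rfl⟩ := exs_iff.1 hx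
    have hc := hab.card_le
    have ha := a.card_pos
    have hb := b.card_pos
    simp only [CTree.card] at hc
    cases h with
    | refl => rfl
    | left _ h => exact (key b ((Sub.right a (Sub.refl b)).trans hab) h (by omega)).elim
    | right _ h => exact (key a ((Sub.left b (Sub.refl a)).trans hab) h (by omega)).elim

theorem sub_sbs {f : Src → CTree} {y : CTree} {σ : Src} (h : σ ∈ y.leaves) :
    Sub (f σ) (sbs f y) := by
  induction y with
  | leaf τ =>
    rw [mem_singleton_iff.1 h]
    exact Sub.refl _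
  | node a b iha ihb =>
    rcases h with h | h
    · exact Sub.left _ (iha h)
    · exact Sub.right _ (ihb h)

theorem Spine.sub {X Y : CTree} (h : Spine X Y) : Sub X Y := by
  induction h with
  | refl => exact Sub.refl _
  | left b _ ih => exact Sub.left b ih

theorem part_spec {W : Set Src} {a b : Src} {s : ℝ} (hΦ : IsPotential Φ) (hε : 0 < ε)
    (hW : W.Finite) (hp : part Φ ε L W s a b) : ∃ p q : CTree, p.root = a ∧ q.root = b ∧
      stat Φ ε L W a s = some (node p q) ∧ stat Φ ε L W b s = some (node q p) ∧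
      lives Φ ε L W (node p q) s ∧ lives Φ ε L W (node q p) s ∧ s < ext Φ ε (node p q) := by
  obtain ⟨X, Y, h1, h2, p, q, rfl, rfl, h3⟩ := hp
  have h4 := (stat_eq_some_iff hΦ hε hW).1 h1
  have h5 := (stat_eq_some_iff hΦ hε hW).1 h2
  exact ⟨p, q, h4.1, h5.1, h1, h2, h4.2, h5.2, h3⟩

theorem stat_leg' (hΦ : IsPotential Φ) (hε : 0 < ε) (h : Setup Φ ε L U T r t) {x X : CTree}
    {s : ℝ} (hx : x ∈ outs T) (hxs : s < r x) (hl : lives Φ ε L (U ∪ T.leaves) X s)
    (hX : X.root = x.root) : X = cur Φ ε x s := by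
  have h1 : stat Φ ε L (U ∪ T.leaves) x.root s = some X :=
    (stat_eq_some_iff hΦ hε (wd_finite h)).2 ⟨hX, hl⟩
  have h2 : x.root.1 ≤ s := hX ▸ live.birth_le hΦ hε hl.live
  rw [stat_leg hΦ hε h hx hxs h2] at h1
  exact (Option.some_inj.1 h1).symm

/-- The current tree of a leg in a collision. -/
theorem leg_node (hΦ : IsPotential Φ) (hε : 0 < ε) (h : Setup Φ ε L U T r t) {x p q : CTree}
    {s : ℝ} (hx : x ∈ outs T) (hxs : s < r x) (hl : lives Φ ε L (U ∪ T.leaves) (node p q) s)
    (hp : p.root = x.root) (hs : s < ext Φ ε (node p q)) :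
    Sub (node p q) x ∧ s < ext Φ ε x := by
  have h1 := stat_leg' hΦ hε h hx hxs hl hp
  refine ⟨h1 ▸ Spine.sub (cur_spine x s), ?_⟩
  by_contra hcon
  rw [not_lt] at hcon
  have h2 : cur Φ ε x s = x := cur_of_sig_le ((sig_le_ext hΦ hε (ok_out h hx)).trans hcon)
  rw [h2] at h1
  rw [h1] at hs
  exact absurd hs (not_lt.2 hcon)

/-- The partner of a leg belongs to `T`. -/
theorem part_mem (hΦ : IsPotential Φ) (hε : 0 < ε) (h : Setup Φ ε L U T r t) {x : CTree}
    {b : Src} {s : ℝ} (hx : x ∈ outs T) (hxs : s < r x)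
    (hp : part Φ ε L (U ∪ T.leaves) s x.root b) : b ∈ T.leaves := by
  obtain ⟨p, q, hp1, rfl, h1, h2, h3, h4, h5⟩ := part_spec hΦ hε (wd_finite h) hp
  obtain ⟨h6, -⟩ := leg_node hΦ hε h hx hxs h3 hp1 h5
  exact outs_leaves hx (h6.leaves_subset (Or.inr q.root_mem_leaves))

theorem births_lt (hΦ : IsPotential Φ) (hε : 0 < ε) {p q : CTree}
    (hok : ok Φ ε (node p q)) : p.root.1 < sig Φ ε (node p q) ∧ q.root.1 < sig Φ ε (node p q) :=
  ⟨((root_birth_le_sig hΦ hε hok.1).trans (sig_le_ext hΦ hε hok.1)).trans_lt hok.2.2.2.2.2.1,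
    ((root_birth_le_sig hΦ hε hok.2.1).trans (sig_le_ext hΦ hε hok.2.1)).trans_lt
      hok.2.2.2.2.2.2⟩

/-- **A leg and its partner are before their exits.** -/
theorem part_out (hΦ : IsPotential Φ) (hε : 0 < ε) (h : Setup Φ ε L U T r t) {x x' : CTree}
    {s : ℝ} (hs : s ≤ t) (hx : x ∈ outs T) (hx' : x' ∈ outs T) (hxs : s < r x)
    (hp : part Φ ε L (U ∪ T.leaves) s x.root x'.root) :
    s < ext Φ ε x ∧ s < ext Φ ε x' ∧ x.root.1 < s ∧ x'.root.1 < s := by
  obtain ⟨p, q, hp1, hq1, h1, h2, h3, h4, h5⟩ := part_spec hΦ hε (wd_finite h) hp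
  obtain ⟨h6, h7⟩ := leg_node hΦ hε h hx hxs h3 hp1 h5
  have hb := births_lt hΦ hε h3.ok
  have h5' : s < ext Φ ε (node q p) := by rw [ext_swap hΦ p q]; exact h5
  refine ⟨h7, ?_, hp1 ▸ hb.1.trans_le h3.sig_le, hq1 ▸ hb.2.trans_le h3.sig_le⟩
  rcases lt_or_ge s (r x') with h8 | h8
  · exact (leg_node hΦ hε h hx' h8 h4 hq1 h5').2
  · exfalso
    -- the tree of the partner comes from the world of lines
    have h9 := stat_out hΦ hε h hs hx' h8
    rw [h2] at h9
    obtain ⟨y, hy, hy'⟩ := Option.map_eq_some_iff.1 h9.symm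
    have h10 := (stat_eq_some_iff hΦ hε (lwd_finite h)).1 hy
    have h11 : Sub x' (node q p) := by
      have h12 : Sub (fs Φ ε r T y.root) (th Φ ε r T y) := sub_sbs y.root_mem_leaves
      rwa [h10.1, fs_msrc h hx', hy'] at h12
    have h13 : r x' < ext Φ ε (node q p) := h8.trans_lt h5'
    have h14 := h.le_r x' hx'
    have hcx := h6.card_le
    have hpc := p.card_pos
    have hqc := q.card_pos
    simp only [CTree.card] at hcx
    have key : Sub x' x → x'.card < x.card → False := by
      intro h15 h16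
      have := outs_eq_of_sub (ok_T h) hx hx' h15
      rw [this] at h16
      exact lt_irrefl _ h16
    cases h11 with
    | refl => linarith
    | left _ h12 =>
      have h15 : Sub x' x := h12.trans ((Sub.right p (Sub.refl q)).trans h6)
      exact key h15 (by have := h12.card_le; omega)
    | right _ h12 =>
      have h15 : Sub x' x := h12.trans ((Sub.left q (Sub.refl p)).trans h6)
      exact key h15 (by have := h12.card_le; omega)

end Vale.Agent.P119.TL
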