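import Vale.Agent.P119.TL.Inst
import Vale.Agent.P119.FB.Conc1

/-!
# P119: the first contact of an inserted source (`helper119`)

`l ∉ w` is inserted in the world `w`; until its first M-contact `s₁` there is no touch of
`w` and `insert l w`.  Then `l` is at time `s₁` in a collision with an unexposed alive tree `T` of `w`
(`exists_hit1`), and the hypotheses `TGood` of TREE -> LINES hold for the three replacements:
`Hit1.tgood_A`, `Hit1.tgood_B1`, `Hit1.tgood_B2`.
-/

open MeasureTheory Filter Topology Set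
open scoped ENNReal NNReal

noncomputable section

namespace Vale.Agent.P119.TL

open KU M M.CTree RB

variable {Φ : E3 → ℝ} {ε : ℝ} {L : ℕ} {hΦ : IsPotential Φ} {hε : 0 < ε}
  {V w : Finset Src} {T : CTree} {l : Src} {s₁ t : ℝ}

/-- The first contact of `l` is the collision with the tree `T`. -/
structure Hit1 (Φ : E3 → ℝ) (ε : ℝ) (L : ℕ) (hΦ : IsPotential Φ) (hε : 0 < ε) (w : Finset Src)
    (l : Src) (T : CTree) : Prop where
  /-- `l` is new -/
  notMem : l ∉ w
  /-- births -/
  births : ∀ a ∈ insert l w, 0 ≤ a.1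
  /-- `T` is a tree of the old world -/
  sub : T.leaves ⊆ (w : Set Src)
  /-- the collision begins -/
  lives_y : lives Φ ε L ((insert l w : Finset Src) : Set Src) (node T (leaf l))
    (sig Φ ε (node T (leaf l)))
  /-- `T` is alive in the old world -/
  alive_w : alive Φ ε L (w : Set Src) T (sig Φ ε (node T (leaf l)))
  /-- `T` is not hit in the old world -/
  lives_w : lives Φ ε L (w : Set Src) T (sig Φ ε (node T (leaf l)))
  /-- the root is not exposed in the old world -/
  unexp_w : ¬(Y Φ ε L hΦ hε).Exp w T.root (sig Φ ε (node T (leaf l)))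
  /-- the root is not exposed in the new world -/
  unexp : ¬(Y Φ ε L hΦ hε).Exp (insert l w) T.root (sig Φ ε (node T (leaf l)))

theorem Hit1.ok (h : Hit1 Φ ε L hΦ hε w l T) : ok Φ ε (node T (leaf l)) := h.lives_y.ok

theorem Hit1.notMem_T (h : Hit1 Φ ε L hΦ hε w l T) : l ∉ T.leaves := fun hl =>
  h.notMem (Finset.mem_coe.1 (h.sub hl))

/-- Until the first contact of `l` all other statuses are the same. -/
theorem stat_before (hl : l ∉ w)
    (hn : ∀ r < s₁, ∀ b, ¬mcon Φ ε L ((insert l w : Finset Src) : Set Src) r l b)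
    (hΦ : IsPotential Φ) (hε : 0 < ε) {a : Src} (ha : a ≠ l) {r : ℝ} (hr : r < s₁) :
    stat Φ ε L (w : Set Src) a r = stat Φ ε L ((insert l w : Finset Src) : Set Src) a r := by
  have h1 := FB.dlt_subset_single (hΦ := hΦ) (hε := hε) hl hn
  by_contra hcon
  have h2 : a ∈ (Y Φ ε L hΦ hε).Dlt w (insert l w) s₁ :=
    ⟨r, hr, r, le_rfl, fun h => hcon (stat_of_sta h)⟩
  exact ha (h1 h2)

/-- **The first contact.** -/
theorem exists_hit1 (hl : l ∉ w) (h0 : ∀ a ∈ insert l w, 0 ≤ a.1)
    (hn : ∀ r < s₁, ∀ b, ¬mcon Φ ε L ((insert l w : Finset Src) : Set Src) r l b)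
    (hb : ∃ b, mcon Φ ε L ((insert l w : Finset Src) : Set Src) s₁ l b)
    (hT : ¬(Y Φ ε L hΦ hε).Touch w (insert l w) s₁) :
    ∃ T : CTree, Hit1 Φ ε L hΦ hε w l T ∧ sig Φ ε (node T (leaf l)) = s₁ := by
  obtain ⟨b, hb⟩ := hb
  have hW : ((insert l w : Finset Src) : Set Src).Finite := Finset.finite_toSet _
  have hlD : l ∈ (Y Φ ε L hΦ hε).D w (insert l w) s₁ :=
    mem_D_of_not_mem fun h => hl (h.2 (Finset.mem_insert_self l w))
  have hle : ¬(Y Φ ε L hΦ hε).Exp (insert l w) l s₁ := fun h => hT ⟨l, hlD, Or.inr h⟩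
  have hbe : ¬(Y Φ ε L hΦ hε).Exp (insert l w) b s₁ := fun h =>
    hle (exp_of_con h (Or.inl hb))
  obtain ⟨p, q, rfl, rfl, h1, h2, h3, h4, h5⟩ := part_spec hΦ hε hW (part_of_not_exp hle hb)
  -- the collision begins at `s₁`
  have hsig : sig Φ ε (node p q) = s₁ := by
    by_contra hne
    have h6 : sig Φ ε (node p q) < s₁ := lt_of_le_of_ne h3.sig_le hne
    exact hn _ h6 q.root (mcon_partner hΦ hε (h3.live.anti h6.le le_rfl) (h6.trans h5))
  have hp := live_left hΦ hε hW h3.live
  rw [hsig] at hp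
  -- the history of `l` is trivial
  have hleaf : p = leaf p.root := by
    have hext : ext Φ ε p < s₁ := by rw [← hsig]; exact h3.ok.2.2.2.2.2.1
    have h6 := ((alive_iff_live hΦ hε hW).1 hp).1
    cases p with
    | leaf σ => rfl
    | node p₁ p₂ =>
      exfalso
      have h7 := sig_lt_ext hΦ hε h6.ok
      exact hn _ (h7.trans hext) p₂.root
        (mcon_partner (x := p₁) hΦ hε (h6.anti (h7.trans hext).le le_rfl) h7)
  have hy : node q p = node q (leaf p.root) := by rw [← hleaf]
  have hsw : sig Φ ε (node q (leaf p.root)) = s₁ := by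
    rw [← hy, sig_swap p q, hsig]
  refine ⟨q, ?_, hsw⟩
  rw [hy] at h4
  have hqsub : q.leaves ⊆ (w : Set Src) := by
    intro x hx
    have h6 := h4.sub (Or.inl hx)
    rcases Finset.mem_insert.1 (Finset.mem_coe.1 h6) with h7 | h7
    · exfalso
      have h8 := h4.ok.2.2.1
      exact disjoint_left.1 h8 hx (by rw [h7]; exact mem_singleton _)
    · exact Finset.mem_coe.2 h7
  have hqr : q.root ≠ p.root := fun h =>
    hl (h ▸ Finset.mem_coe.1 (hqsub q.root_mem_leaves))
  have hqa : alive Φ ε L ((insert p.root w : Finset Src) : Set Src) q s₁ := by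
    have := live_left hΦ hε hW h4.live
    rwa [hsw] at this
  have haw : alive Φ ε L (w : Set Src) q s₁ :=
    alive_congr hΦ hε hW w.finite_toSet (fun _ => hqsub q.root_mem_leaves)
      (fun r hr => (stat_before hl hn hΦ hε hqr hr).symm) hqa
  have htr : (Y Φ ε L hΦ hε).Transfer w (insert p.root w) :=
    Y_transfer hΦ hε (fun a ha => h0 a (Finset.mem_insert_of_mem ha)) h0
  refine ⟨hl, h0, hqsub, ?_, ?_, ?_, ?_, ?_⟩
  · rw [hsw]; exact h4
  · rw [hsw]; exact haw
  · rw [hsw, lives_iff]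
    refine ⟨((alive_iff_live hΦ hε w.finite_toSet).1 haw).1, fun X hX hXa => ?_⟩
    have hXsub := (alive_pre hXa).sub
    have hXr : X.root ≠ p.root := fun h =>
      hl (h ▸ Finset.mem_coe.1 (hXsub X.root_mem_leaves))
    have hXa' : alive Φ ε L ((insert p.root w : Finset Src) : Set Src) X s₁ :=
      alive_congr hΦ hε w.finite_toSet hW
        (fun _ => Finset.mem_coe.2 (Finset.mem_insert_of_mem
          (Finset.mem_coe.1 (hXsub X.root_mem_leaves))))
        (fun r hr => stat_before hl hn hΦ hε hXr hr) hXa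
    refine h4.nohit X s₁ le_rfl (Or.inl ⟨hsw.ge, Or.inl ⟨hX, fun hcon => ?_⟩⟩) hXa'
    rw [hcon.1] at hXsub
    exact hl (Finset.mem_coe.1 (hXsub (mem_singleton _)))
  · rw [hsw]
    exact fun h => hbe ((FB.Sys.exp_iff htr hT le_rfl).1 h)
  · rw [hsw]
    exact hbe

/-- (A) -/
theorem Hit1.tgood_A (h : Hit1 Φ ε L hΦ hε w l T) (hV : (V : Set Src) = (w : Set Src) \ T.leaves)
    (ht : sig Φ ε (node T (leaf l)) ≤ t) :
    TGood Φ ε L hΦ hε V T w (sig Φ ε (node T (leaf l))) t := by
  refine ⟨?_, ?_, fun a ha => h.births a (Finset.mem_insert_of_mem ha), h.alive_w,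
    Or.inr h.lives_w, fun s hs he => h.unexp_w (he.mono hs.le), ht⟩
  · rw [hV]
    exact disjoint_sdiff_left
  · rw [hV, sdiff_union_of_subset h.sub]

/-- (B1) -/
theorem Hit1.tgood_B1 (h : Hit1 Φ ε L hΦ hε w l T)
    (hV : (V : Set Src) = (w : Set Src) \ T.leaves) (ht : sig Φ ε (node T (leaf l)) ≤ t) :
    TGood Φ ε L hΦ hε (insert l V) T (insert l w) (ext Φ ε T) t := by
  have h1 := h.unexp
  have h2 := h.births
  have h3 := h.lives_y
  have hW : ((insert l w : Finset Src) : Set Src).Finite := Finset.finite_toSet _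
  have hext : ext Φ ε T < sig Φ ε (node T (leaf l)) := h.ok.2.2.2.2.2.1
  refine ⟨?_, ?_, fun a ha => h2 a ?_, ?_, Or.inl rfl, fun s hs he => ?_, hext.le.trans ht⟩
  · rw [Finset.coe_insert, hV, disjoint_left]
    rintro a ha haT
    rcases ha with rfl | ha
    · exact h.notMem_T haT
    · exact ha.2 haT
  · rw [Finset.coe_insert, Finset.coe_insert, hV, insert_union, sdiff_union_of_subset h.sub]
  · exact ha
  · exact alive_anti (live_left hΦ hε hW h3.live) hext.le le_rfl
  · exact h1 (he.mono (hs.trans hext).le)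

/-- A partner is live until the end of its collision as long as it is not exposed. -/
theorem live_until (hΦ : IsPotential Φ) (hε : 0 < ε) {W : Finset Src} {x y : CTree} {s u : ℝ}
    (h : lives Φ ε L (W : Set Src) (node x y) s)
    (hu : u ≤ ext Φ ε (node x y)) (hsu : s ≤ u)
    (hn : ∀ q < u, ¬(Y Φ ε L hΦ hε).Exp W x.root q) :
    live Φ ε L (W : Set Src) (node x y) u := by
  have hW : (W : Set Src).Finite := W.finite_toSet
  have h0 : 0 ≤ sig Φ ε (node x y) := sig_nonneg hΦ hε h.ok
  by_contra hcon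
  -- the first hit
  have h1 : ∃ q, s < q ∧ q < u ∧ live Φ ε L (W : Set Src) (node x y) q ∧
      ¬lives Φ ε L (W : Set Src) (node x y) q := by
    have h2 : ∃ X r, r < u ∧ hit Φ ε (node x y) X r ∧ alive Φ ε L (W : Set Src) X r := by
      by_contra hno
      push Not at hno
      exact hcon ⟨h.sub, h.ok, h.depth, h.sig_le.trans hsu, fun X r hr hh ha => hno X r hr hh ha⟩
    obtain ⟨X, r, hr, hh, ha⟩ := h2
    obtain ⟨X', q, hq, -, hh', ha', hfirst⟩ := exists_first_hit hΦ hε hW h.ok hh ha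
    have hsq : s < q := by
      by_contra hcon
      exact h.nohit X' q (not_lt.1 hcon) hh' ha'
    exact ⟨q, hsq, hq.trans_lt hr, ⟨h.sub, h.ok, h.depth, h.sig_le.trans hsq.le,
      fun X r hr hh => hfirst X r hr hh⟩, fun hl => hl.nohit X' q le_rfl hh' ha'⟩
  obtain ⟨q, hsq, hqu, hl, hnl⟩ := h1
  have hb : x.root.1 ≤ q :=
    ((root_birth_le_sig hΦ hε h.ok).trans h.sig_le).trans hsq.le
  have hxW : x.root ∈ W := Finset.mem_coe.1 (h.sub (Or.inl x.root_mem_leaves))
  obtain ⟨Z, hZ⟩ := stat_of_not_exp (hn q hqu) hxW (h0.trans (h.sig_le.trans hsq.le)) hb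
  obtain ⟨hZr, hZl⟩ := (stat_eq_some_iff hΦ hε hW).1 hZ
  have hs1 : sig Φ ε (node x y) < q := h.sig_le.trans_lt hsq
  rcases live_sig hΦ hε hW hZl.live with ⟨h3, h4⟩ | ⟨Z₀, h3, h4, h5, -⟩
  · have h6 : x.root.1 < sig Φ ε (node x y) := (births_lt hΦ hε h.ok).1
    rw [hZr] at h4
    linarith
  · have h6 : Z₀ = node x y := live_unique hΦ hε hW h4 hl (h3.trans hZr) h5 hs1
    -- `Z` is the tree itself, or a later one
    rcases hZl.sig_le.lt_or_eq with h7 | h7
    · have h8 : Z = node x y := live_unique hΦ hε hW hZl.live hl hZr h7 hs1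
      exact hnl (h8 ▸ hZl)
    · cases Z with
      | leaf σ =>
        have h8 : x.root.1 < sig Φ ε (node x y) := (births_lt hΦ hε h.ok).1
        have h9 : σ = x.root := hZr
        have h10 : σ.1 = q := h7
        rw [h9] at h10
        linarith
      | node a b =>
        have h8 := live_left hΦ hε hW hZl.live
        have h9 : ext Φ ε a < q := hZl.ok.2.2.2.2.2.1.trans_eq h7
        have h10 : sig Φ ε a < q := (sig_le_ext hΦ hε hZl.ok.1).trans_lt h9
        have h11 : sig Φ ε (node a b) = q := h7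
        rw [h11] at h8
        have h12 : a = node x y :=
          live_unique hΦ hε hW ((alive_iff_live hΦ hε hW).1 h8).1 hl hZr h10 hs1
        rw [h12] at h9
        linarith

/-- (B2) -/
theorem Hit1.tgood_B2 (h : Hit1 Φ ε L hΦ hε w l T)
    (hV : (V : Set Src) = (w : Set Src) \ T.leaves)
    (hn : ∀ q < ext Φ ε (node T (leaf l)), ¬(Y Φ ε L hΦ hε).Touch w (insert l w) q)
    (ht : ext Φ ε (node T (leaf l)) ≤ t) :
    TGood Φ ε L hΦ hε V (node T (leaf l)) (insert l w) (ext Φ ε (node T (leaf l))) t := by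
  have h2 := h.births
  have h3 := h.lives_y
  have hse := sig_lt_ext hΦ hε h.ok
  have hlw : l ∈ insert l w := Finset.mem_insert_self l w
  have hln : ∀ q < ext Φ ε (node T (leaf l)), ¬(Y Φ ε L hΦ hε).Exp (insert l w) l q := by
    intro q hq he
    exact hn q hq ⟨l, mem_D_of_not_mem fun h' => h.notMem (h'.2 hlw), Or.inr he⟩
  -- the pair is live until its exit
  have hsw := lives_swap hΦ h3 hse
  have hsw' : live Φ ε L ((insert l w : Finset Src) : Set Src) (node (leaf l) T)
      (ext Φ ε (node T (leaf l))) :=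
    live_until hΦ hε hsw (ext_swap hΦ T (leaf l)).ge hse.le hln
  have hl : live Φ ε L ((insert l w : Finset Src) : Set Src) (node T (leaf l))
      (ext Φ ε (node T (leaf l))) := live_swap hΦ hsw' (ext_swap hΦ T (leaf l)).ge
  refine ⟨?_, ?_, h2, ?_, Or.inl rfl, fun s hs he => ?_, ht⟩
  · rw [hV, disjoint_left]
    rintro a ha (haT | hal)
    · exact ha.2 haT
    · exact h.notMem (by rw [mem_singleton_iff.1 hal] at ha; exact Finset.mem_coe.1 ha.1)
  · rw [Finset.coe_insert, hV]
    change _ = (w : Set Src) \ T.leaves ∪ (T.leaves ∪ {l})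
    rw [← union_assoc, sdiff_union_of_subset h.sub, union_singleton]
  · exact (alive_iff_live hΦ hε (Finset.finite_toSet _)).2 ⟨hl, le_rfl⟩
  · -- an exposed root exposes `l`
    have h4 : max s (sig Φ ε (node T (leaf l))) < ext Φ ε (node T (leaf l)) := max_lt hs hse
    refine hln _ h4 (exp_partner (x := leaf l) (y := T) (hsw'.anti h4.le ?_) ?_
      (he.mono (le_max_left _ _)))
    · rw [sig_swap T (leaf l)]
      exact le_max_right _ _
    · rw [ext_swap hΦ T (leaf l)]
      exact h4

end Vale.Agent.P119.TL
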