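import Vale.Agent.P119.TL.Setup

/-!
# P119: TREE -> LINES, the M-level theorem (`helper119`)
-/

open MeasureTheory Filter Topology Set
open scoped ENNReal NNReal

noncomputable section

namespace Vale.Agent.P119.TL

open KU M M.CTree

variable {Φ : E3 → ℝ} {ε : ℝ} {L : ℕ} {U : Set Src} {T : CTree} {r : CTree → ℝ} {t : ℝ}

/-! ### Subtrees of an alive tree -/

/-- A tree that is alive has no hit at all before. -/
theorem no_hit (hΦ : IsPotential Φ) (hε : 0 < ε) {W : Set Src} (hW : W.Finite) {x X : CTree}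
    {s u : ℝ} (h : alive Φ ε L W x u) (hs : s < u) (hh : hit Φ ε x X s) : ¬alive Φ ε L W X s :=
  ((alive_iff hΦ hε hW).1 h).2 X s hs hh

/-- A proper subtree of `T` which is in contact with an alive tree: this is the collision in `T`. -/
theorem sub_hit (hΦ : IsPotential Φ) (hε : 0 < ε) {W : Set Src} (hW : W.Finite) {u : ℝ}
    (hT : alive Φ ε L W T u) {c d : CTree} {τ : ℝ} (hc : Sub c T) (hne : c ≠ T)
    (hca : alive Φ ε L W c τ) (hda : alive Φ ε L W d τ) (hh : hit Φ ε c d τ) :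
    (Sub (node c d) T ∧ τ = sig Φ ε (node c d)) ∨ (Sub (node d c) T ∧ τ = sig Φ ε (node d c)) := by
  have hok := (alive_pre hT).ok
  have hext := (alive_pre hT).ext_le
  obtain ⟨P, hP, hPT⟩ := hc.exists_par hne
  -- the subtree `P` is live until the end of its collision
  have hlive : ∀ Q s, Sub Q T → s < ext Φ ε Q → ∀ y, hit Φ ε Q y s → ¬alive Φ ε L W y s := by
    intro Q s hQ hs y hy
    refine no_hit hΦ hε hW hT ((hs.trans_le (hQ.ext_le hΦ hε hok)).trans_le hext) ?_
    exact hit_of_sub hΦ hε hQ hok hs.le hy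
  have hPok := hPT.ok hok
  rcases hP with ⟨b, rfl⟩ | ⟨a, rfl⟩
  · have hse := sig_lt_ext hΦ hε hPok
    -- the sibling is alive at the collision
    have hPlive : live Φ ε L W (node c b) (sig Φ ε (node c b)) :=
      ⟨hPT.leaves_subset.trans (alive_pre hT).sub, hPok, hPT.depth_le.trans (alive_pre hT).depth,
        le_rfl, fun y s hs hy => hlive _ s hPT (hs.trans hse) y hy⟩
    have hb := live_right hΦ hε hW hPlive
    rcases lt_trichotomy τ (sig Φ ε (node c b)) with h1 | h1 | h1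
    · exact absurd hda (hlive _ τ hPT (h1.trans hse) d
        (Or.inl ⟨h1.le, Or.inl ⟨hh, fun hcon => h1.ne hcon.2⟩⟩))
    · by_cases hdb : d = b
      · subst hdb
        exact Or.inl ⟨hPT, h1⟩
      · exact absurd hda (hlive _ τ hPT (h1 ▸ hse) d
          (Or.inl ⟨h1.le, Or.inl ⟨hh, fun hcon => hdb hcon.1⟩⟩))
    · exact absurd hb (no_hit hΦ hε hW hca h1 (hit_sig hΦ hε hPok))
  · have hse := sig_lt_ext hΦ hε hPok
    have hPlive : live Φ ε L W (node a c) (sig Φ ε (node a c)) :=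
      ⟨hPT.leaves_subset.trans (alive_pre hT).sub, hPok, hPT.depth_le.trans (alive_pre hT).depth,
        le_rfl, fun y s hs hy => hlive _ s hPT (hs.trans hse) y hy⟩
    have ha := live_left hΦ hε hW hPlive
    rcases lt_trichotomy τ (sig Φ ε (node a c)) with h1 | h1 | h1
    · exact absurd hda (hlive _ τ hPT (h1.trans hse) d
        (Or.inl ⟨h1.le, Or.inr ⟨hh, fun hcon => h1.ne hcon.2⟩⟩))
    · by_cases hdb : d = a
      · subst hdb
        exact Or.inr ⟨hPT, h1⟩
      · exact absurd hda (hlive _ τ hPT (h1 ▸ hse) d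
          (Or.inl ⟨h1.le, Or.inr ⟨hh, fun hcon => hdb hcon.1⟩⟩))
    · exact absurd ha (no_hit hΦ hε hW hca h1 (hit_sig' hΦ hε hPok))

/-- The legs are not hit by alive trees, except for the collisions of `T`. -/
theorem leg_hit (hΦ : IsPotential Φ) (hε : 0 < ε) (h : Setup Φ ε L U T r t) {X d : CTree}
    {s : ℝ} (hX : Leg r T X s) (hXa : alive Φ ε L (U ∪ T.leaves) X s)
    (hda : alive Φ ε L (U ∪ T.leaves) d s) (hh : hit Φ ε X d s) :
    (Sub (node X d) T ∧ s = sig Φ ε (node X d)) ∨ (Sub (node d X) T ∧ s = sig Φ ε (node d X)) := by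
  have hW := wd_finite h
  rcases hX with ⟨h1, h2⟩ | ⟨h1, h2⟩
  · exact sub_hit hΦ hε hW (h.alive T (Or.inl rfl)) h1 h2 hXa hda hh
  · exact absurd hda (no_hit hΦ hε hW (h.alive X h1) h2 hh)

/-- **The alive trees of `U ∪ T.leaves`**: they come from the world of lines, or are legs. -/
theorem alive_classify (hΦ : IsPotential Φ) (hε : 0 < ε) (h : Setup Φ ε L U T r t) {X : CTree}
    {s : ℝ} (hX : alive Φ ε L (U ∪ T.leaves) X s) :
    (∃ y, y.leaves ⊆ lwd Φ ε r U T ∧ X = th Φ ε r T y ∧ ext Φ ε y ≤ s) ∨ Leg r T X s := by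
  have hW := wd_finite h
  -- a final history
  have hout : ∀ x ∈ outs T, ∀ s, ext Φ ε x ≤ s →
      (∃ y, y.leaves ⊆ lwd Φ ε r U T ∧ x = th Φ ε r T y ∧ ext Φ ε y ≤ s) ∨ Leg r T x s := by
    intro x hx s hs
    rcases lt_or_ge s (r x) with h1 | h1
    · exact Or.inr (Or.inr ⟨hx, h1⟩)
    · refine Or.inl ⟨leaf (msrc Φ ε r x), ?_, (th_leaf_msrc h hx).symm, h1⟩
      rintro σ rfl
      exact Or.inr ⟨x, hx, rfl⟩
  -- a subtree of `T`
  have hsub : ∀ X, Sub X T → ∀ s, ext Φ ε X ≤ s →
      (∃ y, y.leaves ⊆ lwd Φ ε r U T ∧ X = th Φ ε r T y ∧ ext Φ ε y ≤ s) ∨ Leg r T X s := by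
    intro X hX s hs
    by_cases hXT : X = T
    · exact hout X (Or.inl hXT) s hs
    · exact Or.inr (Or.inl ⟨hX, hXT⟩)
  induction X generalizing s with
  | leaf σ =>
    have h1 : σ ∈ U ∪ T.leaves := (alive_pre hX).sub (mem_singleton σ)
    rcases h1 with h1 | h1
    · refine Or.inl ⟨leaf σ, ?_, ?_, (alive_pre hX).ext_le⟩
      · rintro τ rfl
        exact Or.inl h1
      · refine (th_of_subset h ?_).symm
        rintro τ rfl
        exact h1
    · exact hsub _ (sub_leaf_of_mem h1) s (alive_pre hX).ext_le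
  | node c d ihc ihd =>
    have hok := (alive_pre hX).ok
    have hc := alive_left hΦ hε hW hX
    have hd := alive_right hΦ hε hW hX
    have hXs := (alive_pre hX).ext_le
    have hcd := hit_sig hΦ hε hok
    have hdc := hit_sig' hΦ hε hok
    have key : (Sub (node c d) T ∨ Sub (node d c) T) →
        (∃ y, y.leaves ⊆ lwd Φ ε r U T ∧ node c d = th Φ ε r T y ∧ ext Φ ε y ≤ s) ∨
          Leg r T (node c d) s := by
      rintro (h1 | h1)
      · exact hsub _ h1 s hXs
      · exact hout _ (Or.inr (exs_iff.2 ⟨d, c, h1, rfl⟩)) s hXs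
    rcases ihc hc with ⟨y, hy, hcy, hye⟩ | hleg
    · rcases ihd hd with ⟨y', hy', hdy', hye'⟩ | hleg
      · refine Or.inl ⟨node y y', union_subset hy hy', by rw [th_node, ← hcy, ← hdy'], ?_⟩
        have h2 : (node y y').leaves ⊆ lwd Φ ε r U T := union_subset hy hy'
        rw [← th_ext h h2, th_node, ← hcy, ← hdy']
        exact hXs
      · rcases leg_hit hΦ hε h hleg hd hc hdc with h1 | h1
        · exact key (Or.inr h1.1)
        · exact key (Or.inl h1.1)
    · rcases leg_hit hΦ hε h hleg hc hd hcd with h1 | h1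
      · exact key (Or.inl h1.1)
      · exact key (Or.inr h1.1)

/-- A leg is never in contact with a flying tree that comes from the world of lines. -/
theorem leg_not_own (hΦ : IsPotential Φ) (hε : 0 < ε) (h : Setup Φ ε L U T r t) {X q : CTree}
    {s : ℝ} (hs : s ≤ t) (hX : Leg r T X s) (hXa : alive Φ ε L (U ∪ T.leaves) X s)
    (hq : q.leaves ⊆ lwd Φ ε r U T) (hql : live Φ ε L (U ∪ T.leaves) (th Φ ε r T q) s) :
    ¬own Φ ε (th Φ ε r T q) X s := by
  intro ho
  have hW := wd_finite h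
  rcases lt_or_ge s (ext Φ ε (th Φ ε r T q)) with h1 | h1
  · exact h.legs X _ s hs hX hXa hql h1 (ho.hit hΦ)
  · have hqa : alive Φ ε L (U ∪ T.leaves) (th Φ ε r T q) s :=
      (alive_iff_live hΦ hε hW).2 ⟨hql, h1⟩
    have h2 := ho.symm hΦ hε hql.ok (alive_pre hXa).ok h1
    have key : Sub (th Φ ε r T q) T → (th Φ ε r T q) ≠ T → False := by
      intro h3 h4
      -- `q` contains a source `msrc x`, then `x` is a subtree of `T`
      have h5 : ∀ p : CTree, p.leaves ⊆ lwd Φ ε r U T → Sub (th Φ ε r T p) T →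
          ∃ x ∈ outs T, Sub x (th Φ ε r T p) := by
        intro p hp hpT
        obtain ⟨σ, hσ⟩ := p.leaves_nonempty
        rcases hp hσ with h6 | ⟨x, hx, rfl⟩
        · exact absurd (hpT.leaves_subset (mem_th_leaves h hσ h6)) (disjoint_left.1 h.disj h6)
        · refine ⟨x, hx, ?_⟩
          have h7 : ∀ p : CTree, msrc Φ ε r x ∈ p.leaves → Sub x (th Φ ε r T p) := by
            intro p
            induction p with
            | leaf τ =>
              intro hτ
              rw [← mem_singleton_iff.1 hτ, th_leaf_msrc h hx]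
              exact Sub.refl _
            | node a b iha ihb =>
              rintro (hτ | hτ)
              · exact Sub.left _ (iha hτ)
              · exact Sub.right _ (ihb hτ)
          exact h7 p hσ
      obtain ⟨x, hx, h6⟩ := h5 q hq h3
      rcases hx with rfl | hx
      · exact h4 (h3.eq_of_card h6.card_le)
      · exact not_sub_of_exs (ok_T h) hx (h6.trans h3)
    rcases leg_hit hΦ hε h hX hXa hqa h2 with ⟨h3, -⟩ | ⟨h3, -⟩
    · refine key ((Sub.right _ (Sub.refl _)).trans h3) fun hcon => ?_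
      rw [hcon] at h3
      exact not_sub_right _ _ (show Sub (node X T) T from h3)
    · refine key ((Sub.left _ (Sub.refl _)).trans h3) fun hcon => ?_
      rw [hcon] at h3
      exact not_sub_left _ _ (show Sub (node T X) T from h3)

/-! ### Roots -/

theorem fs_root_inj (h : Setup Φ ε L U T r t) {σ σ' : Src} (hσ : σ ∈ lwd Φ ε r U T)
    (hσ' : σ' ∈ lwd Φ ε r U T) (he : (fs Φ ε r T σ).root = (fs Φ ε r T σ').root) : σ = σ' := by
  have hUT := disjoint_left.1 h.disj
  rcases hσ with hσ | ⟨x, hx, rfl⟩ <;> rcases hσ' with hσ' | ⟨x', hx', rfl⟩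
  · rwa [fs_of_mem h hσ, fs_of_mem h hσ'] at he
  · rw [fs_of_mem h hσ, fs_msrc h hx'] at he
    have he : σ = x'.root := he
    exact absurd (outs_leaves hx' x'.root_mem_leaves) (he ▸ hUT hσ)
  · rw [fs_of_mem h hσ', fs_msrc h hx] at he
    have he : x.root = σ' := he
    exact absurd (outs_leaves hx x.root_mem_leaves) (he ▸ hUT hσ')
  · rw [fs_msrc h hx, fs_msrc h hx'] at he
    rw [outs_root_inj (ok_T h) hx hx' he]

theorem th_root_inj (h : Setup Φ ε L U T r t) {y y' : CTree} (hy : y.leaves ⊆ lwd Φ ε r U T)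
    (hy' : y'.leaves ⊆ lwd Φ ε r U T) (he : (th Φ ε r T y).root = (th Φ ε r T y').root) :
    y.root = y'.root := by
  have e1 : (th Φ ε r T y).root = (fs Φ ε r T y.root).root := sbs_root y
  have e2 : (th Φ ε r T y').root = (fs Φ ε r T y'.root).root := sbs_root y'
  exact fs_root_inj h (hy y.root_mem_leaves) (hy' y'.root_mem_leaves) (e1 ▸ e2 ▸ he)

/-! ### The geometric conditions -/

/-- The histories are not in contact with an alive tree before or at the birth of the source. -/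
theorem birth_lt (hΦ : IsPotential Φ) (hε : 0 < ε) (h : Setup Φ ε L U T r t) {x b : CTree}
    {τ : ℝ} (hx : x ∈ outs T) (hb : alive Φ ε L (U ∪ T.leaves) b τ) (hτ : ext Φ ε x < τ)
    (hh : hit Φ ε x b τ) : r x < τ := by
  have hW := wd_finite h
  rcases lt_trichotomy τ (r x) with h1 | h1 | h1
  · exact absurd hb (no_hit hΦ hε hW (h.alive x hx) h1 hh)
  · rcases h.lives x hx with h2 | h2
    · rw [← h1] at h2
      exact absurd h2 hτ.ne'
    · exact absurd hb (h2.nohit b τ h1.le hh)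
  · exact h1

theorem ok_of_th (hΦ : IsPotential Φ) (hε : 0 < ε) (h : Setup Φ ε L U T r t) {p : CTree} {s : ℝ}
    (hp : p.leaves ⊆ lwd Φ ε r U T) (hl : live Φ ε L (U ∪ T.leaves) (th Φ ε r T p) s) :
    ok Φ ε p := by
  have hW := wd_finite h
  induction p generalizing s with
  | leaf σ =>
    rcases hp (mem_singleton σ) with hσ | ⟨x, hx, rfl⟩
    · have h1 := hl.ok
      change ok Φ ε (fs Φ ε r T σ) at h1
      rwa [fs_of_mem h hσ] at h1
    · exact (ext_nonneg hΦ hε (ok_out h hx)).trans (h.le_r x hx)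
  | node a b iha ihb =>
    have ha := leaves_left hp
    have hb := leaves_right hp
    rw [th_node] at hl
    have hla := live_left hΦ hε hW hl
    have hlb := live_right hΦ hε hW hl
    have hok := hl.ok
    have h1 := hit_sig hΦ hε hok
    have h2 := hit_sig' hΦ hε hok
    rw [← th_node, th_sig h hp] at hla hlb h1 h2
    obtain ⟨-, -, h3, h4, h5, h6, h7⟩ := hok
    rw [th_ln h ha, th_ln h hb] at h4 h5 h6 h7
    -- the ends of the last collisions
    have key : ∀ c d : CTree, c.leaves ⊆ lwd Φ ε r U T →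
        alive Φ ε L (U ∪ T.leaves) (th Φ ε r T d) (sig Φ ε (node a b)) →
        ext Φ ε (th Φ ε r T c) < sig Φ ε (node a b) →
        hit Φ ε (th Φ ε r T c) (th Φ ε r T d) (sig Φ ε (node a b)) →
        ext Φ ε c < sig Φ ε (node a b) := by
      intro c d hc hd he hh
      cases c with
      | leaf σ =>
        rcases hc (mem_singleton σ) with hσ | ⟨x, hx, rfl⟩
        · have e : th Φ ε r T (leaf σ) = leaf σ := fs_of_mem h hσ
          rwa [e] at he
        · rw [th_leaf_msrc h hx] at he hh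
          exact birth_lt hΦ hε h hx hd he hh
      | node c d => rwa [th_ext h hc] at he
    exact ⟨iha ha ((alive_iff_live hΦ hε hW).1 hla).1, ihb hb ((alive_iff_live hΦ hε hW).1 hlb).1,
      disjoint_of_th h3, h4, h5, key a b ha hlb h6 h1, key b a hb hla h7 h2⟩

theorem ok_th (hΦ : IsPotential Φ) (hε : 0 < ε) (h : Setup Φ ε L U T r t) {p : CTree} {s : ℝ}
    (hp : p.leaves ⊆ lwd Φ ε r U T) (hs : s ≤ t) (hl : live Φ ε L (lwd Φ ε r U T) p s) :
    ok Φ ε (th Φ ε r T p) := by
  have hW := lwd_finite h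
  induction p generalizing s with
  | leaf σ =>
    rcases hp (mem_singleton σ) with hσ | ⟨x, hx, rfl⟩
    · change ok Φ ε (fs Φ ε r T σ)
      rw [fs_of_mem h hσ]
      exact hl.ok
    · rw [th_leaf_msrc h hx]
      exact ok_out h hx
  | node a b iha ihb =>
    have ha := leaves_left hp
    have hb := leaves_right hp
    have hla := live_left hΦ hε hW hl
    have hlb := live_right hΦ hε hW hl
    have hst : sig Φ ε (node a b) ≤ t := hl.sig_le.trans hs
    have hla' := ((alive_iff_live hΦ hε hW).1 hla).1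
    have hlb' := ((alive_iff_live hΦ hε hW).1 hlb).1
    have h1 := h.indep a b _ hst hla' hlb hl.ok.2.2.1 (hit_sig hΦ hε hl.ok)
    obtain ⟨-, -, h3, h4, h5, h6, h7⟩ := hl.ok
    rw [th_node]
    refine ⟨iha ha hst hla', ihb hb hst hlb', disjoint_th h ha hb h3 h1, ?_, ?_, ?_, ?_⟩
    · rw [th_ln h ha, th_ln h hb]; exact h4
    · rw [th_ln h ha, th_ln h hb]; exact h5
    · rw [th_ln h ha, th_ln h hb]; exact (th_ext_le h ha).trans_lt h6
    · rw [th_ln h ha, th_ln h hb]; exact (th_ext_le h hb).trans_lt h7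

/-! ### Hits in the two worlds -/

theorem At.trans {y q₂ q p : CTree} {s : ℝ} (h : At Φ ε y s q₂ q) (h' : At Φ ε y s q p) :
    At Φ ε y s q₂ p := by
  induction h' with
  | refl => exact h
  | left _ h1 h2 ih => exact At.left ih h1 h2
  | right _ h1 h2 ih => exact At.right ih h1 h2

/-- Earlier hits on the relevant subtree are hits. -/
theorem hit_of_at (hΦ : IsPotential Φ) {y q p : CTree} {s : ℝ} (h : At Φ ε y s q p) {X : CTree}
    {s' : ℝ} (hs : s' < s) (hh : hit Φ ε q X s') : hit Φ ε p X s' := by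
  obtain ⟨q₂, h1, h2⟩ := (hit_iff_at hΦ).1 hh
  exact (hit_iff_at hΦ).2 ⟨q₂, h1.trans (h.of_lt hs), h2⟩

theorem hit_left_of_lt {a b X : CTree} {s' : ℝ} (hs : s' < sig Φ ε (node a b))
    (hh : hit Φ ε a X s') : hit Φ ε (node a b) X s' :=
  Or.inl ⟨hs.le, Or.inl ⟨hh, fun hcon => hs.ne hcon.2⟩⟩

theorem hit_right_of_lt {a b X : CTree} {s' : ℝ} (hs : s' < sig Φ ε (node a b))
    (hh : hit Φ ε b X s') : hit Φ ε (node a b) X s' :=
  Or.inl ⟨hs.le, Or.inr ⟨hh, fun hcon => hs.ne hcon.2⟩⟩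

/-- The path to the relevant subtree, from the world of lines to the real one. -/
theorem at_th (hΦ : IsPotential Φ) (hε : 0 < ε) (h : Setup Φ ε L U T r t) {p q y : CTree} {s : ℝ}
    (hp : p.leaves ⊆ lwd Φ ε r U T) (hok : ok Φ ε p) (hd : p.depth ≤ L)
    (hno : ∀ X s', s' < s → hit Φ ε p X s' → ¬alive Φ ε L (lwd Φ ε r U T) X s')
    (hy : alive Φ ε L (lwd Φ ε r U T) y s) (hat : At Φ ε y s q p) :
    At Φ ε (th Φ ε r T y) s (th Φ ε r T q) (th Φ ε r T p) := by
  have hW := lwd_finite h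
  have hyl := (alive_pre hy).sub
  induction hat with
  | refl => exact At.refl
  | @left a b h1 hs hne ih =>
    have ha := leaves_left hp
    have hb := leaves_right hp
    have hda : a.depth ≤ L := (le_max_left a.depth b.depth).trans (Nat.le_of_succ_le hd)
    have hdb : b.depth ≤ L := (le_max_right a.depth b.depth).trans (Nat.le_of_succ_le hd)
    rw [th_node]
    refine At.left (ih ha hok.1 hda fun X s' hs' hh =>
      hno X s' hs' (hit_left_of_lt (hs'.trans_le hs) hh)) (by rw [← th_node, th_sig h hp]; exact hs)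
      ?_
    rintro ⟨h2, h3⟩
    rw [← th_node, th_sig h hp] at h3
    refine hne ⟨?_, h3⟩
    have hba : alive Φ ε L (lwd Φ ε r U T) b s := by
      rw [alive_iff hΦ hε hW]
      refine ⟨⟨hb, hok.2.1, hdb, ?_⟩, fun X s' hs' hh =>
        hno X s' hs' (hit_right_of_lt (hs'.trans_le hs) hh)⟩
      rw [h3]
      exact hok.2.2.2.2.2.2.le
    exact alive_unique hΦ hε hW hy hba (th_root_inj h hyl hb (by rw [h2]))
  | @right a b h1 hs hne ih =>
    have ha := leaves_left hp
    have hb := leaves_right hp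
    have hda : a.depth ≤ L := (le_max_left a.depth b.depth).trans (Nat.le_of_succ_le hd)
    have hdb : b.depth ≤ L := (le_max_right a.depth b.depth).trans (Nat.le_of_succ_le hd)
    rw [th_node]
    refine At.right (ih hb hok.2.1 hdb fun X s' hs' hh =>
      hno X s' hs' (hit_right_of_lt (hs'.trans_le hs) hh)) (by rw [← th_node, th_sig h hp]; exact hs)
      ?_
    rintro ⟨h2, h3⟩
    rw [← th_node, th_sig h hp] at h3
    refine hne ⟨?_, h3⟩
    have haa : alive Φ ε L (lwd Φ ε r U T) a s := by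
      rw [alive_iff hΦ hε hW]
      refine ⟨⟨ha, hok.1, hda, ?_⟩, fun X s' hs' hh =>
        hno X s' hs' (hit_left_of_lt (hs'.trans_le hs) hh)⟩
      rw [h3]
      exact hok.2.2.2.2.2.1.le
    exact alive_unique hΦ hε hW hy haa (th_root_inj h hyl ha (by rw [h2]))

/-- **From the world of lines to the real one.** -/
theorem hit_th (hΦ : IsPotential Φ) (hε : 0 < ε) (h : Setup Φ ε L U T r t) {p y : CTree} {s : ℝ}
    (hs : s ≤ t) (hp : p.leaves ⊆ lwd Φ ε r U T) (hok : ok Φ ε p) (hd : p.depth ≤ L)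
    (hno : ∀ X s', s' < s → hit Φ ε p X s' → ¬alive Φ ε L (lwd Φ ε r U T) X s')
    (hy : alive Φ ε L (lwd Φ ε r U T) y s) (hh : hit Φ ε p y s) :
    hit Φ ε (th Φ ε r T p) (th Φ ε r T y) s := by
  obtain ⟨q, h1, h2⟩ := (hit_iff_at hΦ).1 hh
  have hq : q.leaves ⊆ lwd Φ ε r U T := h1.sub.leaves_subset.trans hp
  have hql : live Φ ε L (lwd Φ ε r U T) q s :=
    ⟨hq, h1.sub.ok hok, h1.sub.depth_le.trans hd, h2.1, fun X s' hs' hX =>
      hno X s' hs' (hit_of_at hΦ h1 hs' hX)⟩
  have h3 := h.indep q y s hs hql hy h2.2.2.1 (h2.hit hΦ)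
  exact (hit_iff_at hΦ).2 ⟨_, at_th hΦ hε h hp hok hd hno hy h1,
    th_own hΦ hε h hq (alive_pre hy).sub h3 h2⟩

/-- The path to the relevant subtree, from the real world to the world of lines. -/
theorem at_of_th (hΦ : IsPotential Φ) (hε : 0 < ε) (h : Setup Φ ε L U T r t) {p q' X : CTree}
    {s : ℝ} (hp : p.leaves ⊆ lwd Φ ε r U T) (hX : alive Φ ε L (U ∪ T.leaves) X s)
    (hat : At Φ ε X s q' (th Φ ε r T p)) (ho : own Φ ε q' X s) :
    ∃ q, q.leaves ⊆ lwd Φ ε r U T ∧ q' = th Φ ε r T q ∧ sig Φ ε q ≤ s ∧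
      ∀ y, X = th Φ ε r T y → At Φ ε y s q p := by
  have hW := wd_finite h
  induction p with
  | leaf σ =>
    rcases hp (mem_singleton σ) with hσ | ⟨x, hx, rfl⟩
    · have e : th Φ ε r T (leaf σ) = leaf σ := fs_of_mem h hσ
      rw [e] at hat
      cases hat
      exact ⟨leaf σ, hp, e.symm, ho.1, fun y _ => At.refl⟩
    · rw [th_leaf_msrc h hx] at hat
      have hh : hit Φ ε x X s := (hit_iff_at hΦ).2 ⟨q', hat, ho⟩
      have h1 : r x ≤ s := by
        by_contra hcon
        exact no_hit hΦ hε hW (h.alive x hx) (not_le.1 hcon) hh hX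
      refine ⟨leaf (msrc Φ ε r x), hp, ?_, h1, fun y _ => ?_⟩
      · rw [th_leaf_msrc h hx]
        have hokx := ok_out h hx
        have hex := (h.le_r x hx).trans h1
        cases hat with
        | refl => rfl
        | left _ h2 _ => exact absurd (hex.trans h2) (not_le.2 (sig_lt_ext hΦ hε hokx))
        | right _ h2 _ => exact absurd (hex.trans h2) (not_le.2 (sig_lt_ext hΦ hε hokx))
      · exact At.refl
  | node a b iha ihb =>
    rw [th_node] at hat
    cases hat with
    | refl =>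
      refine ⟨node a b, hp, rfl, ?_, fun y _ => At.refl⟩
      rw [← th_sig h hp]
      exact ho.1
    | left h1 hs hne =>
      obtain ⟨q, h2, h3, h4, h5⟩ := iha (leaves_left hp) h1
      rw [← th_node, th_sig h hp] at hs hne
      exact ⟨q, h2, h3, h4, fun y hy => At.left (h5 y hy) hs fun hcon =>
        hne ⟨by rw [hy, hcon.1], hcon.2⟩⟩
    | right h1 hs hne =>
      obtain ⟨q, h2, h3, h4, h5⟩ := ihb (leaves_right hp) h1
      rw [← th_node, th_sig h hp] at hs hne
      exact ⟨q, h2, h3, h4, fun y hy => At.right (h5 y hy) hs fun hcon =>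
        hne ⟨by rw [hy, hcon.1], hcon.2⟩⟩

/-- **From the real world to the world of lines.** -/
theorem hit_of_th (hΦ : IsPotential Φ) (hε : 0 < ε) (h : Setup Φ ε L U T r t) {p X : CTree}
    {s : ℝ} (hs : s ≤ t) (hp : p.leaves ⊆ lwd Φ ε r U T) (hok : ok Φ ε (th Φ ε r T p))
    (hd : p.depth ≤ L)
    (hno : ∀ X s', s' < s → hit Φ ε (th Φ ε r T p) X s' → ¬alive Φ ε L (U ∪ T.leaves) X s')
    (hX : alive Φ ε L (U ∪ T.leaves) X s) (hh : hit Φ ε (th Φ ε r T p) X s) :
    ∃ y, y.leaves ⊆ lwd Φ ε r U T ∧ X = th Φ ε r T y ∧ ext Φ ε y ≤ s ∧ hit Φ ε p y s := by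
  obtain ⟨q', h1, h2⟩ := (hit_iff_at hΦ).1 hh
  obtain ⟨q, hq, rfl, hqs, hat⟩ := at_of_th hΦ hε h hp hX h1 h2
  have hql : live Φ ε L (U ∪ T.leaves) (th Φ ε r T q) s :=
    ⟨th_leaves_wd h hq, h1.sub.ok hok, by
      have := h1.sub.depth_le
      rw [th_depth h hp] at this
      exact this.trans hd, h2.1, fun X s' hs' hX' => hno X s' hs' (hit_of_at hΦ h1 hs' hX')⟩
  rcases alive_classify hΦ hε h hX with ⟨y, hy, hXy, hye⟩ | hleg
  · refine ⟨y, hy, hXy, hye, (hit_iff_at hΦ).2 ⟨q, hat y hXy, ?_⟩⟩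
    rw [hXy] at h2
    exact own_of_th hΦ hε h hq hy hqs hye h2
  · exact absurd h2 (leg_not_own hΦ hε h hs hleg hX hq hql)

end Vale.Agent.P119.TL
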