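import Vale.Agent.P119.TL.Comb

/-!
# P119: TREE -> LINES, the line which is hit (`helper119`)

`own q y s`: `y` is in contact at time `s` with the current line of `q` (or with its partner during
the last collision).  `At q p y s`: `q` is the relevant subtree of `p` for a hit by `y` at `s`.
`hit_iff_at`: `hit p y s ↔ ∃ q, At q p y s ∧ own q y s`.
-/

open MeasureTheory Filter Topology Set
open scoped ENNReal NNReal

noncomputable section

namespace Vale.Agent.P119.TL

open KU M M.CTree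

variable {Φ : E3 → ℝ} {ε : ℝ} {L : ℕ}

/-- Contact of `y` with the current line of `q`. -/
def own (Φ : E3 → ℝ) (ε : ℝ) (q y : CTree) (s : ℝ) : Prop :=
  sig Φ ε q ≤ s ∧ ext Φ ε y ≤ s ∧ Disjoint q.leaves y.leaves ∧
    (Ctc ε (st Φ ε q s) (free s (ln Φ ε y)) ∨
      (s < ext Φ ε q ∧ ∃ a b, q = node a b ∧ Ctc ε (st Φ ε (node b a) s) (free s (ln Φ ε y))))

/-- `q` is the relevant subtree of `p` for a hit by `y` at time `s`. -/
inductive At (Φ : E3 → ℝ) (ε : ℝ) (y : CTree) (s : ℝ) (q : CTree) : CTree → Prop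
  | refl : At Φ ε y s q q
  | left {a b : CTree} (h : At Φ ε y s q a) (hs : s ≤ sig Φ ε (node a b))
      (hne : ¬(y = b ∧ s = sig Φ ε (node a b))) : At Φ ε y s q (node a b)
  | right {a b : CTree} (h : At Φ ε y s q b) (hs : s ≤ sig Φ ε (node a b))
      (hne : ¬(y = a ∧ s = sig Φ ε (node a b))) : At Φ ε y s q (node a b)

theorem At.sub {y q p : CTree} {s : ℝ} (h : At Φ ε y s q p) : Sub q p := by
  induction h with
  | refl => exact Sub.refl _
  | left _ _ _ ih => exact Sub.left _ ih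
  | right _ _ _ ih => exact Sub.right _ ih

theorem At.of_lt {y y' q p : CTree} {s s' : ℝ} (h : At Φ ε y s q p) (hs : s' < s) :
    At Φ ε y' s' q p := by
  induction h with
  | refl => exact At.refl
  | left _ h1 _ ih => exact At.left ih (hs.le.trans h1) fun hcon => (hs.trans_le h1).ne hcon.2
  | right _ h1 _ ih => exact At.right ih (hs.le.trans h1) fun hcon => (hs.trans_le h1).ne hcon.2

theorem own_leaf {σ : Src} {y : CTree} {s : ℝ} :
    own Φ ε (leaf σ) y s ↔ hit Φ ε (leaf σ) y s := by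
  constructor
  · rintro ⟨h1, h2, h3, h4⟩
    refine ⟨h1, h2, fun h => disjoint_left.1 h3 (mem_singleton σ) h, ?_⟩
    rcases h4 with h4 | ⟨-, a, b, h, -⟩
    · exact h4
    · cases h
  · rintro ⟨h1, h2, h3, h4⟩
    exact ⟨h1, h2, disjoint_singleton_left.2 h3, Or.inl h4⟩

theorem own_node (hΦ : IsPotential Φ) {a b y : CTree} {s : ℝ} :
    own Φ ε (node a b) y s ↔ sig Φ ε (node a b) ≤ s ∧ ext Φ ε y ≤ s ∧
      Disjoint (node a b).leaves y.leaves ∧
        (Ctc ε (pairLine Φ ε (ln Φ ε a, ln Φ ε b) s).1 (free s (ln Φ ε y)) ∨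
          (s < ext Φ ε (node a b) ∧
            Ctc ε (pairLine Φ ε (ln Φ ε a, ln Φ ε b) s).2 (free s (ln Φ ε y)))) := by
  unfold own
  refine and_congr_right fun _ => and_congr_right fun _ => and_congr_right fun _ =>
    or_congr Iff.rfl (and_congr_right fun _ => ?_)
  rw [← st_swap hΦ a b s]
  constructor
  · rintro ⟨c, d, h, h'⟩
    cases h
    exact h'
  · exact fun h => ⟨a, b, rfl, h⟩

theorem hit_iff_at (hΦ : IsPotential Φ) {p y : CTree} {s : ℝ} :
    hit Φ ε p y s ↔ ∃ q, At Φ ε y s q p ∧ own Φ ε q y s := by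
  induction p with
  | leaf σ =>
    constructor
    · exact fun h => ⟨leaf σ, At.refl, own_leaf.2 h⟩
    · rintro ⟨q, h, h'⟩
      cases h
      exact own_leaf.1 h'
  | node a b iha ihb =>
    constructor
    · rintro (⟨h1, ⟨h2, h3⟩ | ⟨h2, h3⟩⟩ | h)
      · obtain ⟨q, h4, h5⟩ := iha.1 h2
        exact ⟨q, At.left h4 h1 h3, h5⟩
      · obtain ⟨q, h4, h5⟩ := ihb.1 h2
        exact ⟨q, At.right h4 h1 h3, h5⟩
      · exact ⟨_, At.refl, (own_node hΦ).2 h⟩
    · rintro ⟨q, h, h'⟩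
      cases h with
      | refl => exact Or.inr ((own_node hΦ).1 h')
      | left h1 h2 h3 => exact Or.inl ⟨h2, Or.inl ⟨iha.2 ⟨q, h1, h'⟩, h3⟩⟩
      | right h1 h2 h3 => exact Or.inl ⟨h2, Or.inr ⟨ihb.2 ⟨q, h1, h'⟩, h3⟩⟩

theorem own.hit (hΦ : IsPotential Φ) {q y : CTree} {s : ℝ} (h : own Φ ε q y s) :
    M.CTree.hit Φ ε q y s := (hit_iff_at hΦ).2 ⟨q, At.refl, h⟩

/-- Hits of a subtree before the end of its last collision are hits. -/
theorem hit_of_sub (hΦ : IsPotential Φ) (hε : 0 < ε) {Q T y : CTree} (h : Sub Q T)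
    (hT : M.CTree.ok Φ ε T) {s : ℝ} (hs : s ≤ ext Φ ε Q) (hh : hit Φ ε Q y s) :
    hit Φ ε T y s := by
  induction h with
  | refl => exact hh
  | @left a b h ih =>
    have h1 : s < sig Φ ε (node a b) := hs.trans_lt (Sub.ext_lt_sig hΦ hε (Or.inl h) hT)
    exact Or.inl ⟨h1.le, Or.inl ⟨ih hT.1, fun hcon => h1.ne hcon.2⟩⟩
  | @right b a h ih =>
    have h1 : s < sig Φ ε (node a b) := hs.trans_lt (Sub.ext_lt_sig hΦ hε (Or.inr h) hT)
    exact Or.inl ⟨h1.le, Or.inr ⟨ih hT.2.1, fun hcon => h1.ne hcon.2⟩⟩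

/-- The symmetry of the contacts of two flying particles. -/
theorem own.symm (hΦ : IsPotential Φ) (hε : 0 < ε) {q y : CTree} {s : ℝ} (hq : ok Φ ε q)
    (hy : ok Φ ε y) (h : own Φ ε q y s) (hs : ext Φ ε q ≤ s) : M.CTree.hit Φ ε y q s := by
  obtain ⟨h1, h2, h3⟩ := (hit_after hΦ hε hq hs).1 (h.hit hΦ)
  exact (hit_after hΦ hε hy h.2.1).2 ⟨hs, h2.symm, h3.symm⟩

/-- Two subtrees with a common leaf are nested. -/
theorem sub_nested {P Q T : CTree} (hT : M.CTree.ok Φ ε T) (hP : Sub P T) (hQ : Sub Q T) {σ : Src}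
    (h1 : σ ∈ P.leaves) (h2 : σ ∈ Q.leaves) : Sub P Q ∨ Sub Q P := by
  induction T with
  | leaf τ =>
    cases hP
    cases hQ
    exact Or.inl (Sub.refl _)
  | node a b iha ihb =>
    have hab := disjoint_left.1 hT.2.2.1
    cases hP with
    | refl => exact Or.inr hQ
    | left _ hP =>
      cases hQ with
      | refl => exact Or.inl (Sub.left _ hP)
      | left _ hQ => exact iha hT.1 hP hQ
      | right _ hQ => exact absurd (hQ.leaves_subset h2) (hab (hP.leaves_subset h1))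
    | right _ hP =>
      cases hQ with
      | refl => exact Or.inl (Sub.right _ hP)
      | left _ hQ => exact absurd (hP.leaves_subset h1) (hab (hQ.leaves_subset h2))
      | right _ hQ => exact ihb hT.2.1 hP hQ

theorem Sub.eq_of_card {P Q : CTree} (h : Sub P Q) (hc : Q.card ≤ P.card) : P = Q := by
  cases h with
  | refl => rfl
  | @left a b h =>
    have h1 := h.card_le
    have h2 := b.card_pos
    simp only [CTree.card] at hc
    omega
  | @right b a h =>
    have h1 := h.card_le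
    have h2 := a.card_pos
    simp only [CTree.card] at hc
    omega

/-- The exhausts are not subtrees. -/
theorem not_sub_of_exs {T x : CTree} (hT : M.CTree.ok Φ ε T) (hx : x ∈ exs T) : ¬Sub x T := by
  obtain ⟨a, b, h, rfl⟩ := exs_iff.1 hx
  intro h'
  have h1 : a.root ∈ (node a b).leaves := Or.inl a.root_mem_leaves
  have h2 : a.root ∈ (node b a).leaves := Or.inr a.root_mem_leaves
  have hc : (node a b).card = (node b a).card := by
    simp only [CTree.card]
    omega
  have h3 : node a b = node b a := by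
    rcases sub_nested hT h h' h1 h2 with h4 | h4
    · exact h4.eq_of_card hc.ge
    · exact (h4.eq_of_card hc.le).symm
  have h4 : a = b := by
    injection h3
  have h5 := (h.ok hT).2.2.1
  rw [h4] at h5
  exact b.not_disjoint_self h5

theorem sub_leaf_of_mem {T : CTree} {σ : Src} (h : σ ∈ T.leaves) : Sub (leaf σ) T := by
  induction T with
  | leaf τ =>
    rw [mem_singleton_iff.1 h]
    exact Sub.refl _
  | node a b iha ihb =>
    rcases h with h | h
    · exact Sub.left b (iha h)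
    · exact Sub.right a (ihb h)

/-- The first hit by an alive tree. -/
theorem exists_first_hit (hΦ : IsPotential Φ) (hε : 0 < ε) {W : Set Src} (hW : W.Finite)
    {T T₀ : CTree} {s₀ : ℝ} (hT : M.CTree.ok Φ ε T) (h : hit Φ ε T T₀ s₀)
    (h' : alive Φ ε L W T₀ s₀) : ∃ T' s, s ≤ s₀ ∧ s = fh Φ ε T T' ∧ hit Φ ε T T' s ∧
      alive Φ ε L W T' s ∧ ∀ T'' r, r < s → hit Φ ε T T'' r → ¬alive Φ ε L W T'' r := by
  set B : Set CTree := {T' | T'.leaves ⊆ W ∧ T'.depth ≤ L ∧ (∃ s, s ≤ s₀ ∧ hit Φ ε T T' s) ∧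
    alive Φ ε L W T' (fh Φ ε T T')} with hB
  have hBf : B.Finite := (finite_depth hW L).subset fun T' h => ⟨h.1, h.2.1⟩
  have key : ∀ T' s, s ≤ s₀ → hit Φ ε T T' s → alive Φ ε L W T' s → T' ∈ B := by
    intro T' s hs hh ha
    exact ⟨(alive_pre ha).sub, (alive_pre ha).depth, ⟨s, hs, hh⟩,
      alive_anti ha (fh_le hΦ hε hT hh) (hit_ext_le (fh_hit hΦ hε hT hh))⟩
  obtain ⟨T', hT', hmin⟩ := hBf.exists_minimalFor (fun T' => fh Φ ε T T') _
    ⟨T₀, key T₀ s₀ le_rfl h h'⟩
  obtain ⟨h1, h2, ⟨s, hs, hh⟩, h4⟩ := hT'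
  have h5 := fh_hit hΦ hε hT hh
  have h6 := fh_le hΦ hε hT hh
  refine ⟨T', fh Φ ε T T', h6.trans hs, rfl, h5, h4, fun T'' r hr hh' ha' => ?_⟩
  have h10 := key T'' r (hr.le.trans (h6.trans hs)) hh' ha'
  have h8 := fh_le hΦ hε hT hh'
  have h11 := hmin h10
  rcases le_total (fh Φ ε T T') (fh Φ ε T T'') with h12 | h12
  · exact absurd (h8.trans_lt hr) (not_lt.2 h12)
  · exact absurd (h8.trans_lt hr) (not_lt.2 (h11 h12))

end Vale.Agent.P119.TL
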