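import Vale.Agent.P119.TL.Trunc3
import Vale.Agent.P119.IND.Final

/-!
# P119: a tree which is disturbed when other particles are removed (`helper472`)

`NiceT W T r`: the particles of `T` are undisturbed and not bad in the world `W` before the births
`r x` of their lines.

* `exists_cur_of_hit`: a hit of a history of `T` is a contact with the current history of a particle
  of `T`;
* **`nice_without`**: if `T` is nice in `W` and every tree of the world of lines over the base `V` is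
  live in `W` (with its histories put back) or satisfies `D`, then `T` is nice in the world
  `V ∪ T.leaves`, or a tree which satisfies `D` is in contact with a particle of `T`.
-/

open MeasureTheory Filter Topology Set
open scoped ENNReal NNReal

noncomputable section

namespace Vale.Agent.P119.TL

open KU M M.CTree RB IND

variable {Φ : E3 → ℝ} {ε : ℝ} {L : ℕ}

/-! ### The current history of a particle of a tree -/

/-- The histories of a particle of `T` in `T` are initial parts of its final history. -/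
theorem spine_of_sub {T q x : CTree} (hT : M.CTree.ok Φ ε T) (hq : Sub q T) (hx : x ∈ outs T)
    (hr : x.root = q.root) : Spine q x := by
  induction T generalizing x with
  | leaf σ =>
    cases hq
    rcases hx with rfl | hx
    · exact Spine.refl _
    · exact absurd hx (notMem_empty _)
  | node a b iha ihb =>
    have hab := disjoint_left.1 hT.2.2.1
    cases hq with
    | refl =>
      rw [outs_root_inj hT hx (Or.inl rfl) hr]
      exact Spine.refl _
    | left _ hq =>
      have h1 : q.root ∈ a.leaves := hq.leaves_subset q.root_mem_leaves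
      rcases hx with rfl | hx
      · exact Spine.left b (iha hT.1 hq (Or.inl rfl) hr)
      · rcases mem_exs_node.1 hx with hx | hx | rfl
        · exact iha hT.1 hq (Or.inr hx) hr
        · exact absurd (exs_leaves hx x.root_mem_leaves) (hab (hr ▸ h1))
        · exact absurd b.root_mem_leaves (hab (by
            have h2 : b.root = q.root := hr
            rw [h2]; exact h1))
    | right _ hq =>
      have h1 : q.root ∈ b.leaves := hq.leaves_subset q.root_mem_leaves
      rcases hx with rfl | hx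
      · have h2 : a.root = q.root := hr
        exact absurd h1 (hab (h2 ▸ a.root_mem_leaves))
      · rcases mem_exs_node.1 hx with hx | hx | rfl
        · exact absurd h1 (hab (hr ▸ exs_leaves hx x.root_mem_leaves))
        · exact ihb hT.2.1 hq (Or.inr hx) hr
        · exact Spine.left a (ihb hT.2.1 hq (Or.inl rfl) hr)

theorem cur_of_spine (hΦ : IsPotential Φ) (hε : 0 < ε) {q x : CTree} (hx : ok Φ ε x)
    (h : Spine q x) {s : ℝ} (h1 : sig Φ ε q ≤ s) (h2 : s < ext Φ ε q) : cur Φ ε x s = q := by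
  induction h with
  | refl => exact cur_of_sig_le h1
  | @left a b h ih =>
    have h3 : ext Φ ε q ≤ ext Φ ε a := (Spine.sub h).ext_le hΦ hε hx.1
    have h4 : s < sig Φ ε (node a b) := (h2.trans_le h3).trans hx.2.2.2.2.2.1
    rw [cur_of_lt_sig h4]
    exact ih hx.1

theorem cur_of_spine_lt (hΦ : IsPotential Φ) (hε : 0 < ε) {q x : CTree} (hx : ok Φ ε x)
    (h : Spine q x) {s : ℝ} (h2 : s < ext Φ ε q) : cur Φ ε x s = cur Φ ε q s := by
  induction h with
  | refl => rfl
  | @left a b h ih =>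
    have h3 : ext Φ ε q ≤ ext Φ ε a := (Spine.sub h).ext_le hΦ hε hx.1
    have h4 : s < sig Φ ε (node a b) := (h2.trans_le h3).trans hx.2.2.2.2.2.1
    rw [cur_of_lt_sig h4]
    exact ih hx.1

/-- The state of a particle before its next collision. -/
theorem st_cur_of_spine (hΦ : IsPotential Φ) (hε : 0 < ε) {q d x : CTree} (hx : ok Φ ε x)
    (h : Spine (node q d) x) {s : ℝ} (h1 : sig Φ ε q ≤ s) (h2 : s ≤ sig Φ ε (node q d)) :
    st Φ ε (cur Φ ε x s) s = st Φ ε q s ∧ s < ext Φ ε x := by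
  have hok := (Spine.sub h).ok hx
  have h3 := sig_lt_ext hΦ hε hok
  refine ⟨?_, (h2.trans_lt h3).trans_le ((Spine.sub h).ext_le hΦ hε hx)⟩
  rw [cur_of_spine_lt hΦ hε hx h (h2.trans_lt h3)]
  rcases h2.lt_or_eq with h4 | h4
  · rw [cur_of_lt_sig h4, cur_of_sig_le h1]
  · rw [cur_of_sig_le h4.ge, h4]
    exact st_sig hΦ hε hok

theorem At.par {y q p : CTree} {s : ℝ} (h : At Φ ε y s q p) :
    q = p ∨ ∃ P, Par P q ∧ Sub P p ∧ s ≤ sig Φ ε P := by
  induction h with
  | refl => exact Or.inl rfl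
  | @left a b h hs _ ih =>
    right
    rcases ih with rfl | ⟨P, h1, h2, h3⟩
    · exact ⟨_, Or.inl ⟨b, rfl⟩, Sub.refl _, hs⟩
    · exact ⟨P, h1, Sub.left b h2, h3⟩
  | @right a b h hs _ ih =>
    right
    rcases ih with rfl | ⟨P, h1, h2, h3⟩
    · exact ⟨_, Or.inr ⟨a, rfl⟩, Sub.refl _, hs⟩
    · exact ⟨P, h1, Sub.right a h2, h3⟩

/-- The swapped histories. -/
theorem outs_cases_sub {T x : CTree} (hx : x ∈ outs T) :
    x = T ∨ ∃ a b, Sub (node a b) T ∧ x = node b a := hx.imp id exs_iff.1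

theorem root_birth_le_of_sig (hΦ : IsPotential Φ) (hε : 0 < ε) {q : CTree} {s : ℝ}
    (hq : ok Φ ε q) (h : sig Φ ε q ≤ s) : q.root.1 ≤ s := (root_birth_le_sig hΦ hε hq).trans h

/-- **A hit of a history of `T`** is a contact with the current history of a particle of `T`. -/
theorem exists_cur_of_hit (hΦ : IsPotential Φ) (hε : 0 < ε) {T x X : CTree} {r : CTree → ℝ}
    {u : ℝ} (hT : ok Φ ε T) (hr : ∀ x ∈ outs T, ext Φ ε x ≤ r x) (hx : x ∈ outs T)
    (hu : u ≤ r x) (hX : ok Φ ε X) (hh : hit Φ ε x X u) :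
    ∃ x' ∈ outs T, x'.root.1 ≤ u ∧ u ≤ r x' ∧ Ctc ε (st Φ ε X u) (st Φ ε (cur Φ ε x' u) u) := by
  have hxok := outs_ok hΦ hT hx
  have hXu := hit_ext_le hh
  obtain ⟨q, h1, h2, -, -, h3⟩ := (hit_iff_at hΦ).1 hh
  rw [← st_after hΦ hε hX hXu] at h3
  have hqok := h1.sub.ok hxok
  rcases h3 with h3 | ⟨h3, a, b, rfl, h4⟩
  · -- the line of the root of `q`
    rcases h1.par with rfl | ⟨P, hP, hPx, hPs⟩
    · refine ⟨q, hx, root_birth_le_of_sig hΦ hε hqok h2, hu, ?_⟩
      rw [cur_of_sig_le h2]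
      exact h3.symm
    · -- the parent is a subtree of `T`
      obtain ⟨P', hP', hPT, hPs'⟩ : ∃ P', Par P' q ∧ Sub P' T ∧ u ≤ sig Φ ε P' := by
        rcases outs_cases_sub hx with rfl | ⟨a, b, h5, rfl⟩
        · exact ⟨P, hP, hPx, hPs⟩
        · cases hPx with
          | refl =>
            refine ⟨node a b, ?_, h5, ?_⟩
            · rcases hP with ⟨c, hc⟩ | ⟨c, hc⟩
              · injection hc with e1 e2
                exact Or.inr ⟨a, by rw [e1]⟩
              · injection hc with e1 e2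
                exact Or.inl ⟨b, by rw [e2]⟩
            · rw [← sig_swap a b]; exact hPs
          | left _ h6 => exact ⟨P, hP, (h6.trans (Sub.right a (Sub.refl b))).trans h5, hPs⟩
          | right _ h6 => exact ⟨P, hP, (h6.trans (Sub.left b (Sub.refl a))).trans h5, hPs⟩
      have hPok := hPT.ok hT
      obtain ⟨x', hx', d, h5, h6⟩ : ∃ x' ∈ outs T, ∃ d, Spine (node q d) x' ∧
          u ≤ sig Φ ε (node q d) := by
        rcases hP' with ⟨d, rfl⟩ | ⟨d, rfl⟩
        · obtain ⟨x', hx', hxr⟩ := exists_out (hPT.leaves_subset (node q d).root_mem_leaves)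
          exact ⟨x', hx', d, spine_of_sub hT hPT hx' hxr, hPs'⟩
        · refine ⟨node q d, Or.inr (exs_iff.2 ⟨d, q, hPT, rfl⟩), d, Spine.refl _, ?_⟩
          rw [sig_swap d q]; exact hPs'
      have hx'ok := outs_ok hΦ hT hx'
      obtain ⟨h7, h8⟩ := st_cur_of_spine hΦ hε hx'ok h5 h2 h6
      refine ⟨x', hx', ?_, h8.le.trans (hr x' hx'), ?_⟩
      · rw [← h5.root_eq]
        exact root_birth_le_of_sig (q := q) hΦ hε hqok h2
      · rw [h7]
        exact h3.symm
  · -- the line of the partner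
    have h5 : ok Φ ε (node b a) := ok_swap hΦ hqok
    have hs1 : sig Φ ε (node b a) ≤ u := by rw [sig_swap a b]; exact h2
    have hs2 : u < ext Φ ε (node b a) := by rw [ext_swap hΦ a b]; exact h3
    obtain ⟨x', hx', h6⟩ : ∃ x' ∈ outs T, Spine (node b a) x' := by
      have key : Sub (node a b) T → ∃ x' ∈ outs T, Spine (node b a) x' := fun h =>
        ⟨node b a, Or.inr (exs_iff.2 ⟨a, b, h, rfl⟩), Spine.refl _⟩
      rcases outs_cases_sub hx with rfl | ⟨c, d, h6, rfl⟩
      · exact key h1.sub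
      · cases h1.sub with
        | refl =>
          obtain ⟨x', hx', hxr⟩ := exists_out (h6.leaves_subset (node b a).root_mem_leaves)
          exact ⟨x', hx', spine_of_sub hT h6 hx' hxr⟩
        | left _ h7 => exact key ((h7.trans (Sub.right c (Sub.refl d))).trans h6)
        | right _ h7 => exact key ((h7.trans (Sub.left d (Sub.refl c))).trans h6)
    have hx'ok := outs_ok hΦ hT hx'
    refine ⟨x', hx', ?_, (hs2.le.trans ((Spine.sub h6).ext_le hΦ hε hx'ok)).trans (hr x' hx'), ?_⟩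
    · rw [← h6.root_eq]
      exact root_birth_le_of_sig hΦ hε h5 hs1
    · rw [cur_of_spine hΦ hε hx'ok h6 hs1 hs2]
      exact h4.symm

/-! ### Live trees at the end of the undisturbed time -/

/-- **The live trees of `U ∪ T.leaves`** at the time `t` of `TSetup`. -/
theorem Tr.live_classify (hΦ : IsPotential Φ) (hε : 0 < ε) {U : Set Src} {T : CTree}
    {r : CTree → ℝ} {t : ℝ} (h : TSetup Φ ε L U T r t) {Q : CTree}
    (hQ : live Φ ε L (U ∪ T.leaves) Q t) (hb : Bg Φ ε Q t) :
    (∃ q, Q = th Φ ε r T q ∧ live Φ ε L (lwd Φ ε r U T) q t ∧ Bg Φ ε q t) ∨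
      (Q = leaf Q.root ∧ Q.root ∈ T.leaves ∧ Q.root.1 = t) ∨
      (sig Φ ε Q < t ∧ ∃ x ∈ outs T, x.root = Q.root ∧ t ≤ r x ∧
        ∀ s, sig Φ ε Q ≤ s → s < t → Q = cur Φ ε x s) := by
  have hW := wd_finite h
  have hW' := lwd_finite h
  have hmem : Q.root ∈ U ∪ T.leaves := live.mem hQ
  have hbirth := live.birth_le hΦ hε hQ
  rcases hQ.sig_le.lt_or_eq with h1 | h1
  · obtain ⟨b, hb', hbr⟩ := Tr.exists_rt h hmem
    rcases lt_or_ge b.1 t with h2 | h2
    · left
      have h3 : max (sig Φ ε Q) b.1 < t := max_lt h1 h2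
      have h4 := hQ.lives_of_lt h3 (le_max_left _ _)
      have h5 := Tr.stat_rt hΦ hε h h3 hb' (le_max_right _ _)
      rw [hbr, (stat_eq_some_iff hΦ hε hW).2 ⟨rfl, h4⟩] at h5
      obtain ⟨q, h6, h7⟩ := Option.map_eq_some_iff.1 h5.symm
      have h8 := ((stat_eq_some_iff hΦ hε hW').1 h6).2
      have h9 : sig Φ ε q < t := h8.sig_le.trans_lt h3
      refine ⟨q, h7.symm, ?_, Or.inl h9⟩
      rw [Tr.live_th_bef hΦ hε h le_rfl h8.sub (Tr.Bef.of_lt h9), h7]
      exact ⟨hQ, h9.le⟩
    · right; right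
      refine ⟨h1, ?_⟩
      rcases hb' with hb' | ⟨x, hx, rfl⟩
      · exfalso
        rw [Tr.rt_of_mem h hb'] at hbr
        have h3 := root_birth_le_sig hΦ hε hQ.ok
        rw [← hbr] at h3
        linarith
      · rw [Tr.rt_msrc h hx] at hbr
        refine ⟨x, hx, hbr, h2, fun s hs hst => ?_⟩
        exact Tr.stat_leg' hΦ hε h hst hx (hst.trans_le h2) (hQ.lives_of_lt hst hs) hbr.symm
  · -- a leaf which is born at the time `t`
    rcases hb with h2 | h2
    · exact absurd h1 h2.ne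
    · have h3 : Q.root.1 = t := by
        rw [h2] at h1
        exact h1
      rcases hmem with h4 | h4
      · left
        have h5 : (leaf Q.root).leaves ⊆ U := by
          rintro σ rfl
          exact h4
        refine ⟨leaf Q.root, ?_, ?_, Or.inr rfl⟩
        · rw [Tr.th_of_subset h h5]
          exact h2
        · have h6 := hQ.ok
          have h7 := hQ.depth
          rw [h2] at h6 h7
          refine ⟨h5.trans subset_union_left, h6, h7, h3.le, fun X s hs hh => ?_⟩
          have h8 : Q.root.1 ≤ s := hh.1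
          linarith
      · exact Or.inr (Or.inl ⟨h2, h4, h3⟩)

/-! ### Nice trees -/

/-- The particles of `T` are undisturbed and not bad in the world `W` before the births of their
lines. -/
structure NiceT (Φ : E3 → ℝ) (ε : ℝ) (L : ℕ) (W : Set Src) (T : CTree) (r : CTree → ℝ) :
    Prop where
  /-- alive -/
  alive : ∀ x ∈ outs T, M.alive Φ ε L W x (r x)
  /-- no hit at the birth, if this is later than the exit -/
  lives : ∀ x ∈ outs T, r x = ext Φ ε x ∨ M.lives Φ ε L W x (r x)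
  /-- not bad -/
  good : ∀ x ∈ outs T, ∀ s < r x, ¬badi Φ ε L W x.root s

theorem dclosed_of_frequently {A : Set ℝ} (h : ∀ y, (∃ᶠ r in 𝓝[>] y, r ∈ A) → y ∈ A) :
    FB.DClosed A := by
  intro y hy
  by_contra hcon
  refine hcon (h y ?_)
  rw [frequently_iff]
  intro U hU
  obtain ⟨u, hu, hu'⟩ := mem_nhdsGT_iff_exists_Ioo_subset.1 hU
  have hu : y < u := hu
  obtain ⟨s, hs, h1, h2⟩ := hy (u - y) (by linarith)
  have h3 : y < s := lt_of_le_of_ne h1 fun h => hcon (h ▸ hs)
  exact ⟨s, hu' ⟨h3, by linarith⟩, hs⟩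

theorem dclosed_iio (c : ℝ) : FB.DClosed {s : ℝ | s < c} := by
  intro y hy
  obtain ⟨s, hs, h1, -⟩ := hy 1 one_pos
  exact h1.trans_lt hs

/-- The hits by alive trees before a time. -/
theorem dclosed_hit (hΦ : IsPotential Φ) (hε : 0 < ε) {W : Set Src} {x X : CTree}
    (hx : ok Φ ε x) (c : ℝ) (P : Prop) :
    FB.DClosed {s : ℝ | (s < c ∨ (s = c ∧ P)) ∧ hit Φ ε x X s ∧ alive Φ ε L W X s} := by
  refine dclosed_of_frequently fun y hy => ?_
  have h1 : hit Φ ε x X y := hit_of_frequently hΦ hε hx (hy.mono fun r hr => hr.2.1)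
  obtain ⟨s, hs, hs'⟩ := (hy.and_eventually self_mem_nhdsWithin).exists
  have hs' : y < s := hs'
  refine ⟨Or.inl ?_, h1, alive_anti hs.2.2 hs'.le (hit_ext_le h1)⟩
  rcases hs.1 with h2 | h2
  · exact hs'.trans h2
  · exact h2.1 ▸ hs'

/-- **The tree `T` without some particles**: `T` is nice in `W`; every tree of the world of lines
over `V` is live in `W`, with its histories put back, or satisfies `D`. -/
theorem nice_without (hΦ : IsPotential Φ) (hε : 0 < ε) {V W : Set Src} {T : CTree}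
    {r : CTree → ℝ} {t : ℝ} (hW : W.Finite) (hn : NiceT Φ ε L W T r) (fin : V.Finite)
    (disj : Disjoint V T.leaves) (inj : InjOn (msrc Φ ε r) (outs T))
    (fresh : ∀ x ∈ outs T, msrc Φ ε r x ∉ V) (le_r : ∀ x ∈ outs T, ext Φ ε x ≤ r x)
    (r_le : ∀ x ∈ outs T, r x ≤ t)
    (indep : ∀ p y s, s ≤ t → live Φ ε L (lwd Φ ε r V T) p s →
      M.alive Φ ε L (lwd Φ ε r V T) y s → Disjoint p.leaves y.leaves → hit Φ ε p y s →
        p.leaves ⊆ V ∨ y.leaves ⊆ V)
    {D : CTree → ℝ → Prop}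
    (hD : ∀ q s, s ≤ t → Bg Φ ε q s → live Φ ε L (lwd Φ ε r V T) q s →
      live Φ ε L W (th Φ ε r T q) s ∨ D q s) :
    NiceT Φ ε L (V ∪ T.leaves) T r ∨ ∃ x ∈ outs T, ∃ q s, s ≤ t ∧ x.root.1 ≤ s ∧ s ≤ r x ∧
      Bg Φ ε q s ∧ D q s ∧ Ctc ε (st Φ ε q s) (st Φ ε (cur Φ ε x s) s) := by
  have hW' : (V ∪ T.leaves).Finite := fin.union T.leaves_finite
  have hpT := alive_pre (hn.alive T (Or.inl rfl))
  have hok : ∀ x ∈ outs T, ok Φ ε x := fun x hx => (alive_pre (hn.alive x hx)).ok
  have hdep : ∀ x ∈ outs T, x.depth ≤ L := fun x hx => (alive_pre (hn.alive x hx)).depth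
  -- the failures
  set fH : ℝ → Prop := fun s => ∃ x ∈ outs T, ∃ X, (s < r x ∨ (s = r x ∧ r x ≠ ext Φ ε x)) ∧
    hit Φ ε x X s ∧ M.alive Φ ε L (V ∪ T.leaves) X s with hfH
  set fB : ℝ → Prop := fun s => ∃ x ∈ outs T, s < r x ∧
    badi Φ ε L (V ∪ T.leaves) x.root s with hfB
  by_cases hA : ∃ s, fH s ∨ fB s
  swap
  · -- no failure
    left
    have h1 : ∀ s, ¬fH s := fun s h => hA ⟨s, Or.inl h⟩
    have h2 : ∀ s, ¬fB s := fun s h => hA ⟨s, Or.inr h⟩
    refine ⟨fun x hx => ?_, fun x hx => ?_, fun x hx s hs hb => h2 s ⟨x, hx, hs, hb⟩⟩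
    · rw [alive_iff hΦ hε hW']
      exact ⟨⟨(outs_leaves hx).trans subset_union_right, hok x hx, hdep x hx, le_r x hx⟩,
        fun X s hs hh ha => h1 s ⟨x, hx, X, Or.inl hs, hh, ha⟩⟩
    · by_cases h3 : r x = ext Φ ε x
      · exact Or.inl h3
      · right
        refine ⟨(outs_leaves hx).trans subset_union_right, hok x hx, hdep x hx,
          (sig_le_ext hΦ hε (hok x hx)).trans (le_r x hx), fun X s hs hh ha => h1 s
            ⟨x, hx, X, hs.lt_or_eq.imp id fun h => ⟨h, h3⟩, hh, ha⟩⟩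
  right
  -- the first failure
  have hcl : FB.DClosed {s | fH s ∨ fB s} := by
    have e : {s | fH s ∨ fB s} = {s | ∃ x ∈ (outs_finite T).toFinset,
        s ∈ {s | ∃ X ∈ (finite_depth hW' L).toFinset, s ∈ {s | (s < r x ∨ (s = r x ∧
          r x ≠ ext Φ ε x)) ∧ hit Φ ε x X s ∧ M.alive Φ ε L (V ∪ T.leaves) X s}}} ∪
        {s | ∃ x ∈ (outs_finite T).toFinset,
          s ∈ {s : ℝ | s < r x} ∩ {s | badi Φ ε L (V ∪ T.leaves) x.root s}} := by
      ext s
      constructor
      · rintro (⟨x, hx, X, h1, h2, h3⟩ | ⟨x, hx, h1, h2⟩)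
        · exact Or.inl ⟨x, (outs_finite T).mem_toFinset.2 hx, X,
            (finite_depth hW' L).mem_toFinset.2 ⟨(alive_pre h3).sub, (alive_pre h3).depth⟩,
            h1, h2, h3⟩
        · exact Or.inr ⟨x, (outs_finite T).mem_toFinset.2 hx, h1, h2⟩
      · rintro (⟨x, hx, X, -, h1, h2, h3⟩ | ⟨x, hx, h1, h2⟩)
        · exact Or.inl ⟨x, (outs_finite T).mem_toFinset.1 hx, X, h1, h2, h3⟩
        · exact Or.inr ⟨x, (outs_finite T).mem_toFinset.1 hx, h1, h2⟩
    rw [e]
    refine FB.DClosed.union (FB.DClosed.biUnion _ fun x hx => FB.DClosed.biUnion _ fun X _ => ?_)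
      (FB.DClosed.biUnion _ fun x _ => (dclosed_iio _).inter (badi_closed hΦ hε hW' _))
    exact dclosed_hit hΦ hε (hok x ((outs_finite T).mem_toFinset.1 hx)) _ _
  have hnn : ∀ s ∈ {s | fH s ∨ fB s}, (0 : ℝ) ≤ s := by
    rintro s (⟨x, hx, X, -, h1, -⟩ | ⟨x, hx, -, h1⟩)
    · exact hit_nonneg hΦ hε (hok x hx) h1
    · exact h1.2.1
  obtain ⟨s₀, hs₀⟩ := hA
  obtain ⟨u, -, hu, hmin⟩ := hcl.first hnn hs₀
  have hut : u ≤ t := by
    rcases hu with ⟨x, hx, X, h1, -, -⟩ | ⟨x, hx, h1, -⟩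
    · rcases h1 with h1 | h1
      · exact h1.le.trans (r_le x hx)
      · exact h1.1.le.trans (r_le x hx)
    · exact h1.le.trans (r_le x hx)
  have hminH : ∀ s < u, ¬fH s := fun s hs h => hmin s hs (Or.inl h)
  have hminB : ∀ s < u, ¬fB s := fun s hs h => hmin s hs (Or.inr h)
  have hset : TSetup Φ ε L V T r u := by
    refine TSetup.of_not_bad hΦ hε fin disj inj fresh le_r hpT.ok hpT.depth
      (fun x hx X s hs hsu hh ha => hminH s hsu ⟨x, hx, X, Or.inl hs, hh, ha⟩)
      (fun x hx hr => ?_) (fun x hx s hs hsu hb => hminB s hsu ⟨x, hx, hs, hb⟩)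
      (fun p y s hs => indep p y s (hs.le.trans hut))
    by_cases h3 : r x = ext Φ ε x
    · exact Or.inl h3
    · exact Or.inr fun X hh ha => hminH _ hr ⟨x, hx, X, Or.inr ⟨rfl, h3⟩, hh, ha⟩
  -- the live trees at the time `u`
  have key : ∀ Q, live Φ ε L (V ∪ T.leaves) Q u → Bg Φ ε Q u → live Φ ε L W Q u ∨
      ∃ q, Bg Φ ε q u ∧ D q u ∧ st Φ ε q u = st Φ ε Q u := by
    intro Q hQ hb
    rcases Tr.live_classify hΦ hε hset hQ hb with ⟨q, h1, h2, h3⟩ | ⟨h1, h2, h3⟩ |
      ⟨h1, x, hx, h2, h3, h4⟩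
    · rcases hD q u hut h3 h2 with h4 | h4
      · left
        rw [h1]
        exact h4
      · right
        refine ⟨q, h3, h4, ?_⟩
        rw [h1, Tr.th_st hΦ hε hset h2.sub h2.sig_le]
    · left
      have h6 := hQ.ok
      have h7 := hQ.depth
      rw [h1] at h6 h7 ⊢
      refine ⟨?_, h6, h7, h3.le, fun X s hs hh => ?_⟩
      · rintro σ rfl
        exact hpT.sub h2
      · have h8 : Q.root.1 ≤ s := hh.1
        linarith
    · left
      refine live_of_lives_before h1 fun s hs hsu => ?_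
      have h5 := h4 s hs hsu
      have h6 := hn.alive x hx
      have h7 : x.root.1 ≤ s := by
        rw [h2]
        exact (root_birth_le_sig hΦ hε hQ.ok).trans hs
      have h8 := live_cur hΦ hε hW ((alive_iff_live hΦ hε hW).1 h6).1 (hsu.trans_le h3) h7
      rw [← h5] at h8
      exact h8
  by_cases hH : fH u
  · -- a hit
    obtain ⟨x, hx, X, h1, h2, h3⟩ := hH
    have h4 := (alive_iff_live hΦ hε hW').1 h3
    rcases key X h4.1 (Bg.of_alive hΦ hε h3) with h5 | ⟨q, h5, h6, h7⟩
    · exfalso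
      have h6 : M.alive Φ ε L W X u := (alive_iff_live hΦ hε hW).2 ⟨h5, h4.2⟩
      rcases h1 with h1 | h1
      · exact no_hit hΦ hε hW (hn.alive x hx) h1 h2 h6
      · rcases hn.lives x hx with h7 | h7
        · exact h1.2 h7
        · exact h7.nohit X u h1.1.le h2 h6
    · have hur : u ≤ r x := h1.elim (fun h => h.le) fun h => h.1.le
      obtain ⟨x', hx', h8, h9, h10⟩ := exists_cur_of_hit hΦ hε hpT.ok le_r hx hur h4.1.ok h2
      exact ⟨x', hx', q, u, hut, h8, h9, h5, h6, by rw [h7]; exact h10⟩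
  · -- a bad particle
    obtain ⟨x, hx, h1, h2⟩ := hu.resolve_left hH
    obtain ⟨-, h3, h4, h5⟩ := h2
    -- the particle is alive
    have hcur : M.lives Φ ε L (V ∪ T.leaves) (cur Φ ε x u) u := by
      have h6 : Sub (cur Φ ε x u) x := Spine.sub (cur_spine x u)
      refine ⟨(h6.leaves_subset.trans (outs_leaves hx)).trans subset_union_right,
        h6.ok (hok x hx), h6.depth_le.trans (hdep x hx), sig_cur_le h4, fun X s hs hh ha => ?_⟩
      have h7 := Tr.hit_of_cur (hok x hx) hs hh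
      rcases hs.lt_or_eq with h8 | h8
      · exact hminH s h8 ⟨x, hx, X, Or.inl (h8.trans h1), h7, ha⟩
      · exact hH (h8 ▸ ⟨x, hx, X, Or.inl (h8 ▸ h1), h7, ha⟩)
    have hst : stat Φ ε L (V ∪ T.leaves) x.root u = some (cur Φ ε x u) :=
      (stat_eq_some_iff hΦ hε hW').2 ⟨cur_root x u, hcur⟩
    rcases h5 with h5 | ⟨c, h5, h6⟩
    · rw [hst] at h5
      cases h5
    · have hne := h5.1
      obtain ⟨-, P, Q₀, h7, h8, h9, h10, h11⟩ := h5
      have h12 : st Φ ε P u = st Φ ε (cur Φ ε x u) u :=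
        st_of_live hΦ hε hW' h9 (h7.symm ▸ hst)
      rw [h12] at h11
      obtain ⟨Q, h13, h14, h15, h16⟩ : ∃ Q : CTree, Q.root = Q₀.root ∧
          live Φ ε L (V ∪ T.leaves) Q u ∧ Bg Φ ε Q u ∧ st Φ ε Q u = st Φ ε Q₀ u := by
        rcases live_sig hΦ hε hW' h10 with ⟨h13, -⟩ | ⟨T₀, h13, h14, h15, h16⟩
        · exact ⟨Q₀, rfl, h10, Or.inr h13, rfl⟩
        · exact ⟨T₀, h13, h14, Or.inl h15, h16⟩
      rcases key Q h14 h15 with h17 | ⟨q, h17, h18, h19⟩
      · exfalso
        have hcW := live_cur hΦ hε hW ((alive_iff_live hΦ hε hW).1 (hn.alive x hx)).1 h1 h4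
        refine hn.good x hx u h1 ⟨?_, h3, h4, Or.inr ⟨c, ⟨hne, cur Φ ε x u, Q, cur_root x u,
          h13.trans h8, hcW.live, h17, ?_⟩, ?_⟩⟩
        · have := live.mem hcW.live
          rwa [cur_root] at this
        · rw [h16]
          exact h11
        · -- the same partner
          rintro ⟨Z, Z', h18, h19, y, y', e1, e2, h20⟩
          have h21 := (stat_eq_some_iff hΦ hε hW).1 h18
          have h22 : Z = cur Φ ε x u :=
            lives_unique hΦ hε hW h21.2 hcW (h21.1.trans (cur_root x u).symm)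
          refine h6 ⟨Z, Z', by rw [h22]; exact hst, ?_, y, y', e1, e2, h20⟩
          rw [stat_eq_some_iff hΦ hε hW']
          refine ⟨((stat_eq_some_iff hΦ hε hW).1 h19).1, ?_⟩
          rw [e2]
          rw [e1] at h20 h22
          rw [← h22] at hcur
          exact lives_swap hΦ hcur h20
      · refine ⟨x, hx, q, u, hut, h4, h1.le, h17, h18, ?_⟩
        rw [h19, h16]
        exact h11.symm

end Vale.Agent.P119.TL
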