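import Vale.Agent.P119.TL.Without

/-!
# P119: a tree which is not hit but becomes bad when other particles are removed (`helper472`)

* `hit_of_ctc`: a contact of a live tree with a flying tree of other particles is a hit;
* **`nice_without_c`**: `nice_without` if `T` is undisturbed in the new world: then the tree which is
  in contact with a particle of `T` is colliding.
-/

open MeasureTheory Filter Topology Set
open scoped ENNReal NNReal

noncomputable section

namespace Vale.Agent.P119.TL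

open KU M M.CTree RB IND

variable {Φ : E3 → ℝ} {ε : ℝ} {L : ℕ}

/-- A contact with a flying tree of other particles is a hit. -/
theorem hit_of_ctc (hΦ : IsPotential Φ) (hε : 0 < ε) {p Q : CTree} {s : ℝ}
    (hp : sig Φ ε p ≤ s) (hQ : ok Φ ε Q) (hQs : ext Φ ε Q ≤ s) (hd : Disjoint p.leaves Q.leaves)
    (hc : Ctc ε (st Φ ε p s) (st Φ ε Q s)) : hit Φ ε p Q s := by
  rw [st_after hΦ hε hQ hQs] at hc
  cases p with
  | leaf σ => exact ⟨hp, hQs, fun h => disjoint_left.1 hd (mem_singleton σ) h, hc⟩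
  | node a b => exact Or.inr ⟨hp, hQs, hd, Or.inl hc⟩

/-- **The tree `T` without some particles**, if it is undisturbed: `T` is nice, or one of its
particles is in contact with a colliding tree. -/
theorem nice_without_c (hΦ : IsPotential Φ) (hε : 0 < ε) {V W : Set Src} {T : CTree}
    {r : CTree → ℝ} {t : ℝ} (hW : W.Finite) (hn : NiceT Φ ε L W T r) (fin : V.Finite)
    (disj : Disjoint V T.leaves) (inj : InjOn (msrc Φ ε r) (outs T))
    (fresh : ∀ x ∈ outs T, msrc Φ ε r x ∉ V) (le_r : ∀ x ∈ outs T, ext Φ ε x ≤ r x)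
    (r_le : ∀ x ∈ outs T, r x ≤ t)
    (indep : ∀ p y s, s ≤ t → live Φ ε L (lwd Φ ε r V T) p s →
      M.alive Φ ε L (lwd Φ ε r V T) y s → Disjoint p.leaves y.leaves → hit Φ ε p y s →
        p.leaves ⊆ V ∨ y.leaves ⊆ V)
    (hal : ∀ x ∈ outs T, M.alive Φ ε L (V ∪ T.leaves) x (r x))
    (hlv : ∀ x ∈ outs T, r x = ext Φ ε x ∨ M.lives Φ ε L (V ∪ T.leaves) x (r x))
    {D : CTree → ℝ → Prop} (hDV : ∀ q s, D q s → q.leaves ⊆ V)
    (hD : ∀ q s, s ≤ t → Bg Φ ε q s → live Φ ε L (lwd Φ ε r V T) q s →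
      live Φ ε L W (th Φ ε r T q) s ∨ D q s) :
    NiceT Φ ε L (V ∪ T.leaves) T r ∨ ∃ x ∈ outs T, ∃ q s, s ≤ t ∧ x.root.1 ≤ s ∧ s < r x ∧
      Bg Φ ε q s ∧ s < ext Φ ε q ∧ D q s ∧ Ctc ε (st Φ ε q s) (st Φ ε (cur Φ ε x s) s) := by
  have hW' : (V ∪ T.leaves).Finite := fin.union T.leaves_finite
  have hpT := alive_pre (hn.alive T (Or.inl rfl))
  have hok : ∀ x ∈ outs T, ok Φ ε x := fun x hx => (alive_pre (hn.alive x hx)).ok
  have hdep : ∀ x ∈ outs T, x.depth ≤ L := fun x hx => (alive_pre (hn.alive x hx)).depth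
  have hfr : ∀ x ∈ outs T, ∀ X s, s < r x → hit Φ ε x X s →
      ¬M.alive Φ ε L (V ∪ T.leaves) X s := fun x hx X s hs hh =>
    no_hit hΦ hε hW' (hal x hx) hs hh
  -- the failures
  set fB : ℝ → Prop := fun s => ∃ x ∈ outs T, s < r x ∧
    badi Φ ε L (V ∪ T.leaves) x.root s with hfB
  by_cases hA : ∃ s, fB s
  swap
  · left
    exact ⟨hal, hlv, fun x hx s hs hb => hA ⟨s, x, hx, hs, hb⟩⟩
  right
  -- the first failure
  have hcl : FB.DClosed {s | fB s} := by
    have e : {s | fB s} = {s | ∃ x ∈ (outs_finite T).toFinset,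
          s ∈ {s : ℝ | s < r x} ∩ {s | badi Φ ε L (V ∪ T.leaves) x.root s}} := by
      ext s
      constructor
      · rintro ⟨x, hx, h1, h2⟩
        exact ⟨x, (outs_finite T).mem_toFinset.2 hx, h1, h2⟩
      · rintro ⟨x, hx, h1, h2⟩
        exact ⟨x, (outs_finite T).mem_toFinset.1 hx, h1, h2⟩
    rw [e]
    exact FB.DClosed.biUnion _ fun x _ => (dclosed_iio _).inter (badi_closed hΦ hε hW' _)
  have hnn : ∀ s ∈ {s | fB s}, (0 : ℝ) ≤ s := by
    rintro s ⟨x, hx, -, h1⟩
    exact h1.2.1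
  obtain ⟨s₀, hs₀⟩ := hA
  obtain ⟨u, -, hu, hmin⟩ := hcl.first hnn hs₀
  have hut : u ≤ t := by
    obtain ⟨x, hx, h1, -⟩ := hu
    exact h1.le.trans (r_le x hx)
  have hminB : ∀ s < u, ¬fB s := fun s hs h => hmin s hs h
  have hset : TSetup Φ ε L V T r u := by
    refine TSetup.of_not_bad hΦ hε fin disj inj fresh le_r hpT.ok hpT.depth
      (fun x hx X s hs _ hh => hfr x hx X s hs hh)
      (fun x hx hr => ?_) (fun x hx s hs hsu hb => hminB s hsu ⟨x, hx, hs, hb⟩)
      (fun p y s hs => indep p y s (hs.le.trans hut))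
    exact (hlv x hx).imp id fun h X hh => h.nohit X _ le_rfl hh
  -- the live trees at the time `u`
  have key : ∀ Q, live Φ ε L (V ∪ T.leaves) Q u → Bg Φ ε Q u → live Φ ε L W Q u ∨
      (D Q u ∧ Q.leaves ⊆ V) := by
    intro Q hQ hb
    rcases Tr.live_classify hΦ hε hset hQ hb with ⟨q, h1, h2, h3⟩ | ⟨h1, h2, h3⟩ |
      ⟨h1, x, hx, h2, h3, h4⟩
    · rcases hD q u hut h3 h2 with h4 | h4
      · left
        rw [h1]
        exact h4
      · right
        have h5 := hDV q u h4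
        rw [Tr.th_of_subset hset h5] at h1
        rw [h1]
        exact ⟨h4, h5⟩
    · left
      have h6 := hQ.ok
      have h7 := hQ.depth
      rw [h1] at h6 h7 ⊢
      refine ⟨?_, h6, h7, h3.le, fun X s hs hh => ?_⟩
      · rintro σ rfl
        exact hpT.sub h2
      · have h8 : Q.root.1 ≤ s := hh.1
        linarith
    · left
      refine live_of_lives_before h1 fun s hs hsu => ?_
      have h5 := h4 s hs hsu
      have h6 := hn.alive x hx
      have h7 : x.root.1 ≤ s := by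
        rw [h2]
        exact (root_birth_le_sig hΦ hε hQ.ok).trans hs
      have h8 := live_cur hΦ hε hW ((alive_iff_live hΦ hε hW).1 h6).1 (hsu.trans_le h3) h7
      rw [← h5] at h8
      exact h8
  -- a bad particle
  obtain ⟨x, hx, h1, h2⟩ := hu
  obtain ⟨-, h3, h4, h5⟩ := h2
  -- the particle is alive
  have hcx : Sub (cur Φ ε x u) x := Spine.sub (cur_spine x u)
  have hcur : M.lives Φ ε L (V ∪ T.leaves) (cur Φ ε x u) u := by
    refine ⟨(hcx.leaves_subset.trans (outs_leaves hx)).trans subset_union_right,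
      hcx.ok (hok x hx), hcx.depth_le.trans (hdep x hx), sig_cur_le h4, fun X s hs hh ha => ?_⟩
    exact hfr x hx X s (hs.trans_lt h1) (Tr.hit_of_cur (hok x hx) hs hh) ha
  have hst : stat Φ ε L (V ∪ T.leaves) x.root u = some (cur Φ ε x u) :=
    (stat_eq_some_iff hΦ hε hW').2 ⟨cur_root x u, hcur⟩
  rcases h5 with h5 | ⟨c, h5, h6⟩
  · rw [hst] at h5
    cases h5
  · have hne := h5.1
    obtain ⟨-, P, Q₀, h7, h8, h9, h10, h11⟩ := h5
    have h12 : st Φ ε P u = st Φ ε (cur Φ ε x u) u :=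
      st_of_live hΦ hε hW' h9 (h7.symm ▸ hst)
    rw [h12] at h11
    obtain ⟨Q, h13, h14, h15, h16⟩ : ∃ Q : CTree, Q.root = Q₀.root ∧
        live Φ ε L (V ∪ T.leaves) Q u ∧ Bg Φ ε Q u ∧ st Φ ε Q u = st Φ ε Q₀ u := by
      rcases live_sig hΦ hε hW' h10 with ⟨h13, -⟩ | ⟨T₀, h13, h14, h15, h16⟩
      · exact ⟨Q₀, rfl, h10, Or.inr h13, rfl⟩
      · exact ⟨T₀, h13, h14, Or.inl h15, h16⟩
    rcases key Q h14 h15 with h17 | ⟨h18, h19⟩
    · exfalso
      have hcW := live_cur hΦ hε hW ((alive_iff_live hΦ hε hW).1 (hn.alive x hx)).1 h1 h4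
      refine hn.good x hx u h1 ⟨?_, h3, h4, Or.inr ⟨c, ⟨hne, cur Φ ε x u, Q, cur_root x u,
        h13.trans h8, hcW.live, h17, ?_⟩, ?_⟩⟩
      · have := live.mem hcW.live
        rwa [cur_root] at this
      · rw [h16]
        exact h11
      · -- the same partner
        rintro ⟨Z, Z', h18, h19, y, y', e1, e2, h20⟩
        have h21 := (stat_eq_some_iff hΦ hε hW).1 h18
        have h22 : Z = cur Φ ε x u :=
          lives_unique hΦ hε hW h21.2 hcW (h21.1.trans (cur_root x u).symm)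
        refine h6 ⟨Z, Z', by rw [h22]; exact hst, ?_, y, y', e1, e2, h20⟩
        rw [stat_eq_some_iff hΦ hε hW']
        refine ⟨((stat_eq_some_iff hΦ hε hW).1 h19).1, ?_⟩
        rw [e2]
        rw [e1] at h20 h22
        rw [← h22] at hcur
        exact lives_swap hΦ hcur h20
    · refine ⟨x, hx, Q, u, hut, h4, h1, h15, ?_, h18, ?_⟩
      · by_contra hcon
        have h20 : ext Φ ε Q ≤ u := not_lt.1 hcon
        have h21 : hit Φ ε (cur Φ ε x u) Q u := by
          refine hit_of_ctc hΦ hε (sig_cur_le h4) h14.ok h20 ?_ (by rw [h16]; exact h11)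
          exact (disj.symm.mono_left (hcx.leaves_subset.trans (outs_leaves hx))).mono_right h19
        exact hcur.nohit Q u le_rfl h21 ((alive_iff_live hΦ hε hW').2 ⟨h14, h20⟩)
      · rw [h16]
        exact h11.symm

end Vale.Agent.P119.TL
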