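import Vale.Agent.P119.M.Live

/-!
# P119: TREE -> LINES, combinatorics (`helper119`)

* `Sub X T`: `X` is a subtree of `T`;
* `exs T`: the exhausts of `T`, `node b a` for each subtree `node a b`; `outs T = {T} ∪ exs T`: one
  tree for each particle of `T`, its history when it leaves the tree;
* `sbs f y`: substitution of the trees `f σ` for the leaves `σ` of `y`.
-/

open MeasureTheory Filter Topology Set
open scoped ENNReal NNReal

noncomputable section

namespace Vale.Agent.P119.TL

open KU M M.CTree

variable {Φ : E3 → ℝ} {ε : ℝ} {L : ℕ}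

/-! ### Subtrees -/

/-- `X` is a subtree of `T`. -/
inductive Sub : CTree → CTree → Prop
  | refl (T : CTree) : Sub T T
  | left {X a : CTree} (b : CTree) (h : Sub X a) : Sub X (node a b)
  | right {X b : CTree} (a : CTree) (h : Sub X b) : Sub X (node a b)

theorem Sub.trans {X Y Z : CTree} (h : Sub X Y) (h' : Sub Y Z) : Sub X Z := by
  induction h' with
  | refl => exact h
  | left b _ ih => exact Sub.left b ih
  | right a _ ih => exact Sub.right a ih

theorem Sub.leaves_subset {X T : CTree} (h : Sub X T) : X.leaves ⊆ T.leaves := by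
  induction h with
  | refl => exact subset_rfl
  | left b _ ih => exact ih.trans subset_union_left
  | right a _ ih => exact ih.trans subset_union_right

theorem Sub.card_le {X T : CTree} (h : Sub X T) : X.card ≤ T.card := by
  induction h with
  | refl => exact le_rfl
  | left b _ ih => exact ih.trans (Nat.le_add_right _ _)
  | right a _ ih => exact ih.trans (Nat.le_add_left _ _)

theorem Sub.depth_le {X T : CTree} (h : Sub X T) : X.depth ≤ T.depth := by
  induction h with
  | refl => exact le_rfl
  | left b _ ih => exact ih.trans ((le_max_left _ _).trans (Nat.le_succ _))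
  | right a _ ih => exact ih.trans ((le_max_right _ _).trans (Nat.le_succ _))

theorem Sub.ok {X T : CTree} (h : Sub X T) (hT : ok Φ ε T) : ok Φ ε X := by
  induction h with
  | refl => exact hT
  | left b _ ih => exact ih hT.1
  | right a _ ih => exact ih hT.2.1

theorem not_sub_left (a b : CTree) : ¬Sub (node a b) a := fun h => by
  have h1 := h.card_le
  have h2 := b.card_pos
  simp only [CTree.card] at h1
  omega

theorem not_sub_right (a b : CTree) : ¬Sub (node a b) b := fun h => by
  have h1 := h.card_le
  have h2 := a.card_pos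
  simp only [CTree.card] at h1
  omega

/-- The last but one collision ends before the last one begins, for all subtrees. -/
theorem Sub.ext_le (hΦ : IsPotential Φ) (hε : 0 < ε) {X T : CTree} (h : Sub X T)
    (hT : M.CTree.ok Φ ε T) : ext Φ ε X ≤ ext Φ ε T := by
  induction h with
  | refl => exact le_rfl
  | @left a b _ ih =>
    exact (ih hT.1).trans (hT.2.2.2.2.2.1.le.trans (sig_lt_ext hΦ hε hT).le)
  | @right b a _ ih =>
    exact (ih hT.2.1).trans (hT.2.2.2.2.2.2.le.trans (sig_lt_ext hΦ hε hT).le)

theorem Sub.ext_lt_sig (hΦ : IsPotential Φ) (hε : 0 < ε) {X a b : CTree}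
    (h : Sub X a ∨ Sub X b) (hT : M.CTree.ok Φ ε (node a b)) : ext Φ ε X < sig Φ ε (node a b) := by
  rcases h with h | h
  · exact (h.ext_le hΦ hε hT.1).trans_lt hT.2.2.2.2.2.1
  · exact (h.ext_le hΦ hε hT.2.1).trans_lt hT.2.2.2.2.2.2

/-- `Par P X`: the tree `P` is the collision of `X` with something. -/
def Par (P X : CTree) : Prop := (∃ b, P = node X b) ∨ ∃ a, P = node a X

/-- Proper subtrees have a parent. -/
theorem Sub.exists_par {X T : CTree} (h : Sub X T) (hne : X ≠ T) : ∃ P, Par P X ∧ Sub P T := by
  induction h with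
  | refl => exact absurd rfl hne
  | @left a b h ih =>
    by_cases hX : X = a
    · subst hX
      exact ⟨node X b, Or.inl ⟨b, rfl⟩, Sub.refl _⟩
    · obtain ⟨P, h1, h2⟩ := ih hX
      exact ⟨P, h1, Sub.left b h2⟩
  | @right b a h ih =>
    by_cases hX : X = b
    · subst hX
      exact ⟨node a X, Or.inr ⟨a, rfl⟩, Sub.refl _⟩
    · obtain ⟨P, h1, h2⟩ := ih hX
      exact ⟨P, h1, Sub.right a h2⟩

/-! ### The exhausts -/

/-- The exhausts of `T`: the histories, at their exits, of the particles which leave the tree. -/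
def exs : CTree → Set CTree
  | leaf _ => ∅
  | node a b => exs a ∪ exs b ∪ {node b a}

/-- The final histories of all the particles of `T`. -/
def outs (T : CTree) : Set CTree := insert T (exs T)

theorem mem_exs_node {a b x : CTree} :
    x ∈ exs (node a b) ↔ x ∈ exs a ∨ x ∈ exs b ∨ x = node b a := by
  change x ∈ exs a ∪ exs b ∪ {node b a} ↔ _
  rw [mem_union, mem_union, mem_singleton_iff, or_assoc]

theorem exs_iff {T x : CTree} : x ∈ exs T ↔ ∃ a b, Sub (node a b) T ∧ x = node b a := by
  induction T with
  | leaf σ =>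
    refine ⟨fun h => absurd h (notMem_empty _), ?_⟩
    rintro ⟨a, b, h, -⟩
    cases h
  | node c d ihc ihd =>
    rw [mem_exs_node, ihc, ihd]
    constructor
    · rintro (⟨a, b, h, rfl⟩ | ⟨a, b, h, rfl⟩ | rfl)
      · exact ⟨a, b, Sub.left d h, rfl⟩
      · exact ⟨a, b, Sub.right c h, rfl⟩
      · exact ⟨c, d, Sub.refl _, rfl⟩
    · rintro ⟨a, b, h, rfl⟩
      cases h with
      | refl => exact Or.inr (Or.inr rfl)
      | left _ h => exact Or.inl ⟨a, b, h, rfl⟩
      | right _ h => exact Or.inr (Or.inl ⟨a, b, h, rfl⟩)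

theorem exs_leaves {T x : CTree} (h : x ∈ exs T) : x.leaves ⊆ T.leaves := by
  obtain ⟨a, b, h', rfl⟩ := exs_iff.1 h
  have := h'.leaves_subset
  change b.leaves ∪ a.leaves ⊆ _
  rw [union_comm]
  exact this

theorem outs_leaves {T x : CTree} (h : x ∈ outs T) : x.leaves ⊆ T.leaves := by
  rcases h with rfl | h
  · exact subset_rfl
  · exact exs_leaves h

theorem outs_ok (hΦ : IsPotential Φ) {T x : CTree} (hT : M.CTree.ok Φ ε T) (h : x ∈ outs T) :
    M.CTree.ok Φ ε x := by
  rcases h with rfl | h
  · exact hT
  · obtain ⟨a, b, h', rfl⟩ := exs_iff.1 h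
    exact ok_swap hΦ (h'.ok hT)

theorem outs_depth {T x : CTree} (h : x ∈ outs T) : x.depth ≤ T.depth := by
  rcases h with rfl | h
  · exact le_rfl
  · obtain ⟨a, b, h', rfl⟩ := exs_iff.1 h
    have := h'.depth_le
    simp only [CTree.depth] at this ⊢
    omega

theorem exs_finite (T : CTree) : (exs T).Finite := by
  induction T with
  | leaf σ => exact finite_empty
  | node a b iha ihb => exact (iha.union ihb).union (finite_singleton _)

theorem outs_finite (T : CTree) : (outs T).Finite := (exs_finite T).insert T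

theorem exs_root_ne {T x : CTree} (hT : M.CTree.ok Φ ε T) (h : x ∈ exs T) :
    x.root ≠ T.root := by
  induction T with
  | leaf σ => exact absurd h (notMem_empty _)
  | node a b iha _ =>
    rcases mem_exs_node.1 h with h | h | rfl
    · exact iha hT.1 h
    · intro hcon
      exact disjoint_left.1 hT.2.2.1 a.root_mem_leaves
        (hcon ▸ exs_leaves h x.root_mem_leaves)
    · intro hcon
      exact disjoint_left.1 hT.2.2.1 (a.root_mem_leaves) (hcon ▸ b.root_mem_leaves)

theorem exs_root_inj {T x y : CTree} (hT : M.CTree.ok Φ ε T) (hx : x ∈ exs T)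
    (hy : y ∈ exs T) (h : x.root = y.root) : x = y := by
  induction T with
  | leaf σ => exact absurd hx (notMem_empty _)
  | node a b iha ihb =>
    have hab := disjoint_left.1 hT.2.2.1
    have ha : ∀ z ∈ exs a, z.root ∈ a.leaves := fun z hz => exs_leaves hz z.root_mem_leaves
    have hb : ∀ z ∈ exs b, z.root ∈ b.leaves := fun z hz => exs_leaves hz z.root_mem_leaves
    rcases mem_exs_node.1 hx with hx | hx | rfl <;> rcases mem_exs_node.1 hy with hy | hy | rfl
    · exact iha hT.1 hx hy
    · exact absurd (h ▸ hb y hy) (hab (ha x hx))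
    · exact absurd (h ▸ b.root_mem_leaves) (hab (ha x hx))
    · exact absurd (h ▸ hb x hx) (hab (ha y hy))
    · exact ihb hT.2.1 hx hy
    · exact absurd (show x.root = b.root from h) (exs_root_ne hT.2.1 hx)
    · exact absurd (h ▸ b.root_mem_leaves) (hab (ha y hy))
    · exact absurd (show y.root = b.root from h.symm) (exs_root_ne hT.2.1 hy)
    · rfl

theorem outs_root_inj {T x y : CTree} (hT : M.CTree.ok Φ ε T)
    (hx : x ∈ outs T) (hy : y ∈ outs T) (h : x.root = y.root) : x = y := by
  rcases hx with rfl | hx <;> rcases hy with rfl | hy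
  · rfl
  · exact absurd h.symm (exs_root_ne hT hy)
  · exact absurd h (exs_root_ne hT hx)
  · exact exs_root_inj hT hx hy h

/-- Every particle of `T` has its final history. -/
theorem exists_out {T : CTree} {σ : Src} (h : σ ∈ T.leaves) : ∃ x ∈ outs T, x.root = σ := by
  induction T with
  | leaf τ => exact ⟨leaf τ, Or.inl rfl, (mem_singleton_iff.1 h).symm⟩
  | node a b iha ihb =>
    rcases h with h | h
    · obtain ⟨x, hx | hx, h1⟩ := iha h
      · exact ⟨node a b, Or.inl rfl, by rw [← h1, hx]; rfl⟩
      · exact ⟨x, Or.inr (mem_exs_node.2 (Or.inl hx)), h1⟩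
    · obtain ⟨x, hx | hx, h1⟩ := ihb h
      · exact ⟨node b a, Or.inr (mem_exs_node.2 (Or.inr (Or.inr rfl))), by rw [← h1, hx]; rfl⟩
      · exact ⟨x, Or.inr (mem_exs_node.2 (Or.inr (Or.inl hx))), h1⟩

/-! ### Substitution -/

/-- Substitution of trees for the leaves. -/
def sbs (f : Src → CTree) : CTree → CTree
  | leaf σ => f σ
  | node a b => node (sbs f a) (sbs f b)

variable {f : Src → CTree}

theorem sbs_leaves (y : CTree) : (sbs f y).leaves = ⋃ σ ∈ y.leaves, (f σ).leaves := by
  induction y with
  | leaf σ =>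
    change (f σ).leaves = _
    have : (leaf σ).leaves = {σ} := rfl
    rw [this, biUnion_singleton]
  | node a b iha ihb =>
    change (sbs f a).leaves ∪ (sbs f b).leaves = _
    have : (node a b).leaves = a.leaves ∪ b.leaves := rfl
    rw [this, iha, ihb, biUnion_union]

theorem sbs_root (y : CTree) : (sbs f y).root = (f y.root).root := by
  induction y with
  | leaf σ => rfl
  | node a b iha _ => exact iha

theorem sbs_depth {y : CTree} (h : ∀ σ ∈ y.leaves, (f σ).depth = σ.2.2) :
    (sbs f y).depth = y.depth := by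
  induction y with
  | leaf σ => exact h σ (mem_singleton σ)
  | node a b iha ihb =>
    change max (sbs f a).depth (sbs f b).depth + 1 = max a.depth b.depth + 1
    rw [iha fun σ hσ => h σ (Or.inl hσ), ihb fun σ hσ => h σ (Or.inr hσ)]

theorem sbs_ln {y : CTree} (h : ∀ σ ∈ y.leaves, ln Φ ε (f σ) = σ.2.1) :
    ln Φ ε (sbs f y) = ln Φ ε y := by
  induction y with
  | leaf σ => exact h σ (mem_singleton σ)
  | node a b iha ihb =>
    change (sc2 Φ ε (ln Φ ε (sbs f a), ln Φ ε (sbs f b))).1 = (sc2 Φ ε (ln Φ ε a, ln Φ ε b)).1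
    rw [iha fun σ hσ => h σ (Or.inl hσ), ihb fun σ hσ => h σ (Or.inr hσ)]

theorem sbs_congr {g : Src → CTree} {y : CTree} (h : ∀ σ ∈ y.leaves, f σ = g σ) :
    sbs f y = sbs g y := by
  induction y with
  | leaf σ => exact h σ (mem_singleton σ)
  | node a b iha ihb =>
    change node _ _ = node _ _
    rw [iha fun σ hσ => h σ (Or.inl hσ), ihb fun σ hσ => h σ (Or.inr hσ)]

theorem sbs_leaf (y : CTree) : sbs leaf y = y := by
  induction y with
  | leaf σ => rfl
  | node a b iha ihb =>
    change node _ _ = node _ _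
    rw [iha, ihb]

end Vale.Agent.P119.TL
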