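import Vale.Agent.P119.TL.Trunc3

/-!
# P119: sources which are born late do not matter (`helper384`)

`W ⊆ W'` and the sources of `W'` which are not in `W` are born at or after `h`: the trees which are
alive or live before `h` are the same in the two worlds.
-/

open MeasureTheory Filter Topology Set
open scoped ENNReal NNReal

noncomputable section

namespace Vale.Agent.P119.TL

open KU M M.CTree RB

variable {Φ : E3 → ℝ} {ε : ℝ} {L : ℕ} {W W' : Set Src} {T : CTree} {h s : ℝ}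

/-- The leaves are born before the last collision. -/
theorem leaf_birth_le (hΦ : IsPotential Φ) (hε : 0 < ε) :
    ∀ {T : CTree}, ok Φ ε T → ∀ σ ∈ T.leaves, σ.1 ≤ sig Φ ε T
  | leaf _, _, σ, hσ => by
    rw [show σ = _ from hσ]
    exact le_rfl
  | node a b, hT, σ, hσ => by
    rcases hσ with hσ | hσ
    · exact ((leaf_birth_le hΦ hε hT.1 σ hσ).trans (sig_le_ext hΦ hε hT.1)).trans
        hT.2.2.2.2.2.1.le
    · exact ((leaf_birth_le hΦ hε hT.2.1 σ hσ).trans (sig_le_ext hΦ hε hT.2.1)).trans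
        hT.2.2.2.2.2.2.le

/-- The sources of `W'` which are not in `W` are born at or after `h`. -/
structure LateW (W W' : Set Src) (h : ℝ) : Prop where
  sub : W ⊆ W'
  late : ∀ a ∈ W', a ∉ W → h ≤ a.1

theorem LateW.leaves (hl : LateW W W' h) (hΦ : IsPotential Φ) (hε : 0 < ε) (hT : ok Φ ε T)
    (hs : sig Φ ε T < h) (hTW : T.leaves ⊆ W') : T.leaves ⊆ W := by
  intro σ hσ
  by_contra hcon
  exact absurd (hl.late σ (hTW hσ) hcon) (not_le.2 ((leaf_birth_le hΦ hε hT σ hσ).trans_lt hs))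

theorem LateW.aliveN (hl : LateW W W' h) (hΦ : IsPotential Φ) (hε : 0 < ε) (n : ℕ) :
    ∀ T s, s < h → (aliveN Φ ε L n W' T s ↔ aliveN Φ ε L n W T s) := by
  have hpre : ∀ T s, s < h → (pre Φ ε L W' T s ↔ pre Φ ε L W T s) := by
    intro T s hs
    refine ⟨fun hp => ⟨hl.leaves hΦ hε hp.ok
      ((sig_le_ext hΦ hε hp.ok).trans_lt (hp.ext_le.trans_lt hs)) hp.sub, hp.ok, hp.depth,
      hp.ext_le⟩, fun hp => ⟨hp.sub.trans hl.sub, hp.ok, hp.depth, hp.ext_le⟩⟩
  induction n with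
  | zero => exact hpre
  | succ n ih =>
    intro T s hs
    refine and_congr (hpre T s hs) (forall_congr' fun T' => forall_congr' fun u =>
      imp_congr_right fun hu => imp_congr_right fun _ => not_congr (ih T' u (hu.trans hs)))

/-- **Late sources do not matter.** -/
theorem LateW.alive (hl : LateW W W' h) (hΦ : IsPotential Φ) (hε : 0 < ε) (hs : s < h) :
    M.alive Φ ε L W' T s ↔ M.alive Φ ε L W T s :=
  exists_congr fun _ => forall_congr' fun m => imp_congr_right fun _ => hl.aliveN hΦ hε m T s hs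

theorem LateW.live (hl : LateW W W' h) (hΦ : IsPotential Φ) (hε : 0 < ε) (hs : s < h) :
    M.live Φ ε L W' T s ↔ M.live Φ ε L W T s := by
  constructor
  · rintro ⟨h1, h2, h3, h4, h5⟩
    exact ⟨hl.leaves hΦ hε h2 (h4.trans_lt hs) h1, h2, h3, h4, fun X u hu hh hX =>
      h5 X u hu hh ((hl.alive hΦ hε (hu.trans hs)).2 hX)⟩
  · rintro ⟨h1, h2, h3, h4, h5⟩
    exact ⟨h1.trans hl.sub, h2, h3, h4, fun X u hu hh hX =>
      h5 X u hu hh ((hl.alive hΦ hε (hu.trans hs)).1 hX)⟩

/-- The trees of `W`, up to the time `h`. -/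
theorem LateW.live_le (hl : LateW W W' h) (hΦ : IsPotential Φ) (hε : 0 < ε) (hs : s ≤ h)
    (hT : T.leaves ⊆ W) : M.live Φ ε L W' T s ↔ M.live Φ ε L W T s := by
  constructor
  · rintro ⟨h1, h2, h3, h4, h5⟩
    exact ⟨hT, h2, h3, h4, fun X u hu hh hX =>
      h5 X u hu hh ((hl.alive hΦ hε (hu.trans_le hs)).2 hX)⟩
  · rintro ⟨h1, h2, h3, h4, h5⟩
    exact ⟨h1.trans hl.sub, h2, h3, h4, fun X u hu hh hX =>
      h5 X u hu hh ((hl.alive hΦ hε (hu.trans_le hs)).1 hX)⟩

end Vale.Agent.P119.TL
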