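import Vale.Agent.P119.TL.Rebirth
import Vale.Agent.P119.FB.Step

/-!
# P119: TREE -> LINES, touches survive the replacement of trees by lines (`helper119`)

`Rep W V f t`: the source `a` of the world `V` stands for the history `f a` of the world `W`.

* `Rep.refl`, `Rep.trans`, `Rep.of_setup`;
* `Rep.not_mem_D`, `Rep.touch`: if `f₁ = f₂` on `V₁ ∩ V₂` then a touch of `W₁`, `W₂` is a touch of
  `V₁`, `V₂`.
-/

open MeasureTheory Filter Topology Set
open scoped ENNReal NNReal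

noncomputable section

namespace Vale.Agent.P119.TL

open KU M M.CTree RB

variable {Φ : E3 → ℝ} {ε : ℝ} {L : ℕ}

theorem sbs_sbs (f f' : Src → CTree) (X : CTree) :
    sbs f (sbs f' X) = sbs (fun a => sbs f (f' a)) X := by
  induction X with
  | leaf σ => rfl
  | node a b iha ihb =>
    change node _ _ = node _ _
    rw [iha, ihb]

theorem ext_sbs {f : Src → CTree} {a b : CTree}
    (h : ∀ σ ∈ (node a b).leaves, ln Φ ε (f σ) = σ.2.1) :
    ext Φ ε (sbs f (node a b)) = ext Φ ε (node a b) := by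
  change sepT Φ ε (ln Φ ε (sbs f a), ln Φ ε (sbs f b)) = sepT Φ ε (ln Φ ε a, ln Φ ε b)
  rw [sbs_ln fun σ hσ => h σ (Or.inl hσ), sbs_ln fun σ hσ => h σ (Or.inr hσ)]

theorem sig_sbs {f : Src → CTree} {a b : CTree}
    (h : ∀ σ ∈ (node a b).leaves, ln Φ ε (f σ) = σ.2.1) :
    sig Φ ε (sbs f (node a b)) = sig Φ ε (node a b) := by
  change hitT ε (ln Φ ε (sbs f a), ln Φ ε (sbs f b)) = hitT ε (ln Φ ε a, ln Φ ε b)
  rw [sbs_ln fun σ hσ => h σ (Or.inl hσ), sbs_ln fun σ hσ => h σ (Or.inr hσ)]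

/-- The earlier histories, after the birth of the root. -/
theorem cur_sbs (hΦ : IsPotential Φ) (hε : 0 < ε) {f : Src → CTree} {X : CTree} {s : ℝ}
    (h : ∀ σ ∈ X.leaves, ln Φ ε (f σ) = σ.2.1) (hok : ∀ σ ∈ X.leaves, ok Φ ε (f σ))
    (he : ∀ σ ∈ X.leaves, ext Φ ε (f σ) ≤ σ.1) (hs : X.root.1 ≤ s) :
    cur Φ ε (sbs f X) s = sbs f (cur Φ ε X s) := by
  induction X with
  | leaf σ =>
    have h1 : σ ∈ (leaf σ).leaves := mem_singleton σ
    change cur Φ ε (f σ) s = f σ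
    exact cur_of_sig_le (((sig_le_ext hΦ hε (hok σ h1)).trans (he σ h1)).trans hs)
  | node a b iha _ =>
    have h1 := sig_sbs h
    rcases le_or_gt (sig Φ ε (node a b)) s with h2 | h2
    · rw [cur_of_sig_le h2, cur_of_sig_le (h1.le.trans h2)]
    · rw [cur_of_lt_sig h2]
      change cur Φ ε (node (sbs f a) (sbs f b)) s = _
      rw [cur_of_lt_sig (by rw [← h1] at h2; exact h2)]
      exact iha (fun σ hσ => h σ (Or.inl hσ)) (fun σ hσ => hok σ (Or.inl hσ))
        (fun σ hσ => he σ (Or.inl hσ)) hs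

/-- The earlier histories, before the birth of the root. -/
theorem cur_sbs_of_lt (hΦ : IsPotential Φ) (hε : 0 < ε) {f : Src → CTree} {X : CTree} {s : ℝ}
    (h : ∀ σ ∈ X.leaves, ln Φ ε (f σ) = σ.2.1) (hX : ok Φ ε X) (hs : s < X.root.1) :
    cur Φ ε (sbs f X) s = cur Φ ε (f X.root) s := by
  induction X with
  | leaf σ => rfl
  | node a b iha _ =>
    have h1 := sig_sbs h
    have h2 : s < sig Φ ε (node a b) := hs.trans_le (root_birth_le_sig hΦ hε hX)
    change cur Φ ε (node (sbs f a) (sbs f b)) s = _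
    rw [cur_of_lt_sig (by rw [← h1] at h2; exact h2)]
    exact iha (fun σ hσ => h σ (Or.inl hσ)) hX.1 hs

/-- The source `a` of the world `V` stands for the history `f a` of the world `W`. -/
structure Rep (Φ : E3 → ℝ) (ε : ℝ) (L : ℕ) (hΦ : IsPotential Φ) (hε : 0 < ε)
    (W V : Finset Src) (f : Src → CTree) (t : ℝ) : Prop where
  /-- the correspondence of the two worlds -/
  lines : Lines Φ ε L hΦ hε W V (fun a => (f a).root) (sbs f) t
  /-- the histories are histories in `W` -/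
  sub : ∀ a ∈ V, (f a).leaves ⊆ W
  /-- they are possible -/
  ok : ∀ a ∈ V, ok Φ ε (f a)
  /-- lines -/
  ln : ∀ a ∈ V, ln Φ ε (f a) = a.2.1
  /-- the sources are born after the exits -/
  ext_le : ∀ a ∈ V, ext Φ ε (f a) ≤ a.1
  /-- new sources are born before `t` -/
  birth_le : ∀ a ∈ V, f a = leaf a ∨ a.1 ≤ t
  /-- before the birth the particle follows the history -/
  leg : ∀ a ∈ V, ∀ s ≤ t, s < a.1 → (f a).root.1 ≤ s →
    stat Φ ε L (W : Set Src) (f a).root s = some (cur Φ ε (f a) s)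

variable {hΦ : IsPotential Φ} {hε : 0 < ε} {W V V' W₁ W₂ V₁ V₂ : Finset Src}
  {f f' f₁ f₂ : Src → CTree} {t s : ℝ}

theorem Rep.refl (hW : ∀ a ∈ W, 0 ≤ a.1) : Rep Φ ε L hΦ hε W W leaf t := by
  have e : sbs leaf = id := funext sbs_leaf
  refine ⟨⟨?_, fun a _ => le_rfl, fun a _ s _ he => exp_birth_le he, fun a _ s _ => rfl,
    fun a _ s _ _ => ?_, fun a _ b _ s _ _ _ => Iff.rfl, fun a _ b _ s _ _ _ => Iff.rfl,
    fun a _ b _ s _ _ _ => Iff.rfl, fun a _ s _ => Iff.rfl, fun a _ s _ => Iff.rfl⟩,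
    fun a ha => ?_, fun a ha => hW a ha, fun a _ => rfl, fun a _ => le_rfl, fun a _ => Or.inl rfl,
    fun a _ s _ hs h => absurd h (not_le.2 hs)⟩
  · exact bijOn_id _
  · rw [e, Option.map_id]
    rfl
  · rintro σ hσ
    have : σ = a := hσ
    rw [this]
    exact Finset.mem_coe.2 ha

theorem Rep.trans (h : Rep Φ ε L hΦ hε W V f t) (h' : Rep Φ ε L hΦ hε V V' f' t) :
    Rep Φ ε L hΦ hε W V' (fun a => sbs f (f' a)) t := by
  have hmem : ∀ a ∈ V', (f' a).root ∈ V := fun a ha =>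
    Finset.mem_coe.1 (h'.sub a ha (f' a).root_mem_leaves)
  have hln : ∀ a ∈ V', ∀ σ ∈ (f' a).leaves, CTree.ln Φ ε (f σ) = σ.2.1 := fun a ha σ hσ =>
    h.ln σ (Finset.mem_coe.1 (h'.sub a ha hσ))
  have e1 : (fun a => (sbs f (f' a)).root) = (fun a => (f a).root) ∘ fun a => (f' a).root := by
    funext a
    exact sbs_root (f' a)
  have e2 : sbs (fun a => sbs f (f' a)) = sbs f ∘ sbs f' := by
    funext X
    exact (sbs_sbs f f' X).symm
  have hok : ∀ a ∈ V', M.CTree.ok Φ ε (sbs f (f' a)) := by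
    intro a ha
    rcases hX : f' a with σ | ⟨x, y⟩
    · refine h.ok σ (Finset.mem_coe.1 (h'.sub a ha ?_))
      rw [hX]
      exact mem_singleton σ
    · have h1 : a.1 ≤ t := by
        rcases h'.birth_le a ha with h1 | h1
        · rw [hX] at h1
          cases h1
        · exact h1
      have h2 := h'.ok a ha
      have h3 := h'.ext_le a ha
      have h4 := h'.leg a ha (sig Φ ε (f' a))
      rw [hX] at h2 h3 h4
      have h5 := sig_lt_ext hΦ hε h2
      have h6 := root_birth_le_sig hΦ hε h2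
      have h7 := h4 ((h5.le.trans h3).trans h1) (h5.trans_le h3) h6
      rw [cur_of_sig_le le_rfl] at h7
      have hr : (node x y).root ∈ V := hX ▸ hmem a ha
      have h8 := h.lines.stat _ hr _ ((h5.le.trans h3).trans h1) h6
      rw [h7, Option.map_some] at h8
      exact ((stat_eq_some_iff hΦ hε W.finite_toSet).1 h8).2.ok
  refine ⟨?_, fun a ha => ?_, hok, fun a ha => ?_, fun a ha => ?_, fun a ha => ?_,
    fun a ha s hst hs hb => ?_⟩
  · rw [e1, e2]
    exact h.lines.trans h'.lines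
  · rw [sbs_leaves]
    exact iUnion₂_subset fun σ hσ => h.sub σ (Finset.mem_coe.1 (h'.sub a ha hσ))
  · rw [sbs_ln (hln a ha)]
    exact h'.ln a ha
  · have h2 := h'.ext_le a ha
    have h3 := hln a ha
    have h4 := h'.sub a ha
    rcases hX : f' a with σ | ⟨x, y⟩
    · rw [hX] at h2 h4
      exact (h.ext_le σ (Finset.mem_coe.1 (h4 (mem_singleton σ)))).trans h2
    · rw [hX] at h2 h3
      rw [ext_sbs h3]
      exact h2
  · rcases h'.birth_le a ha with h1 | h1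
    · rw [h1]
      have h2 : a ∈ V := by
        have := hmem a ha
        rw [h1] at this
        exact this
      rcases h.birth_le a h2 with h3 | h3
      · exact Or.inl h3
      · exact Or.inr h3
    · exact Or.inr h1
  · have hb' := hmem a ha
    have hr : (sbs f (f' a)).root = (f (f' a).root).root := sbs_root _
    rw [hr] at hb ⊢
    rcases le_or_gt (f' a).root.1 s with h1 | h1
    · rw [h.lines.stat _ hb' s hst h1, h'.leg a ha s hst hs h1, Option.map_some,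
        cur_sbs hΦ hε (hln a ha) (fun σ hσ => h.ok σ (Finset.mem_coe.1 (h'.sub a ha hσ)))
          (fun σ hσ => h.ext_le σ (Finset.mem_coe.1 (h'.sub a ha hσ))) h1]
    · rw [h.leg _ hb' s hst h1 hb, cur_sbs_of_lt hΦ hε (hln a ha) (h'.ok a ha) h1]

/-- A single tree. -/
theorem Rep.of_setup {U : Set Src} {T : CTree} {r : CTree → ℝ} (h : Setup Φ ε L U T r t)
    (hW : (W : Set Src) = U ∪ T.leaves) (hV : (V : Set Src) = lwd Φ ε r U T)
    (h0 : ∀ a ∈ W, 0 ≤ a.1) (hrt : ∀ x ∈ outs T, r x ≤ t)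
    (hR : ∀ x ∈ outs T, ∀ s < r x, ¬(Y Φ ε L hΦ hε).Exp W x.root s) :
    Rep Φ ε L hΦ hε W V (fs Φ ε r T) t := by
  have hmem : ∀ a ∈ V, a ∈ lwd Φ ε r U T := fun a ha => by
    rw [← hV]; exact Finset.mem_coe.2 ha
  refine ⟨TL.lines h hW hV h0 hrt hR, fun a ha => ?_, fun a ha => ?_,
    fun a ha => fs_ln h (hmem a ha), fun a ha => fs_ext h (hmem a ha), fun a ha => ?_,
    fun a ha s hst hs hb => ?_⟩
  · rw [hW]
    refine (fs_leaves h (hmem a ha)).trans ?_
    rintro σ (⟨-, hσ⟩ | hσ)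
    · exact Or.inl hσ
    · exact Or.inr hσ
  · rcases hmem a ha with ha' | ⟨x, hx, rfl⟩
    · rw [fs_of_mem h ha']
      refine h0 a ?_
      rw [← Finset.mem_coe, hW]
      exact Or.inl ha'
    · rw [fs_msrc h hx]
      exact ok_out h hx
  · rcases hmem a ha with ha' | ⟨x, hx, rfl⟩
    · exact Or.inl (fs_of_mem h ha')
    · exact Or.inr (hrt x hx)
  · rcases hmem a ha with ha' | ⟨x, hx, rfl⟩
    · rw [fs_of_mem h ha'] at hb
      exact absurd hb (not_le.2 hs)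
    · rw [fs_msrc h hx] at hb ⊢
      rw [hW]
      exact stat_leg hΦ hε h hx hs hb

/-! ### Differences and touches -/

theorem Rep.sta_eq (h₁ : Rep Φ ε L hΦ hε W₁ V₁ f₁ t) (h₂ : Rep Φ ε L hΦ hε W₂ V₂ f₂ t)
    (hf : ∀ a ∈ V₁, a ∈ V₂ → f₁ a = f₂ a) {a : Src} (ha₁ : a ∈ V₁) (ha₂ : a ∈ V₂) (hs : s ≤ t)
    (h : sta Φ ε L (V₁ : Set Src) a s = sta Φ ε L (V₂ : Set Src) a s) :
    sta Φ ε L (W₁ : Set Src) (f₁ a).root s = sta Φ ε L (W₂ : Set Src) (f₂ a).root s := by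
  have hst : stat Φ ε L (V₁ : Set Src) a s = stat Φ ε L (V₂ : Set Src) a s :=
    congrArg (fun p => p.2.1) h
  have hbc : badc Φ ε L (V₁ : Set Src) a s = badc Φ ε L (V₂ : Set Src) a s :=
    congrArg (fun p => p.2.2) h
  have m₁ : ((f₁ a).root ∈ (W₁ : Set Src)) = True :=
    eq_true (h₁.lines.bij.mapsTo (Finset.mem_coe.2 ha₁))
  have m₂ : ((f₂ a).root ∈ (W₂ : Set Src)) = True :=
    eq_true (h₂.lines.bij.mapsTo (Finset.mem_coe.2 ha₂))
  have b₁ : badc Φ ε L (W₁ : Set Src) (f₁ a).root s = badc Φ ε L (V₁ : Set Src) a s :=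
    propext (h₁.lines.badc a ha₁ s hs).symm
  have b₂ : badc Φ ε L (W₂ : Set Src) (f₂ a).root s = badc Φ ε L (V₂ : Set Src) a s :=
    propext (h₂.lines.badc a ha₂ s hs).symm
  have key : stat Φ ε L (W₁ : Set Src) (f₁ a).root s = stat Φ ε L (W₂ : Set Src) (f₂ a).root s := by
    rcases le_or_gt a.1 s with h3 | h3
    · rw [h₁.lines.stat a ha₁ s hs h3, h₂.lines.stat a ha₂ s hs h3, hst]
      rcases h4 : stat Φ ε L (V₂ : Set Src) a s with _ | Z
      · rfl
      · rw [h4] at hst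
        have h5 := ((stat_eq_some_iff hΦ hε V₁.finite_toSet).1 hst).2.sub
        have h6 := ((stat_eq_some_iff hΦ hε V₂.finite_toSet).1 h4).2.sub
        rw [Option.map_some, Option.map_some, sbs_congr fun σ hσ =>
          hf σ (Finset.mem_coe.1 (h5 hσ)) (Finset.mem_coe.1 (h6 hσ))]
    · rw [← hf a ha₁ ha₂]
      rcases le_or_gt (f₁ a).root.1 s with h4 | h4
      · rw [h₁.leg a ha₁ s hs h3 h4]
        have h5 := h₂.leg a ha₂ s hs h3
        rw [← hf a ha₁ ha₂] at h5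
        rw [h5 h4]
      · rw [stat_unborn hΦ hε h4, stat_unborn hΦ hε h4]
  simp only [sta]
  rw [m₁, m₂, b₁, b₂, hbc, key]

/-- Labels with the same histories stand for labels with the same histories. -/
theorem Rep.not_mem_D (h₁ : Rep Φ ε L hΦ hε W₁ V₁ f₁ t) (h₂ : Rep Φ ε L hΦ hε W₂ V₂ f₂ t)
    (hf : ∀ a ∈ V₁, a ∈ V₂ → f₁ a = f₂ a) {a : Src} (ha₁ : a ∈ V₁) (ha₂ : a ∈ V₂) (hs : s ≤ t)
    (h : a ∉ (Y Φ ε L hΦ hε).D V₁ V₂ s) : (f₁ a).root ∉ (Y Φ ε L hΦ hε).D W₁ W₂ s := by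
  rw [FB.Sys.not_mem_D] at h ⊢
  intro u hu
  have := h₁.sta_eq h₂ hf ha₁ ha₂ (hu.trans hs) (h u hu)
  rw [← hf a ha₁ ha₂] at this
  exact this

theorem mem_D_of_not_mem {a : Src} (h : ¬(a ∈ V₁ ↔ a ∈ V₂)) :
    a ∈ (Y Φ ε L hΦ hε).D V₁ V₂ s := by
  by_contra hcon
  rw [FB.Sys.not_mem_D] at hcon
  have h1 : (a ∈ (V₁ : Set Src)) = (a ∈ (V₂ : Set Src)) :=
    congrArg (fun p : Prop × Option CTree × Prop => p.1) (hcon s le_rfl)
  exact h (Iff.of_eq h1)

/-- **Touches survive the replacement of trees by lines.** -/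
theorem Rep.touch (h₁ : Rep Φ ε L hΦ hε W₁ V₁ f₁ t) (h₂ : Rep Φ ε L hΦ hε W₂ V₂ f₂ t)
    (hf : ∀ a ∈ V₁, a ∈ V₂ → f₁ a = f₂ a) (hs : s ≤ t)
    (h : (Y Φ ε L hΦ hε).Touch W₁ W₂ s) : (Y Φ ε L hΦ hε).Touch V₁ V₂ s := by
  have key : ∀ {W V : Finset Src} {f : Src → CTree}, Rep Φ ε L hΦ hε W V f t → ∀ a,
      (Y Φ ε L hΦ hε).Exp W a s → ∃ a' ∈ V, (f a').root = a ∧ (Y Φ ε L hΦ hε).Exp V a' s := by
    intro W V f h a ha
    obtain ⟨a', h1, h2⟩ := h.lines.bij.surjOn (Finset.mem_coe.2 ha.mem)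
    have h1 : a' ∈ V := Finset.mem_coe.1 h1
    have h2 : (f a').root = a := h2
    refine ⟨a', h1, h2, (h.lines.exp a' h1 s hs).2 ?_⟩
    rw [h2]
    exact ha
  refine FB.Sys.touch_of_repl (fun a => (f₁ a).root) (fun a => (f₂ a).root) (key h₁) (key h₂)
    (fun a h3 h4 => mem_D_of_not_mem fun h => h4 (h.1 h3))
    (fun a h3 h4 => mem_D_of_not_mem fun h => h4 (h.2 h3)) (fun a h3 h4 h5 => ⟨?_, ?_⟩) h
  · rw [hf a h3 h4]
  · exact h₁.not_mem_D h₂ hf h3 h4 hs h5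

end Vale.Agent.P119.TL
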