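import Vale.Agent.P119.TL.Rt
import Vale.Agent.P119.RB.Status

/-!
# P119: TREE -> LINES, contacts and bad particles in the two worlds (`helper384`)

`W = U ∪ T.leaves` is the real world and `lwd U T` the world of lines.

* `mcon_th`, `part_th`: the contacts and the colliding pairs are the same;
* `badi_th`, `badc_th`, `sta_th`: the bad particles and the full statuses are the same, if the
  particles of `T` are not bad before the births of their sources;
* `legs_of_not_bad`, `Setup.of_not_bad`: this hypothesis implies the hypothesis `legs` of `Setup`.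
-/

open MeasureTheory Filter Topology Set
open scoped ENNReal NNReal

noncomputable section

namespace Vale.Agent.P119.TL

open KU M M.CTree RB

variable {Φ : E3 → ℝ} {ε : ℝ} {L : ℕ} {U W : Set Src} {T : CTree} {r : CTree → ℝ} {t : ℝ}

/-! ### The correspondence of the particles -/

theorem msrc_mem {x : CTree} (hx : x ∈ outs T) : msrc Φ ε r x ∈ lwd Φ ε r U T :=
  Or.inr ⟨x, hx, rfl⟩

theorem mem_lwd {σ : Src} (hσ : σ ∈ U) : σ ∈ lwd Φ ε r U T := Or.inl hσ

theorem rt_inj (h : Setup Φ ε L U T r t) {a b : Src} (ha : a ∈ lwd Φ ε r U T)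
    (hb : b ∈ lwd Φ ε r U T) (he : rt Φ ε r T a = rt Φ ε r T b) : a = b :=
  fs_root_inj h ha hb he

theorem exists_rt (h : Setup Φ ε L U T r t) {a : Src} (ha : a ∈ U ∪ T.leaves) :
    ∃ b ∈ lwd Φ ε r U T, rt Φ ε r T b = a := by
  rcases ha with ha | ha
  · exact ⟨a, mem_lwd ha, rt_of_mem h ha⟩
  · obtain ⟨x, hx, rfl⟩ := exists_out ha
    exact ⟨_, msrc_mem hx, rt_msrc h hx⟩

/-- The statuses in the two worlds, from the birth of the source on. -/
theorem stat_rt (hΦ : IsPotential Φ) (hε : 0 < ε) (h : Setup Φ ε L U T r t) {a : Src} {s : ℝ}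
    (hs : s ≤ t) (ha : a ∈ lwd Φ ε r U T) (has : a.1 ≤ s) :
    stat Φ ε L (U ∪ T.leaves) (rt Φ ε r T a) s =
      (stat Φ ε L (lwd Φ ε r U T) a s).map (th Φ ε r T) := by
  rcases ha with ha | ⟨x, hx, rfl⟩
  · rw [rt_of_mem h ha]
    exact stat_th hΦ hε h hs ha
  · rw [rt_msrc h hx]
    exact stat_out hΦ hε h hs hx has

/-! ### Contacts -/

/-- The live trees of `U ∪ T.leaves` come from the world of lines, up to the representation at the
beginning of a collision. -/
theorem live_back (hΦ : IsPotential Φ) (hε : 0 < ε) (h : Setup Φ ε L U T r t) {a : Src} {s : ℝ}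
    {X : CTree} (hs : s ≤ t) (ha : a ∈ lwd Φ ε r U T) (has : a.1 ≤ s)
    (hX : live Φ ε L (U ∪ T.leaves) X s) (hXa : X.root = rt Φ ε r T a) :
    ∃ Y, Y.root = a ∧ live Φ ε L (lwd Φ ε r U T) Y s ∧ st Φ ε Y s = st Φ ε X s := by
  have hW := lwd_finite h
  have hW' := wd_finite h
  have hal : (leaf a).leaves ⊆ lwd Φ ε r U T := by
    rintro σ rfl
    exact ha
  have hra := rt_birth_le hΦ hε h ha
  -- a tree which began before `s`
  have key : ∀ X₀ : CTree, X₀.root = rt Φ ε r T a → live Φ ε L (U ∪ T.leaves) X₀ s →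
      sig Φ ε X₀ < s → ∃ Y, Y.root = a ∧ live Φ ε L (lwd Φ ε r U T) Y s ∧
        st Φ ε Y s = st Φ ε X₀ s := by
    intro X₀ hr hl hsig
    rcases has.lt_or_eq with h1 | h1
    · have h2 : max (sig Φ ε X₀) a.1 < s := max_lt hsig h1
      have h3 := hl.lives_of_lt h2 (le_max_left _ _)
      have h4 : stat Φ ε L (U ∪ T.leaves) (rt Φ ε r T a) (max (sig Φ ε X₀) a.1) = some X₀ :=
        (stat_eq_some_iff hΦ hε hW').2 ⟨hr, h3⟩
      rw [stat_rt hΦ hε h (h2.le.trans hs) ha (le_max_right _ _), Option.map_eq_some_iff] at h4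
      obtain ⟨Y, h5, rfl⟩ := h4
      rw [stat_eq_some_iff hΦ hε hW] at h5
      have h6 := h5.2.sig_le.trans h2.le
      exact ⟨Y, h5.1, (live_th hΦ hε h hs h5.2.sub).2 ⟨hl, h6⟩,
        (th_st hΦ hε h h5.2.sub h6).symm⟩
    · -- the source is born at `s`
      subst h1
      rcases ha with ha | ⟨x, hx, rfl⟩
      · rw [rt_of_mem h ha] at hr
        have h2 := (root_birth_le_sig hΦ hε hl.ok).trans_lt hsig
        rw [hr] at h2
        exact absurd h2 (lt_irrefl _)
      · rw [rt_msrc h hx] at hr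
        have h2 := (alive_iff_live hΦ hε hW').1 (h.alive x hx)
        have h3 : sig Φ ε x < r x := by
          cases x with
          | leaf σ =>
            have h4 := (root_birth_le_sig hΦ hε hl.ok).trans_lt hsig
            rw [hr] at h4
            exact h4
          | node c d => exact (sig_lt_ext hΦ hε h2.1.ok).trans_le h2.2
        have h4 : X₀ = x := live_unique hΦ hε hW' hl h2.1 hr hsig h3
        subst h4
        refine ⟨leaf (msrc Φ ε r X₀), rfl, (live_th hΦ hε h hs hal).2 ⟨?_, le_rfl⟩, ?_⟩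
        · rw [th_leaf_msrc h hx]
          exact hl
        · rw [← th_st hΦ hε h hal (s := (msrc Φ ε r X₀).1) le_rfl, th_leaf_msrc h hx]
  rcases live_sig hΦ hε hW' hX with ⟨h1, h2⟩ | ⟨X₀, h1, h2, h3, h4⟩
  · -- the birth
    rw [hXa] at h1 h2
    have h3 : a.1 = s := le_antisymm has (h2 ▸ hra)
    have h5 : th Φ ε r T (leaf a) = leaf (rt Φ ε r T a) := by
      rcases ha with ha | ⟨x, hx, rfl⟩
      · rw [rt_of_mem h ha]
        exact fs_of_mem h ha
      · rw [rt_msrc h hx] at h2 ⊢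
        rw [th_leaf_msrc h hx]
        cases x with
        | leaf σ => rfl
        | node c d =>
          exfalso
          have h6 := (root_birth_le_sig hΦ hε (ok_out h hx)).trans_lt
            (sig_lt_ext hΦ hε (ok_out h hx))
          have h7 := h.le_r _ hx
          change r (node c d) = s at h3
          linarith
    refine ⟨leaf a, rfl, (live_th hΦ hε h hs hal).2 ⟨?_, has⟩, ?_⟩
    · rw [h5, ← h1]
      exact hX
    · rw [← th_st hΦ hε h hal (s := s) has, h5, ← h1]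
  · obtain ⟨Y, h5, h6, h7⟩ := key X₀ (h1.trans hXa) h2 h3
    exact ⟨Y, h5, h6, h7.trans h4⟩

/-- **Contacts in the two worlds.** -/
theorem mcon_th (hΦ : IsPotential Φ) (hε : 0 < ε) (h : Setup Φ ε L U T r t) {a b : Src} {s : ℝ}
    (hs : s ≤ t) (ha : a ∈ lwd Φ ε r U T) (hb : b ∈ lwd Φ ε r U T) (has : a.1 ≤ s)
    (hbs : b.1 ≤ s) : mcon Φ ε L (lwd Φ ε r U T) s a b ↔
      mcon Φ ε L (U ∪ T.leaves) s (rt Φ ε r T a) (rt Φ ε r T b) := by
  constructor
  · rintro ⟨h0, Y, Y', h1, h2, h3, h4, h5⟩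
    refine ⟨fun he => h0 (rt_inj h ha hb he), th Φ ε r T Y, th Φ ε r T Y', ?_, ?_,
      ((live_th hΦ hε h hs h3.sub).1 h3).1, ((live_th hΦ hε h hs h4.sub).1 h4).1, ?_⟩
    · rw [th_root, h1]
    · rw [th_root, h2]
    · rw [th_st hΦ hε h h3.sub h3.sig_le, th_st hΦ hε h h4.sub h4.sig_le]
      exact h5
  · rintro ⟨h0, X, X', h1, h2, h3, h4, h5⟩
    obtain ⟨Y, k1, k2, k3⟩ := live_back hΦ hε h hs ha has h3 h1
    obtain ⟨Y', k1', k2', k3'⟩ := live_back hΦ hε h hs hb hbs h4 h2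
    exact ⟨fun he => h0 (he ▸ rfl), Y, Y', k1, k1', k2, k2', by rw [k3, k3']; exact h5⟩

/-- A tree which is colliding comes from a tree which is colliding. -/
theorem node_of_th (h : Setup Φ ε L U T r t) {Y : CTree} {s : ℝ}
    (hY : Y.leaves ⊆ lwd Φ ε r U T) (hYs : sig Φ ε Y ≤ s) (hs : s < ext Φ ε (th Φ ε r T Y)) :
    ∃ c d, Y = node c d := by
  cases Y with
  | leaf σ =>
    have h1 : ext Φ ε (th Φ ε r T (leaf σ)) ≤ σ.1 := fs_ext h (hY (mem_singleton σ))
    exact absurd hs (not_lt.2 (h1.trans hYs))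
  | node c d => exact ⟨c, d, rfl⟩

/-- **Colliding pairs in the two worlds.** -/
theorem part_th (hΦ : IsPotential Φ) (hε : 0 < ε) (h : Setup Φ ε L U T r t) {a b : Src} {s : ℝ}
    (hs : s ≤ t) (ha : a ∈ lwd Φ ε r U T) (hb : b ∈ lwd Φ ε r U T) (has : a.1 ≤ s)
    (hbs : b.1 ≤ s) : part Φ ε L (lwd Φ ε r U T) s a b ↔
      part Φ ε L (U ∪ T.leaves) s (rt Φ ε r T a) (rt Φ ε r T b) := by
  have hW := lwd_finite h
  constructor
  · rintro ⟨Y, Y', h1, h2, x, y, rfl, rfl, h3⟩
    have h4 := ((stat_eq_some_iff hΦ hε hW).1 h1).2.sub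
    refine ⟨th Φ ε r T (node x y), th Φ ε r T (node y x), ?_, ?_, th Φ ε r T x, th Φ ε r T y, rfl,
      rfl, ?_⟩
    · rw [stat_rt hΦ hε h hs ha has, h1, Option.map_some]
    · rw [stat_rt hΦ hε h hs hb hbs, h2, Option.map_some]
    · rw [th_ext h h4]
      exact h3
  · rintro ⟨X, X', h1, h2, h3⟩
    rw [stat_rt hΦ hε h hs ha has, Option.map_eq_some_iff] at h1
    rw [stat_rt hΦ hε h hs hb hbs, Option.map_eq_some_iff] at h2
    obtain ⟨Y, h1, rfl⟩ := h1
    obtain ⟨Y', h2, rfl⟩ := h2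
    have h4 := (stat_eq_some_iff hΦ hε hW).1 h1
    have h5 := (stat_eq_some_iff hΦ hε hW).1 h2
    obtain ⟨x, y, h6, h7, h8⟩ := h3
    obtain ⟨c, d, rfl⟩ := node_of_th h h4.2.sub h4.2.sig_le h8
    rw [th_ext h h4.2.sub] at h8
    rw [th_node] at h6
    injection h6 with h6 h6'
    -- the partner in the world of lines
    have h9 := lives_swap hΦ h4.2 h8
    have h10 : (node d c).root = Y'.root := by
      refine rt_inj h (h9.sub (node d c).root_mem_leaves) (h5.2.sub Y'.root_mem_leaves) ?_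
      rw [← th_root, ← th_root, h7, th_node]
      change (th Φ ε r T d).root = y.root
      rw [h6']
    have h11 : Y' = node d c := (lives_unique hΦ hε hW h9 h5.2 h10).symm
    exact ⟨node c d, node d c, h1, h11 ▸ h2, c, d, rfl, rfl, h8⟩

/-! ### Bad particles -/

/-- A bad particle of the world of lines is bad. -/
theorem badi_of_lwd (hΦ : IsPotential Φ) (hε : 0 < ε) (h : Setup Φ ε L U T r t) {a : Src} {s : ℝ}
    (hs : s ≤ t) (hbad : badi Φ ε L (lwd Φ ε r U T) a s) :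
    badi Φ ε L (U ∪ T.leaves) (rt Φ ε r T a) s := by
  obtain ⟨ha, h0, has, h1⟩ := hbad
  refine ⟨rt_mem h ha, h0, (rt_birth_le hΦ hε h ha).trans has, ?_⟩
  rcases h1 with h1 | ⟨c, h1, h2⟩
  · left
    rw [stat_rt hΦ hε h hs ha has, h1, Option.map_none]
  · have hc := h1.mem.2
    have hcs := (h1.birth_le hΦ hε).2
    refine Or.inr ⟨rt Φ ε r T c, (mcon_th hΦ hε h hs ha hc has hcs).1 h1, fun hp => h2 ?_⟩
    exact (part_th hΦ hε h hs ha hc has hcs).2 hp

/-- **Bad particles in the two worlds.** -/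
theorem badi_th (hΦ : IsPotential Φ) (hε : 0 < ε) (h : Setup Φ ε L U T r t)
    (hb : ∀ x ∈ outs T, ∀ u < r x, u ≤ t → ¬badi Φ ε L (U ∪ T.leaves) x.root u)
    {a : Src} {s : ℝ} (hs : s ≤ t) (ha : a ∈ lwd Φ ε r U T) (has : a.1 ≤ s) :
    badi Φ ε L (lwd Φ ε r U T) a s ↔ badi Φ ε L (U ∪ T.leaves) (rt Φ ε r T a) s := by
  refine ⟨badi_of_lwd hΦ hε h hs, ?_⟩
  rintro ⟨h1, h2, h3, h4⟩
  refine ⟨ha, h2, has, ?_⟩
  rcases h4 with h4 | ⟨c', h4, h5⟩
  · left
    rw [stat_rt hΦ hε h hs ha has, Option.map_eq_none_iff] at h4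
    exact h4
  · right
    obtain ⟨c, hc, rfl⟩ := exists_rt h h4.mem.2
    have hcs : c.1 ≤ s := by
      by_contra hcon
      rcases hc with hc | ⟨x, hx, rfl⟩
      · rw [rt_of_mem h hc] at h4
        exact hcon (h4.birth_le hΦ hε).2
      · rw [rt_msrc h hx] at h4 h5
        exact hb x hx s (not_le.1 hcon) hs ⟨h4.mem.2, h2, (h4.birth_le hΦ hε).2,
          Or.inr ⟨_, h4.symm, fun hp => h5 ((part_comm hΦ).1 hp)⟩⟩
    exact ⟨c, (mcon_th hΦ hε h hs ha hc has hcs).2 h4, fun hp =>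
      h5 ((part_th hΦ hε h hs ha hc has hcs).1 hp)⟩

/-- **The particles which were bad, in the two worlds.** -/
theorem badc_th (hΦ : IsPotential Φ) (hε : 0 < ε) (h : Setup Φ ε L U T r t)
    (hb : ∀ x ∈ outs T, ∀ u < r x, u ≤ t → ¬badi Φ ε L (U ∪ T.leaves) x.root u)
    {a : Src} {s : ℝ} (hs : s ≤ t) (ha : a ∈ lwd Φ ε r U T) :
    badc Φ ε L (lwd Φ ε r U T) a s ↔ badc Φ ε L (U ∪ T.leaves) (rt Φ ε r T a) s := by
  constructor
  · rintro ⟨u, hu, h1⟩
    exact ⟨u, hu, badi_of_lwd hΦ hε h (hu.trans hs) h1⟩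
  · rintro ⟨u, hu, h1⟩
    have hau : a.1 ≤ u := by
      by_contra hcon
      rcases ha with ha | ⟨x, hx, rfl⟩
      · rw [rt_of_mem h ha] at h1
        exact hcon h1.2.2.1
      · rw [rt_msrc h hx] at h1
        exact hb x hx u (not_le.1 hcon) (hu.trans hs) h1
    exact ⟨u, hu, (badi_th hΦ hε h hb (hu.trans hs) ha hau).2 h1⟩

theorem badc_of_lwd (hΦ : IsPotential Φ) (hε : 0 < ε) (h : Setup Φ ε L U T r t) {a : Src} {s : ℝ}
    (hs : s ≤ t) (hbad : badc Φ ε L (lwd Φ ε r U T) a s) :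
    badc Φ ε L (U ∪ T.leaves) (rt Φ ε r T a) s := by
  obtain ⟨u, hu, h1⟩ := hbad
  exact ⟨u, hu, badi_of_lwd hΦ hε h (hu.trans hs) h1⟩

/-- **The full statuses in the two worlds**, from the birth of the source on. -/
theorem sta_th (hΦ : IsPotential Φ) (hε : 0 < ε) (h : Setup Φ ε L U T r t)
    (hb : ∀ x ∈ outs T, ∀ u < r x, u ≤ t → ¬badi Φ ε L (U ∪ T.leaves) x.root u)
    {a : Src} {s : ℝ} (hs : s ≤ t) (ha : a ∈ lwd Φ ε r U T) (has : a.1 ≤ s) :
    sta Φ ε L (U ∪ T.leaves) (rt Φ ε r T a) s = ((sta Φ ε L (lwd Φ ε r U T) a s).1,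
      (sta Φ ε L (lwd Φ ε r U T) a s).2.1.map (th Φ ε r T),
      (sta Φ ε L (lwd Φ ε r U T) a s).2.2) := by
  have h1 : (rt Φ ε r T a ∈ U ∪ T.leaves) = (a ∈ lwd Φ ε r U T) :=
    propext ⟨fun _ => ha, fun _ => rt_mem h ha⟩
  have h2 : badc Φ ε L (U ∪ T.leaves) (rt Φ ε r T a) s = badc Φ ε L (lwd Φ ε r U T) a s :=
    propext (badc_th hΦ hε h hb hs ha).symm
  simp only [sta]
  rw [h1, h2, stat_rt hΦ hε h hs ha has]

/-! ### The hypothesis `legs` -/

/-- If the alive tree `X` collides at time `s`, the collision begins at this time. -/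
theorem partner_of_alive (hΦ : IsPotential Φ) (hε : 0 < ε) (hW : W.Finite) {X T₁ T₂ : CTree}
    {s : ℝ} (hX : alive Φ ε L W X s) (h1 : T₁.root = X.root) (h2 : lives Φ ε L W T₁ s)
    (hp : partner Φ ε T₁ T₂ s) : ∃ y, T₁ = node X y ∧ T₂ = node y X ∧
      sig Φ ε (node X y) = s ∧ alive Φ ε L W y s := by
  obtain ⟨x, y, rfl, rfl, h3⟩ := hp
  have h4 := (alive_iff_live hΦ hε hW).1 hX
  have hok := h2.ok
  have h5 : sig Φ ε (node x y) = s := by
    by_contra hne
    have h6 : sig Φ ε (node x y) < s := lt_of_le_of_ne h2.sig_le hne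
    rcases h4.1.sig_le.lt_or_eq with h7 | h7
    · have h8 := live_unique hΦ hε hW h2.live h4.1 h1 h6 h7
      rw [h8] at h3
      exact absurd h3 (not_lt.2 h4.2)
    · have h8 : sig Φ ε X = ext Φ ε X := le_antisymm (sig_le_ext hΦ hε h4.1.ok) (h7 ▸ h4.2)
      cases X with
      | leaf σ =>
        have h9 := root_birth_le_sig hΦ hε hok
        rw [h1] at h9
        change σ.1 = s at h7
        change σ.1 ≤ _ at h9
        linarith
      | node c d => exact absurd h8 (sig_lt_ext hΦ hε h4.1.ok).ne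
  have h6 := live_left hΦ hε hW h2.live
  have h7 := live_right hΦ hε hW h2.live
  rw [h5] at h6 h7
  have h8 : x = X := alive_unique hΦ hε hW h6 hX h1
  subst h8
  exact ⟨y, rfl, rfl, h5, h7⟩

/-- An alive particle which hits a particle that is hit by a third one is bad. -/
theorem badi_of_hit_hit (hΦ : IsPotential Φ) (hε : 0 < ε) (hW : W.Finite) {X c d : CTree} {s : ℝ}
    (hX : alive Φ ε L W X s) (hc : alive Φ ε L W c s) (hd : alive Φ ε L W d s)
    (hcX : hit Φ ε c X s) (hcd : hit Φ ε c d s) (hne : d ≠ X) : badi Φ ε L W X.root s := by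
  have hXl := (alive_iff_live hΦ hε hW).1 hX
  have hcl := (alive_iff_live hΦ hε hW).1 hc
  have h0 := hit_nonneg hΦ hε hcl.1.ok hcX
  refine ⟨live.mem hXl.1, h0, live.birth_le hΦ hε hXl.1, ?_⟩
  by_cases hst : stat Φ ε L W X.root s = none
  · exact Or.inl hst
  right
  obtain ⟨h1, h2, h3⟩ := (hit_after hΦ hε hcl.1.ok hcl.2).1 hcX
  have hroot : X.root ≠ c.root := fun he =>
    disjoint_left.1 h2 c.root_mem_leaves (he ▸ X.root_mem_leaves)
  refine ⟨c.root, ⟨hroot, X, c, rfl, rfl, hXl.1, hcl.1, ?_⟩, ?_⟩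
  · rw [st_after hΦ hε hXl.1.ok hXl.2, st_after hΦ hε hcl.1.ok hcl.2]
    exact h3.symm
  · rintro ⟨T₁, T₂, h4, h5, h6⟩
    rw [stat_eq_some_iff hΦ hε hW] at h4 h5
    obtain ⟨y, rfl, rfl, h7, h8⟩ := partner_of_alive hΦ hε hW hX h4.1 h4.2 h6
    have h9 : c = y := alive_unique hΦ hε hW hc h8 h5.1.symm
    subst h9
    refine h5.2.nohit d s le_rfl (Or.inl ⟨?_, Or.inl ⟨hcd, fun hcon => hne hcon.1⟩⟩) hd
    rw [sig_swap X c, h7]

/-- An alive particle in contact with a particle which is colliding is bad. -/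
theorem badi_of_ctc (hΦ : IsPotential Φ) (hε : 0 < ε) (hW : W.Finite) {X p : CTree} {s : ℝ}
    (hX : alive Φ ε L W X s) (hp : live Φ ε L W p s) (hs : s < ext Φ ε p)
    (hd : Disjoint p.leaves X.leaves) (hc : Ctc ε (st Φ ε p s) (st Φ ε X s)) :
    badi Φ ε L W X.root s := by
  have hXl := (alive_iff_live hΦ hε hW).1 hX
  have h0 : 0 ≤ s := (sig_nonneg hΦ hε hp.ok).trans hp.sig_le
  refine ⟨live.mem hXl.1, h0, live.birth_le hΦ hε hXl.1, ?_⟩
  by_cases hst : stat Φ ε L W X.root s = none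
  · exact Or.inl hst
  right
  have hroot : X.root ≠ p.root := fun he =>
    disjoint_left.1 hd p.root_mem_leaves (he ▸ X.root_mem_leaves)
  refine ⟨p.root, ⟨hroot, X, p, rfl, rfl, hXl.1, hp, hc.symm⟩, ?_⟩
  rintro ⟨T₁, T₂, h4, h5, h6⟩
  rw [stat_eq_some_iff hΦ hε hW] at h4 h5
  obtain ⟨y, rfl, rfl, h7, h8⟩ := partner_of_alive hΦ hε hW hX h4.1 h4.2 h6
  have hyl := (alive_iff_live hΦ hε hW).1 h8
  have hok := h5.2.ok
  have hsig : sig Φ ε (node y X) = s := (sig_swap X y).trans h7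
  have hyr : y.root = p.root := h5.1
  cases p with
  | leaf σ => exact absurd hs (not_lt.2 hp.sig_le)
  | node c d =>
    rcases hp.sig_le.lt_or_eq with h9 | h9
    · -- the collision of `p` began before `s`
      have h10 : sig Φ ε y < s := (sig_le_ext hΦ hε hok.1).trans_lt (hok.2.2.2.2.2.1.trans_eq hsig)
      have h11 := live_unique hΦ hε hW hyl.1 hp hyr h10 h9
      rw [← h11] at hs
      exact absurd hs (not_lt.2 hyl.2)
    · -- the collision of `p` begins at `s`
      have hca := live_left hΦ hε hW hp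
      have hda := live_right hΦ hε hW hp
      have hcd := hit_sig hΦ hε hp.ok
      rw [h9] at hca hda hcd
      have h10 : c = y := alive_unique hΦ hε hW hca h8 hyr.symm
      subst h10
      refine h5.2.nohit d s le_rfl (Or.inl ⟨hsig.ge, Or.inl ⟨hcd, fun hcon => ?_⟩⟩) hda
      rw [← hcon.1] at hd
      exact disjoint_left.1 hd (Or.inr d.root_mem_leaves) d.root_mem_leaves

/-- **An alive particle which hits a collision is bad.** -/
theorem badi_of_hit (hΦ : IsPotential Φ) (hε : 0 < ε) (hW : W.Finite) {X p : CTree} {s : ℝ}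
    (hX : alive Φ ε L W X s) (hp : live Φ ε L W p s) (hs : s < ext Φ ε p)
    (hh : hit Φ ε p X s) : badi Φ ε L W X.root s := by
  cases p with
  | leaf σ => exact absurd hs (not_lt.2 hp.sig_le)
  | node c d =>
    have hXl := (alive_iff_live hΦ hε hW).1 hX
    rcases hh with ⟨h1, h2⟩ | ⟨h1, h2, h3, h4⟩
    · -- the collision begins at `s`
      have h9 : sig Φ ε (node c d) = s := le_antisymm hp.sig_le h1
      have hca := live_left hΦ hε hW hp
      have hda := live_right hΦ hε hW hp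
      have hcd := hit_sig hΦ hε hp.ok
      have hdc := hit_sig' hΦ hε hp.ok
      rw [h9] at hca hda hcd hdc
      rcases h2 with ⟨h2, h3⟩ | ⟨h2, h3⟩
      · exact badi_of_hit_hit hΦ hε hW hX hca hda h2 hcd fun he => h3 ⟨he.symm, h9.symm⟩
      · exact badi_of_hit_hit hΦ hε hW hX hda hca h2 hdc fun he => h3 ⟨he.symm, h9.symm⟩
    · rw [← st_after hΦ hε hXl.1.ok hXl.2] at h4
      rcases h4 with h4 | ⟨h5, h4⟩
      · exact badi_of_ctc hΦ hε hW hX hp hs h3 h4
      · rw [← st_swap hΦ c d s] at h4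
        have he : ext Φ ε (node d c) = ext Φ ε (node c d) := ext_swap hΦ c d
        refine badi_of_ctc hΦ hε hW hX (live_swap hΦ hp hs.le) (he ▸ hs) ?_ h4
        change Disjoint (d.leaves ∪ c.leaves) _
        rw [union_comm]
        exact h3

/-- The alive legs are histories of the particles of `T` before the births of the sources. -/
theorem leg_root (hΦ : IsPotential Φ) (hε : 0 < ε) (hW : W.Finite)
    (hal : ∀ x ∈ outs T, alive Φ ε L W x (r x)) {X : CTree} {s : ℝ} (hX : Leg r T X s)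
    (hXa : alive Φ ε L W X s) : ∃ x ∈ outs T, x.root = X.root ∧ s < r x := by
  rcases hX with ⟨h1, h2⟩ | ⟨h1, h2⟩
  · obtain ⟨x, hx, hxr⟩ := exists_out (h1.leaves_subset X.root_mem_leaves)
    refine ⟨x, hx, hxr, ?_⟩
    have hok : ok Φ ε T := (alive_pre (hal T (Or.inl rfl))).ok
    -- `x` is not a subtree of `X`
    have hnot : ¬Sub x X := by
      intro h3
      rcases hx with rfl | hx
      · exact h2 (h1.eq_of_card h3.card_le)
      · exact not_sub_of_exs hok hx (h3.trans h1)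
    have hsub : ∀ P Q : CTree, Spine P Q → Sub P Q := by
      intro P Q h
      induction h with
      | refl => exact Sub.refl _
      | left b _ ih => exact Sub.left b ih
    rcases alive_comparable hΦ hε hW (hal x hx) hXa hxr with h3 | h3
    · exact absurd (hsub _ _ h3) hnot
    · have hne : X ≠ x := fun he => hnot (he ▸ Sub.refl _)
      obtain ⟨b, t', h4, h5, h6⟩ := alive_spine hΦ hε hW (hal x hx) h3 hne
      have h7 := alive_right hΦ hε hW h5
      have h8 := hit_sig hΦ hε (alive_pre h5).ok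
      by_contra hcon
      exact no_hit hΦ hε hW hXa ((sig_le_of_pre hΦ hε (alive_pre h5)).trans_le
        (h6.trans (not_lt.1 hcon))) h8 h7
  · exact ⟨X, h1, rfl, h2⟩

/-- **The hypothesis `legs` of `Setup`** holds if the particles of `T` are not bad before the
births of their sources. -/
theorem legs_of_not_bad (hΦ : IsPotential Φ) (hε : 0 < ε) (hW : W.Finite)
    (hal : ∀ x ∈ outs T, alive Φ ε L W x (r x))
    (hb : ∀ x ∈ outs T, ∀ u < r x, u ≤ t → ¬badi Φ ε L W x.root u) (X p : CTree) (s : ℝ)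
    (hs : s ≤ t) (hX : Leg r T X s) (hXa : alive Φ ε L W X s) (hp : live Φ ε L W p s)
    (hsp : s < ext Φ ε p) : ¬hit Φ ε p X s := by
  intro hh
  obtain ⟨x, hx, hxr, hxs⟩ := leg_root hΦ hε hW hal hX hXa
  refine hb x hx s hxs hs ?_
  rw [hxr]
  exact badi_of_hit hΦ hε hW hXa hp hsp hh

/-- **Constructor of `Setup`.** -/
theorem Setup.of_not_bad (hΦ : IsPotential Φ) (hε : 0 < ε) (fin : U.Finite)
    (disj : Disjoint U T.leaves) (inj : InjOn (msrc Φ ε r) (outs T))
    (fresh : ∀ x ∈ outs T, msrc Φ ε r x ∉ U) (le_r : ∀ x ∈ outs T, ext Φ ε x ≤ r x)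
    (hal : ∀ x ∈ outs T, M.alive Φ ε L (U ∪ T.leaves) x (r x))
    (lives : ∀ x ∈ outs T, r x = ext Φ ε x ∨ M.lives Φ ε L (U ∪ T.leaves) x (r x))
    (hb : ∀ x ∈ outs T, ∀ u < r x, u ≤ t → ¬badi Φ ε L (U ∪ T.leaves) x.root u)
    (indep : ∀ p y s, s ≤ t → live Φ ε L (lwd Φ ε r U T) p s →
      M.alive Φ ε L (lwd Φ ε r U T) y s → Disjoint p.leaves y.leaves → hit Φ ε p y s →
        p.leaves ⊆ U ∨ y.leaves ⊆ U) :
    Setup Φ ε L U T r t :=
  ⟨fin, disj, inj, fresh, le_r, hal, lives,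
    legs_of_not_bad hΦ hε (fin.union T.leaves_finite) hal hb, indep⟩

end Vale.Agent.P119.TL
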