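import Vale.Agent.P119.TL.Main

/-!
# P119: TREE -> LINES, the equivalence of the two worlds (`helper119`)

* `live_th`, `alive_th`, `lives_th`: `y` survives in the world of lines iff `th y` survives in
  `U ∪ T.leaves`;
* `stat_th` (particles of `U`), `stat_out` (particles of `T` after the birth of their sources),
  `stat_leg` (particles of `T` before the birth of their sources).
-/

open MeasureTheory Filter Topology Set
open scoped ENNReal NNReal

noncomputable section

namespace Vale.Agent.P119.TL

open KU M M.CTree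

variable {Φ : E3 → ℝ} {ε : ℝ} {L : ℕ} {U : Set Src} {T : CTree} {r : CTree → ℝ} {t : ℝ}

/-- The candidates for the times of first hits in the two worlds. -/
def cand (Φ : E3 → ℝ) (ε : ℝ) (L : ℕ) (U : Set Src) (T : CTree) (r : CTree → ℝ) : Set ℝ :=
  times Φ ε L (lwd Φ ε r U T) ∪ times Φ ε L (U ∪ T.leaves)

theorem live_th_aux (hΦ : IsPotential Φ) (hε : 0 < ε) (h : Setup Φ ε L U T r t) (n : ℕ) :
    ∀ s ≤ t, (cand Φ ε L U T r ∩ Iio s).ncard ≤ n → ∀ p : CTree, p.leaves ⊆ lwd Φ ε r U T →
      (live Φ ε L (lwd Φ ε r U T) p s ↔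
        live Φ ε L (U ∪ T.leaves) (th Φ ε r T p) s ∧ sig Φ ε p ≤ s) := by
  have hW := lwd_finite h
  have hW' := wd_finite h
  have hfin : ∀ s, (cand Φ ε L U T r ∩ Iio s).Finite := fun s =>
    ((times_finite hW).union (times_finite hW')).inter_of_left _
  induction n using Nat.strong_induction_on with
  | _ n IH =>
    intro s hst hcard p hp
    -- the equivalence for alive trees at earlier candidate times
    have hAE : ∀ u ∈ cand Φ ε L U T r, u < s → ∀ y : CTree, y.leaves ⊆ lwd Φ ε r U T →
        (alive Φ ε L (lwd Φ ε r U T) y u ↔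
          alive Φ ε L (U ∪ T.leaves) (th Φ ε r T y) u ∧ ext Φ ε y ≤ u) := by
      intro u hu hus y hy
      have h3 : (cand Φ ε L U T r ∩ Iio u).ncard < (cand Φ ε L U T r ∩ Iio s).ncard := by
        refine ncard_lt_ncard ?_ (hfin s)
        refine ⟨fun x hx => ⟨hx.1, lt_trans hx.2 hus⟩, fun hcon => ?_⟩
        exact absurd (hcon ⟨hu, hus⟩).2 (lt_irrefl u)
      have h4 := IH _ (h3.trans_le hcard) u (hus.le.trans hst) le_rfl y hy
      rw [alive_iff_live hΦ hε hW, alive_iff_live hΦ hε hW', h4]
      constructor
      · rintro ⟨⟨h5, h6⟩, h7⟩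
        exact ⟨⟨h5, (th_ext_le h hy).trans h7⟩, h7⟩
      · rintro ⟨⟨h5, h6⟩, h7⟩
        refine ⟨⟨h5, ?_⟩, h7⟩
        have hoky : ok Φ ε y := ok_of_th hΦ hε h hy h5
        exact (sig_le_ext hΦ hε hoky).trans h7
    constructor
    · intro hl
      have hok := ok_th hΦ hε h hp hst hl
      refine ⟨⟨th_leaves_wd h hp, hok, (th_depth h hp).le.trans hl.depth,
        (th_sig_le hΦ hε h hp).trans hl.sig_le, fun X u hu hh ha => ?_⟩, hl.sig_le⟩
      obtain ⟨X', v, hv, hvf, h1, h2, h3⟩ := exists_first_hit hΦ hε hW' hok hh ha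
      have hvs : v < s := hv.trans_lt hu
      obtain ⟨y, hy, hXy, hye, hyh⟩ := hit_of_th hΦ hε h (hvs.le.trans hst) hp hok hl.depth h3 h2 h1
      have hvc : v ∈ cand Φ ε L U T r := Or.inr ⟨(th Φ ε r T p, X'),
        ⟨⟨th_leaves_wd h hp, (th_depth h hp).le.trans hl.depth⟩,
          ⟨(alive_pre h2).sub, (alive_pre h2).depth⟩⟩, hvf.symm⟩
      refine hl.nohit y v hvs hyh ?_
      rw [hAE v hvc hvs y hy]
      exact ⟨hXy ▸ h2, hye⟩
    · rintro ⟨hl, hps⟩
      have hok := ok_of_th hΦ hε h hp hl
      have hd : p.depth ≤ L := (th_depth h hp).ge.trans hl.depth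
      refine ⟨hp, hok, hd, hps, fun X u hu hh ha => ?_⟩
      obtain ⟨y, v, hv, hvf, h1, h2, h3⟩ := exists_first_hit hΦ hε hW hok hh ha
      have hvs : v < s := hv.trans_lt hu
      have hvc : v ∈ cand Φ ε L U T r := Or.inl ⟨(p, y),
        ⟨⟨hp, hd⟩, ⟨(alive_pre h2).sub, (alive_pre h2).depth⟩⟩, hvf.symm⟩
      have h4 := hit_th hΦ hε h (hvs.le.trans hst) hp hok hd h3 h2 h1
      exact hl.nohit _ v hvs h4 ((hAE v hvc hvs y (alive_pre h2).sub).1 h2).1

/-- **TREE -> LINES** for `live`. -/
theorem live_th (hΦ : IsPotential Φ) (hε : 0 < ε) (h : Setup Φ ε L U T r t) {p : CTree} {s : ℝ}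
    (hs : s ≤ t) (hp : p.leaves ⊆ lwd Φ ε r U T) :
    live Φ ε L (lwd Φ ε r U T) p s ↔
      live Φ ε L (U ∪ T.leaves) (th Φ ε r T p) s ∧ sig Φ ε p ≤ s :=
  live_th_aux hΦ hε h _ s hs le_rfl p hp

/-- **TREE -> LINES** for `alive`. -/
theorem alive_th (hΦ : IsPotential Φ) (hε : 0 < ε) (h : Setup Φ ε L U T r t) {p : CTree} {s : ℝ}
    (hs : s ≤ t) (hp : p.leaves ⊆ lwd Φ ε r U T) :
    alive Φ ε L (lwd Φ ε r U T) p s ↔
      alive Φ ε L (U ∪ T.leaves) (th Φ ε r T p) s ∧ ext Φ ε p ≤ s := by
  rw [alive_iff_live hΦ hε (lwd_finite h), alive_iff_live hΦ hε (wd_finite h),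
    live_th hΦ hε h hs hp]
  constructor
  · rintro ⟨⟨h5, h6⟩, h7⟩
    exact ⟨⟨h5, (th_ext_le h hp).trans h7⟩, h7⟩
  · rintro ⟨⟨h5, h6⟩, h7⟩
    exact ⟨⟨h5, (sig_le_ext hΦ hε (ok_of_th hΦ hε h hp h5)).trans h7⟩, h7⟩

theorem lives_iff {W : Set Src} {p : CTree} {s : ℝ} :
    lives Φ ε L W p s ↔ live Φ ε L W p s ∧ ∀ X, hit Φ ε p X s → ¬alive Φ ε L W X s := by
  constructor
  · exact fun h => ⟨h.live, fun X => h.nohit X s le_rfl⟩
  · rintro ⟨h1, h2⟩
    refine ⟨h1.sub, h1.ok, h1.depth, h1.sig_le, fun X u hu => ?_⟩
    rcases hu.eq_or_lt with h3 | h3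
    · subst h3; exact h2 X
    · exact h1.nohit X u h3

/-- **TREE -> LINES** for `lives`. -/
theorem lives_th (hΦ : IsPotential Φ) (hε : 0 < ε) (h : Setup Φ ε L U T r t) {p : CTree} {s : ℝ}
    (hs : s ≤ t) (hp : p.leaves ⊆ lwd Φ ε r U T) :
    lives Φ ε L (lwd Φ ε r U T) p s ↔
      lives Φ ε L (U ∪ T.leaves) (th Φ ε r T p) s ∧ sig Φ ε p ≤ s := by
  rw [lives_iff, lives_iff, live_th hΦ hε h hs hp]
  constructor
  · rintro ⟨⟨h1, h2⟩, h3⟩
    refine ⟨⟨h1, fun X hh ha => ?_⟩, h2⟩
    have hd : p.depth ≤ L := (th_depth h hp).ge.trans h1.depth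
    obtain ⟨y, hy, hXy, hye, hyh⟩ := hit_of_th hΦ hε h hs hp h1.ok hd h1.nohit ha hh
    exact h3 y hyh ((alive_th hΦ hε h hs hy).2 ⟨hXy ▸ ha, hye⟩)
  · rintro ⟨⟨h1, h2⟩, h3⟩
    refine ⟨⟨h1, h3⟩, fun X hh ha => ?_⟩
    have h4 := (live_th hΦ hε h hs hp).2 ⟨h1, h3⟩
    exact h2 _ (hit_th hΦ hε h hs hp h4.ok h4.depth h4.nohit ha hh)
      ((alive_th hΦ hε h hs (alive_pre ha).sub).1 ha).1

/-! ### Statuses -/

/-- The status of a particle of the environment. -/
theorem stat_th (hΦ : IsPotential Φ) (hε : 0 < ε) (h : Setup Φ ε L U T r t) {a : Src} {s : ℝ}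
    (hs : s ≤ t) (ha : a ∈ U) :
    stat Φ ε L (U ∪ T.leaves) a s = (stat Φ ε L (lwd Φ ε r U T) a s).map (th Φ ε r T) := by
  have hW := lwd_finite h
  have hW' := wd_finite h
  have hUT := disjoint_left.1 h.disj
  -- living trees of `U ∪ T.leaves` with root in `U` come from the world of lines
  have key : ∀ X : CTree, lives Φ ε L (U ∪ T.leaves) X s → X.root = a →
      ∃ y, y.leaves ⊆ lwd Φ ε r U T ∧ X = th Φ ε r T y ∧ sig Φ ε y ≤ s := by
    intro X hX hXa
    have hleg : ∀ (Y : CTree) (u : ℝ), Y.root = a → ¬Leg r T Y u := by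
      rintro Y u hY (⟨h1, -⟩ | ⟨h1, -⟩)
      · exact hUT ha (hY ▸ h1.leaves_subset Y.root_mem_leaves)
      · exact hUT ha (hY ▸ outs_leaves h1 Y.root_mem_leaves)
    cases X with
    | leaf σ =>
      have h1 := (alive_iff_live hΦ hε hW').2 ⟨hX.live, hX.sig_le⟩
      rcases alive_classify hΦ hε h h1 with ⟨y, hy, hXy, hye⟩ | h2
      · have hoky := ok_of_th hΦ hε h hy (hXy ▸ hX.live)
        exact ⟨y, hy, hXy, (sig_le_ext hΦ hε hoky).trans hye⟩
      · exact absurd h2 (hleg _ _ hXa)
    | node c d =>
      have hc := live_left hΦ hε hW' hX.live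
      have hd := live_right hΦ hε hW' hX.live
      rcases alive_classify hΦ hε h hc with ⟨y, hy, hXy, hye⟩ | h2
      · rcases alive_classify hΦ hε h hd with ⟨y', hy', hXy', hye'⟩ | h2
        · have h3 : (node y y').leaves ⊆ lwd Φ ε r U T := union_subset hy hy'
          refine ⟨node y y', h3, by rw [th_node, ← hXy, ← hXy'], ?_⟩
          rw [← th_sig h h3, th_node, ← hXy, ← hXy']
          exact hX.sig_le
        · exfalso
          rcases leg_hit hΦ hε h h2 hd hc (hit_sig' hΦ hε hX.ok) with h4 | h4
          · exact hUT ha (h4.1.leaves_subset (Or.inr (hXa ▸ c.root_mem_leaves)))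
          · exact hUT ha (h4.1.leaves_subset (Or.inl (hXa ▸ c.root_mem_leaves)))
      · exact absurd h2 (hleg c _ hXa)
  rcases hst : stat Φ ε L (lwd Φ ε r U T) a s with _ | y
  · rw [Option.map_none, stat_eq_none_iff]
    intro X hXa hX
    obtain ⟨y, hy, rfl, hys⟩ := key X hX hXa
    have h1 := (lives_th hΦ hε h hs hy).2 ⟨hX, hys⟩
    refine (stat_eq_none_iff.1 hst) y ?_ h1
    have h2 : (leaf a).leaves ⊆ lwd Φ ε r U T := by
      rintro σ rfl
      exact Or.inl ha
    refine th_root_inj h hy h2 ?_
    rw [hXa]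
    change a = (fs Φ ε r T a).root
    rw [fs_of_mem h ha]
    rfl
  · rw [Option.map_some, stat_eq_some_iff hΦ hε hW']
    rw [stat_eq_some_iff hΦ hε hW] at hst
    refine ⟨?_, ((lives_th hΦ hε h hs hst.2.sub).1 hst.2).1⟩
    have e1 : (th Φ ε r T y).root = (fs Φ ε r T y.root).root := sbs_root y
    rw [e1, hst.1, fs_of_mem h ha]
    rfl

/-- The status of a particle of `T` after the birth of its source. -/
theorem stat_out (hΦ : IsPotential Φ) (hε : 0 < ε) (h : Setup Φ ε L U T r t) {x : CTree} {s : ℝ}
    (hs : s ≤ t) (hx : x ∈ outs T) (hxs : r x ≤ s) :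
    stat Φ ε L (U ∪ T.leaves) x.root s =
      (stat Φ ε L (lwd Φ ε r U T) (msrc Φ ε r x) s).map (th Φ ε r T) := by
  have hW := lwd_finite h
  have hW' := wd_finite h
  have hmx : msrc Φ ε r x ∈ lwd Φ ε r U T := Or.inr ⟨x, hx, rfl⟩
  have hml : (leaf (msrc Φ ε r x)).leaves ⊆ lwd Φ ε r U T := by
    rintro σ rfl
    exact hmx
  have hroot : ∀ y : CTree, y.leaves ⊆ lwd Φ ε r U T →
      ((th Φ ε r T y).root = x.root ↔ y.root = msrc Φ ε r x) := by
    intro y hy
    constructor
    · intro h1
      refine th_root_inj h hy hml ?_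
      rw [h1, th_leaf_msrc h hx]
    · intro h1
      have e1 : (th Φ ε r T y).root = (fs Φ ε r T y.root).root := sbs_root y
      rw [e1, h1, fs_msrc h hx]
  -- the history of the particle at a time after the exit extends `x`
  have key : ∀ X : CTree, lives Φ ε L (U ∪ T.leaves) X s → X.root = x.root →
      ∃ y, y.leaves ⊆ lwd Φ ε r U T ∧ X = th Φ ε r T y ∧ sig Φ ε y ≤ s := by
    intro X hX hXr
    have hxa := h.alive x hx
    have hxl := ((alive_iff_live hΦ hε hW').1 hxa).1
    -- a proper subtree of `T` with root `x.root` is an earlier history of `x`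
    by_cases hXx : X = x
    · exact ⟨leaf (msrc Φ ε r x), hml, by rw [th_leaf_msrc h hx, hXx], hxs⟩
    · cases X with
      | leaf σ =>
        -- `x` is not a leaf, the particle `σ` has been hit before `r x`
        exfalso
        have hsp : Spine (leaf σ) x := by
          have := Spine.leaf x
          rwa [← hXr] at this
        obtain ⟨b, u, h1, h2, h3⟩ := live_spine hΦ hε hW' hxl hsp hXx
        exact hX.nohit b _ ((h2.sig_le.trans h3).trans hxs) (hit_sig hΦ hε h2.ok)
          (live_right hΦ hε hW' h2)
      | node c d =>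
        have hXlive := hX.live
        have hc := live_left hΦ hε hW' hX.live
        have hd := live_right hΦ hε hW' hX.live
        have hnleg : ∀ Y, (Sub Y T ∨ Y ∈ outs T) → Y.root = x.root → lives Φ ε L (U ∪ T.leaves) Y s →
            Y = x := by
          intro Y hY hYr hYl
          rcases hY with hY | hY
          · by_cases hYT : Y = T
            · exact outs_root_inj (ok_T h) (Or.inl hYT) hx hYr
            · -- the parent of `Y` in `T` kills `Y` before `s`
              exfalso
              obtain ⟨P, hP, hPT⟩ := hY.exists_par hYT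
              have hPok := hPT.ok (ok_T h)
              have hTa := h.alive T (Or.inl rfl)
              have hPe : ext Φ ε P ≤ ext Φ ε T := hPT.ext_le hΦ hε (ok_T h)
              have hTr := h.le_r T (Or.inl rfl)
              have hPlive : live Φ ε L (U ∪ T.leaves) P (sig Φ ε P) :=
                ⟨hPT.leaves_subset.trans subset_union_right, hPok,
                  hPT.depth_le.trans (alive_pre hTa).depth, le_rfl, fun y u hu hy =>
                    no_hit hΦ hε hW' hTa (((hu.trans_le (sig_le_ext hΦ hε hPok)).trans_le hPe).trans_le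
                      hTr) (hit_of_sub hΦ hε hPT (ok_T h)
                        (hu.le.trans (sig_le_ext hΦ hε hPok)) hy)⟩
              -- the final history of the particle of `Y` ends after `sig P`
              have hxP : sig Φ ε P < r x := by
                rcases hP with ⟨b, rfl⟩ | ⟨a, rfl⟩
                · -- `x.root` is the root of `P`
                  obtain ⟨z, hz, hzr⟩ : ∃ z ∈ outs T, z.root = (node Y b).root :=
                    exists_out (hPT.leaves_subset (node Y b).root_mem_leaves)
                  have hzx : z = x := outs_root_inj (ok_T h) hz hx (hzr.trans hYr)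
                  subst hzx
                  -- `z` is alive at `r z`; its particle at time `sig P`
                  by_contra hcon
                  have h1 := not_lt.1 hcon
                  have hYa := live_left hΦ hε hW' hPlive
                  have hzl := ((alive_iff_live hΦ hε hW').1 (h.alive z hz)).1
                  -- compare the histories `z` (alive at `r z`) and `Y` (alive at `sig P`)
                  rcases alive_comparable hΦ hε hW' (h.alive z hz) hYa (hYr.symm) with h2 | h2
                  · -- `z` is an earlier history of `Y`, hence a subtree of `T`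
                    have h3 : Sub z Y := by
                      clear * - h2
                      induction h2 with
                      | refl => exact Sub.refl _
                      | left b _ ih => exact Sub.left b ih
                    rcases hz with rfl | hz
                    · exact hYT (hY.eq_of_card h3.card_le)
                    · exact not_sub_of_exs (ok_T h) hz (h3.trans hY)
                  · by_cases hne : Y = z
                    · subst hne
                      rcases hz with hz | hz
                      · exact hYT hz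
                      · exact not_sub_of_exs (ok_T h) hz hY
                    · obtain ⟨b', u, h4, h5, h6⟩ := live_spine hΦ hε hW' hzl h2 hne
                      have h7 : sig Φ ε (node Y b') < sig Φ ε (node Y b) := by
                        rcases (h5.sig_le.trans (h6.trans h1)).lt_or_eq with h8 | h8
                        · exact h8
                        · exfalso
                          -- then `sig = r z`, but `sig (node Y b') < ext z ≤ r z`
                          have h9 : sig Φ ε (node Y b') < ext Φ ε (node Y b') :=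
                            sig_lt_ext hΦ hε h5.ok
                          have h10 : Sub (node Y b') z := by
                            clear * - h4
                            generalize node Y b' = V at h4
                            induction h4 with
                            | refl => exact Sub.refl _
                            | left b _ ih => exact Sub.left b ih
                          have h11 := h10.ext_le hΦ hε (ok_out h hz)
                          have h12 := h.le_r z hz
                          linarith [h5.sig_le, h6, h1]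
                      exact no_hit hΦ hε hW' hYa h7 (hit_sig hΦ hε h5.ok)
                        (live_right hΦ hε hW' h5)
                · -- `x` is the exhaust of `P`
                  have hz : node Y a ∈ outs T := Or.inr (exs_iff.2 ⟨a, Y, hPT, rfl⟩)
                  have hzx : node Y a = x := outs_root_inj (ok_T h) hz hx hYr
                  rw [← hzx]
                  refine lt_of_lt_of_le ?_ (h.le_r _ hz)
                  rw [ext_swap hΦ a Y]
                  exact sig_lt_ext hΦ hε hPok
              have hPs : sig Φ ε P ≤ s := (hxP.le).trans hxs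
              rcases hP with ⟨b, rfl⟩ | ⟨a, rfl⟩
              · exact hYl.nohit b _ hPs (hit_sig hΦ hε hPok) (live_right hΦ hε hW' hPlive)
              · exact hYl.nohit a _ hPs (hit_sig' hΦ hε hPok) (live_left hΦ hε hW' hPlive)
          · exact outs_root_inj (ok_T h) hY hx hYr
        rcases alive_classify hΦ hε h hc with ⟨y, hy, hXy, hye⟩ | h2
        · rcases alive_classify hΦ hε h hd with ⟨y', hy', hXy', hye'⟩ | h2
          · have h3 : (node y y').leaves ⊆ lwd Φ ε r U T := union_subset hy hy'
            refine ⟨node y y', h3, by rw [th_node, ← hXy, ← hXy'], ?_⟩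
            rw [← th_sig h h3, th_node, ← hXy, ← hXy']
            exact hX.sig_le
          · exfalso
            rcases leg_hit hΦ hε h h2 hd hc (hit_sig' hΦ hε hX.ok) with h4 | h4
            · exact hXx (hnleg _ (Or.inr (Or.inr (exs_iff.2 ⟨d, c, h4.1, rfl⟩))) hXr hX)
            · exact hXx (hnleg _ (Or.inl h4.1) hXr hX)
        · exfalso
          rcases leg_hit hΦ hε h h2 hc hd (hit_sig hΦ hε hX.ok) with h4 | h4
          · exact hXx (hnleg _ (Or.inl h4.1) hXr hX)
          · exact hXx (hnleg _ (Or.inr (Or.inr (exs_iff.2 ⟨d, c, h4.1, rfl⟩))) hXr hX)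
  rcases hst : stat Φ ε L (lwd Φ ε r U T) (msrc Φ ε r x) s with _ | y
  · rw [Option.map_none, stat_eq_none_iff]
    intro X hXa hX
    obtain ⟨y, hy, rfl, hys⟩ := key X hX hXa
    exact (stat_eq_none_iff.1 hst) y ((hroot y hy).1 hXa)
      ((lives_th hΦ hε h hs hy).2 ⟨hX, hys⟩)
  · rw [Option.map_some, stat_eq_some_iff hΦ hε hW']
    rw [stat_eq_some_iff hΦ hε hW] at hst
    exact ⟨(hroot y hst.2.sub).2 hst.1, ((lives_th hΦ hε h hs hst.2.sub).1 hst.2).1⟩

/-- The status of a particle of `T` before the birth of its source. -/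
theorem stat_leg (hΦ : IsPotential Φ) (hε : 0 < ε) (h : Setup Φ ε L U T r t) {x : CTree} {s : ℝ}
    (hx : x ∈ outs T) (hxs : s < r x) (hxb : x.root.1 ≤ s) :
    stat Φ ε L (U ∪ T.leaves) x.root s = some (cur Φ ε x s) := by
  rw [stat_eq_some_iff hΦ hε (wd_finite h)]
  exact ⟨cur_root x s, live_cur hΦ hε (wd_finite h)
    ((alive_iff_live hΦ hε (wd_finite h)).1 (h.alive x hx)).1 hxs hxb⟩

end Vale.Agent.P119.TL
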