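import Vale.Agent.P119.TL.Part
import Vale.Agent.P119.RB.Transfer

/-!
# P119: TREE -> LINES, the real paths before the births (`helper119`)

`T` is a tree whose particles are not exposed before the births of their sources (`hR`).

* `leg_real`: until the birth of the source `x` the particle `x.root` follows the history `x`;
* `leg_no_rcon`: it is in real contact only with its partner;
* `far_birth`: the distances needed for the rebirth lemma.
-/

open MeasureTheory Filter Topology Set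
open scoped ENNReal NNReal

noncomputable section

namespace Vale.Agent.P119.TL

open KU M M.CTree RB

variable {Φ : E3 → ℝ} {ε : ℝ} {L : ℕ} {U : Set Src} {T : CTree} {r : CTree → ℝ} {t : ℝ}
  {hΦ : IsPotential Φ} {hε : 0 < ε} {W : Finset Src}

/-- Until the birth of its source, a particle of `T` follows its history. -/
theorem leg_real (h : Setup Φ ε L U T r t) (hW : (W : Set Src) = U ∪ T.leaves)
    (h0 : ∀ a ∈ W, 0 ≤ a.1)
    (hR : ∀ x ∈ outs T, ∀ s < r x, ¬(Y Φ ε L hΦ hε).Exp W x.root s)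
    {x : CTree} (hx : x ∈ outs T) {s : ℝ} (hs : s ≤ r x) :
    XR Φ ε W s x.root = path Φ ε x s := by
  have hxW : x.root ∈ W := by
    rw [← Finset.mem_coe, hW]
    exact Or.inr (outs_leaves hx x.root_mem_leaves)
  have hok := ok_out h hx
  have key : ∀ s < r x, XR Φ ε W s x.root = path Φ ε x s := by
    intro s hs
    rw [Y_real hΦ hε h0 hxW (hR x hx s hs) le_rfl]
    rcases le_or_gt x.root.1 s with h1 | h1
    · have h2 := stat_leg hΦ hε h hx hs h1
      rw [← hW] at h2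
      rw [mpos_eq h2]
      rfl
    · rw [mpos_unborn hΦ hε h1]
      unfold path
      rw [cur_unborn hΦ hε hok h1]
      rfl
  rcases hs.lt_or_eq with h1 | h1
  · exact key s h1
  · subst h1
    have c1 : Continuous fun s => XR Φ ε W s x.root := by
      obtain ⟨k₀, hk⟩ := XR_isReal hΦ hε W
      exact (hk k₀ le_rfl).cont x.root
    have c2 := continuous_path hΦ hε hok
    have t1 : Tendsto (fun s => XR Φ ε W s x.root) (𝓝[<] (r x)) (𝓝 (XR Φ ε W (r x) x.root)) :=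
      c1.continuousAt.tendsto.mono_left nhdsWithin_le_nhds
    have t2 : Tendsto (path Φ ε x) (𝓝[<] (r x)) (𝓝 (path Φ ε x (r x))) :=
      c2.continuousAt.tendsto.mono_left nhdsWithin_le_nhds
    refine tendsto_nhds_unique (t1.congr' ?_) t2
    filter_upwards [self_mem_nhdsWithin] with s hs using key s hs

/-- At the birth the particle is on the line of its history. -/
theorem leg_real_birth (h : Setup Φ ε L U T r t) (hW : (W : Set Src) = U ∪ T.leaves)
    (h0 : ∀ a ∈ W, 0 ≤ a.1)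
    (hR : ∀ x ∈ outs T, ∀ s < r x, ¬(Y Φ ε L hΦ hε).Exp W x.root s)
    {x : CTree} (hx : x ∈ outs T) : XR Φ ε W (r x) x.root = free (r x) (ln Φ ε x) := by
  have h1 := h.le_r x hx
  rw [leg_real h hW h0 hR hx le_rfl, path_of_sig_le ((sig_le_ext hΦ hε (ok_out h hx)).trans h1),
    st_after hΦ hε (ok_out h hx) h1]

/-- The only real contact of a leg is its partner. -/
theorem leg_rcon (hW : (W : Set Src) = U ∪ T.leaves) (h0 : ∀ a ∈ W, 0 ≤ a.1)
    (hR : ∀ x ∈ outs T, ∀ s < r x, ¬(Y Φ ε L hΦ hε).Exp W x.root s)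
    {x : CTree} (hx : x ∈ outs T) {s : ℝ} (hs : s < r x) {c : Src}
    (hc : rcon ε (XR Φ ε) W s x.root c) : part Φ ε L (U ∪ T.leaves) s x.root c := by
  have hn := hR x hx s hs
  have hcn : ¬(Y Φ ε L hΦ hε).Exp W c s := fun he => hn (exp_of_con he (Or.inr hc))
  obtain ⟨h1, h2, h3, h4, h5, h6, h7⟩ := hc
  rw [Y_real hΦ hε h0 h2 hn le_rfl, Y_real hΦ hε h0 h3 hcn le_rfl] at h7
  have hm := (mcon_iff_mpos hΦ hε W.finite_toSet (stat_of_not_exp hn h2 h4 h5)
    (stat_of_not_exp hcn h3 h4 h6)).2 ⟨h1, h7⟩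
  have := part_of_not_exp hn hm
  rwa [hW] at this

theorem ge_of_left {f : ℝ → ℝ} (hf : Continuous f) {c s u : ℝ} (hsu : u < s)
    (h : ∀ r, u < r → r < s → c ≤ f r) : c ≤ f s := by
  have h1 : Tendsto f (𝓝[<] s) (𝓝 (f s)) := hf.continuousAt.tendsto.mono_left nhdsWithin_le_nhds
  refine ge_of_tendsto h1 ?_
  filter_upwards [Ioo_mem_nhdsLT hsu] with r hr using h r hr.1 hr.2

theorem XR_continuous_dist (hΦ : IsPotential Φ) (hε : 0 < ε) (W : Finset Src) (a b : Src) :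
    Continuous fun s => ‖(XR Φ ε W s a).1 - (XR Φ ε W s b).1‖ := by
  obtain ⟨k₀, hk⟩ := XR_isReal hΦ hε W
  exact (hk k₀ le_rfl).continuous_dist a b

theorem far_aux (h : Setup Φ ε L U T r t) (hW : (W : Set Src) = U ∪ T.leaves)
    (h0 : ∀ a ∈ W, 0 ≤ a.1) (hrt : ∀ x ∈ outs T, r x ≤ t)
    (hR : ∀ x ∈ outs T, ∀ s < r x, ¬(Y Φ ε L hΦ hε).Exp W x.root s)
    {x : CTree} (hx : x ∈ outs T) {k : Src} (hk : k ∈ lwd Φ ε r U T)
    (hne : msrc Φ ε r x ≠ k) (hkx : k.1 ≤ r x)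
    (hm : max x.root.1 (rt Φ ε r T k).1 < r x) {s : ℝ}
    (hs : s = max x.root.1 (rt Φ ε r T k).1 ∨ (k.1 ≤ s ∧ max x.root.1 (rt Φ ε r T k).1 ≤ s))
    (hs' : s ≤ r x) :
    ε ≤ ‖(XR Φ ε W s x.root).1 - (XR Φ ε W s (rt Φ ε r T k)).1‖ := by
  set m := max x.root.1 (rt Φ ε r T k).1 with hmdef
  have hUT := disjoint_left.1 h.disj
  have hmx : msrc Φ ε r x ∈ lwd Φ ε r U T := Or.inr ⟨x, hx, rfl⟩
  have hrtx := rt_msrc h hx
  have hne' : x.root ≠ rt Φ ε r T k := fun he => hne (rt_injOn h hmx hk (hrtx.trans he))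
  have hxW : x.root ∈ W := by
    rw [← Finset.mem_coe, hW]
    exact Or.inr (outs_leaves hx x.root_mem_leaves)
  have hkW : rt Φ ε r T k ∈ W := by
    rw [← Finset.mem_coe, hW]
    exact rt_mem h hk
  -- before the birth a distance `< ε` is a collision
  have hpart : ∀ s, m ≤ s → s < r x →
      ‖(XR Φ ε W s x.root).1 - (XR Φ ε W s (rt Φ ε r T k)).1‖ < ε →
      part Φ ε L (U ∪ T.leaves) s x.root (rt Φ ε r T k) := by
    intro s h1 h2 h3
    refine leg_rcon hW h0 hR hx h2 ⟨hne', hxW, hkW, ?_, (le_max_left _ _).trans h1,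
      (le_max_right _ _).trans h1, ctc_of_lt h3⟩
    exact (h0 _ hxW).trans ((le_max_left _ _).trans h1)
  have stepA : ∀ s, m ≤ s → (s = m ∨ k.1 ≤ s) → s < r x →
      ε ≤ ‖(XR Φ ε W s x.root).1 - (XR Φ ε W s (rt Φ ε r T k)).1‖ := by
    intro s h1 h2 h3
    by_contra hcon
    have h4 := hpart s h1 h3 (not_le.1 hcon)
    rcases hk with hk | ⟨x', hx', rfl⟩
    · have h5 := part_mem hΦ hε h hx h3 h4
      rw [rt_of_mem h hk] at h5
      exact hUT hk h5
    · rw [rt_msrc h hx'] at h4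
      obtain ⟨-, h5, h6, h7⟩ := part_out hΦ hε h (h3.le.trans (hrt x hx)) hx hx' h3 h4
      rcases h2 with h2 | h2
      · have h8 : m < s := by
          rw [hmdef, rt_msrc h hx']
          exact max_lt h6 h7
        exact absurd h2 h8.ne'
      · have h8 : r x' ≤ s := h2
        linarith [h.le_r x' hx']
  rcases hs'.lt_or_eq with h1 | h1
  · rcases hs with h2 | h2
    · exact stepA s h2.ge (Or.inl h2) h1
    · exact stepA s h2.2 (Or.inr h2.1) h1
  rw [h1]
  have hc := XR_continuous_dist hΦ hε W x.root (rt Φ ε r T k)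
  rcases hkx.lt_or_eq with h2 | h2
  · refine ge_of_left hc (u := max m k.1) (max_lt hm h2) fun u hu hu' => ?_
    exact stepA u ((le_max_left _ _).trans hu.le) (Or.inr ((le_max_right _ _).trans hu.le)) hu'
  · -- both are born at the same time
    rcases hk with hk | ⟨x', hx', rfl⟩
    · rw [rt_of_mem h hk] at hmdef
      have : k.1 ≤ m := by rw [hmdef]; exact le_max_right _ _
      linarith
    have h2 : r x' = r x := h2
    by_contra hcon
    rw [not_le] at hcon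
    rw [rt_msrc h hx'] at hcon hpart hmdef hc
    have h3 : ∀ᶠ u in 𝓝[<] (r x), part Φ ε L (U ∪ T.leaves) u x.root x'.root := by
      have h4 : ∀ᶠ u in 𝓝[<] (r x), ‖(XR Φ ε W u x.root).1 - (XR Φ ε W u x'.root).1‖ < ε :=
        nhdsWithin_le_nhds (hc.continuousAt.eventually (gt_mem_nhds hcon))
      filter_upwards [h4, self_mem_nhdsWithin, Ioo_mem_nhdsLT hm] with u h5 h6 h7
      exact hpart u h7.1.le h6 h5
    have h4 : ∀ᶠ u in 𝓝[<] (r x), u < ext Φ ε x ∧ u < ext Φ ε x' := by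
      filter_upwards [h3, self_mem_nhdsWithin] with u h5 h6
      have h6 : u < r x := h6
      obtain ⟨h7, h8, -, -⟩ := part_out hΦ hε h (h6.le.trans (hrt x hx)) hx hx' h6 h5
      exact ⟨h7, h8⟩
    have e1 : ext Φ ε x = r x := by
      refine le_antisymm (h.le_r x hx) (not_lt.1 fun h5 => ?_)
      obtain ⟨u, h6, h7⟩ := (h4.and (Ioo_mem_nhdsLT h5)).exists
      exact absurd h6.1 (not_lt.2 h7.1.le)
    have e2 : ext Φ ε x' = r x := by
      refine le_antisymm (h2 ▸ h.le_r x' hx') (not_lt.1 fun h5 => ?_)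
      obtain ⟨u, h6, h7⟩ := (h4.and (Ioo_mem_nhdsLT h5)).exists
      exact absurd h6.2 (not_lt.2 h7.1.le)
    have hb : x.root.1 < r x ∧ x'.root.1 < r x := by
      rw [hmdef] at hm
      exact ⟨(le_max_left _ _).trans_lt hm, (le_max_right _ _).trans_lt hm⟩
    have hsig : ∀ z : CTree, ok Φ ε z → ext Φ ε z = r x → z.root.1 < r x → sig Φ ε z < r x := by
      intro z hz h5 h6
      cases z with
      | leaf σ => exact h6
      | node a b => exact h5 ▸ sig_lt_ext hΦ hε hz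
    have s1 := hsig x (ok_out h hx) e1 hb.1
    have s2 := hsig x' (ok_out h hx') e2 hb.2
    obtain ⟨u, ⟨h5, h6⟩, h7⟩ := ((h3.and (Ioo_mem_nhdsLT s1)).and (Ioo_mem_nhdsLT s2)).exists
    obtain ⟨p, q, hp1, hq1, -, -, l1, l2, -⟩ := part_spec hΦ hε (wd_finite h) h5
    have h8 : node p q = x := by
      rw [stat_leg' hΦ hε h hx h6.2 l1 hp1, cur_of_sig_le h6.1.le]
    have h9 : node q p = x' := by
      rw [stat_leg' hΦ hε h hx' (h2 ▸ h6.2) l2 hq1, cur_of_sig_le h7.1.le]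
    rw [leg_real h hW h0 hR hx le_rfl, ← h2, leg_real h hW h0 hR hx' le_rfl, h2,
      path_of_sig_le s1.le, path_of_sig_le s2.le] at hcon
    have hok := ok_out h hx
    subst h8 h9
    rw [st_swap hΦ p q] at hcon
    have h10 := (dist_pairLine_lt_iff hΦ hε hok.2.2.2.2.1 hok.2.2.2.1.2 _).1 hcon
    exact absurd h10.2 (not_lt.2 (le_of_eq e1))

/-- **The distances at the births.** -/
theorem far_birth (h : Setup Φ ε L U T r t) (hW : (W : Set Src) = U ∪ T.leaves)
    (h0 : ∀ a ∈ W, 0 ≤ a.1) (hrt : ∀ x ∈ outs T, r x ≤ t)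
    (hR : ∀ x ∈ outs T, ∀ s < r x, ¬(Y Φ ε L hΦ hε).Exp W x.root s)
    {j k : Src} (hj : j ∈ lwd Φ ε r U T) (hk : k ∈ lwd Φ ε r U T) (hne : j ≠ k)
    (hm : max (rt Φ ε r T j).1 (rt Φ ε r T k).1 < max j.1 k.1) {s : ℝ}
    (hs : s = max (rt Φ ε r T j).1 (rt Φ ε r T k).1 ∨
      (min j.1 k.1 ≤ s ∧ max (rt Φ ε r T j).1 (rt Φ ε r T k).1 ≤ s))
    (hs' : s ≤ max j.1 k.1) :
    ε ≤ ‖(XR Φ ε W s (rt Φ ε r T j)).1 - (XR Φ ε W s (rt Φ ε r T k)).1‖ := by
  have key : ∀ j k : Src, j ∈ lwd Φ ε r U T → k ∈ lwd Φ ε r U T → j ≠ k → k.1 ≤ j.1 →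
      max (rt Φ ε r T j).1 (rt Φ ε r T k).1 < j.1 →
      (s = max (rt Φ ε r T j).1 (rt Φ ε r T k).1 ∨
        (k.1 ≤ s ∧ max (rt Φ ε r T j).1 (rt Φ ε r T k).1 ≤ s)) → s ≤ j.1 →
      ε ≤ ‖(XR Φ ε W s (rt Φ ε r T j)).1 - (XR Φ ε W s (rt Φ ε r T k)).1‖ := by
    intro j k hj hk hne hkj hm hs hs'
    rcases hj with hj | ⟨x, hx, rfl⟩
    · rw [rt_of_mem h hj] at hm
      exact absurd hm (not_lt.2 (le_max_left _ _))
    · rw [rt_msrc h hx] at hm hs ⊢
      exact far_aux h hW h0 hrt hR hx hk hne hkj hm hs hs'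
  rcases le_total k.1 j.1 with h1 | h1
  · rw [max_eq_left h1] at hm hs'
    rw [min_eq_right h1] at hs
    exact key j k hj hk hne h1 hm hs hs'
  · rw [max_eq_right h1] at hm hs'
    rw [min_eq_left h1] at hs
    rw [norm_sub_rev]
    rw [max_comm] at hm hs
    exact key k j hk hj hne.symm h1 hm hs hs'

end Vale.Agent.P119.TL
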