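import Vale.Agent.P119.TL.Touch

/-!
# P119: TREE -> LINES, touches of the base (`helper119`)

* `Rep.touch_base`: `Touch V W s ↔ Touch V W' s` if `W'` arises from `W` by replacing trees that are
  disjoint from `V` by lines;
* `fs_agree`: two replacements agree on the common labels.
-/

open MeasureTheory Filter Topology Set
open scoped ENNReal NNReal

noncomputable section

namespace Vale.Agent.P119.TL

open KU M M.CTree RB

variable {Φ : E3 → ℝ} {ε : ℝ} {L : ℕ} {hΦ : IsPotential Φ} {hε : 0 < ε}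
  {W W' V V' W₁ W₂ V₁ V₂ : Finset Src} {f f' f₁ f₂ : Src → CTree} {t s : ℝ}

theorem stat_of_D {a : Src} (h : a ∉ (Y Φ ε L hΦ hε).D W₁ W₂ s) {u : ℝ} (hu : u ≤ s) :
    stat Φ ε L (W₁ : Set Src) a u = stat Φ ε L (W₂ : Set Src) a u :=
  congrArg (fun p : Prop × Option CTree × Prop => p.2.1) (FB.Sys.not_mem_D.1 h u hu)

/-- The substitution does not change the trees without new sources. -/
theorem sbs_eq_self {X : CTree} (h : ∀ σ ∈ X.leaves, f σ = leaf σ) : sbs f X = X := by
  rw [sbs_congr h, sbs_leaf]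

/-- A tree whose expansion is a tree of the base is a tree of the base. -/
theorem eq_of_sbs_base {B : Set Src} (hV : ∀ a ∈ B, f a = leaf a) {X : CTree}
    (hn : ∀ a ∈ X.leaves, a ∉ B → Disjoint (f a).leaves B) (h : (sbs f X).leaves ⊆ B) :
    sbs f X = X := by
  refine sbs_eq_self fun σ hσ => hV σ ?_
  by_contra hcon
  rw [sbs_leaves] at h
  have h1 : (f σ).root ∈ B := h (mem_iUnion₂.2 ⟨σ, hσ, (f σ).root_mem_leaves⟩)
  exact disjoint_left.1 (hn σ hσ hcon) (f σ).root_mem_leaves h1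

/-- **Touches of the base** are the same for `W` and for the world of lines `W'`. -/
theorem Rep.touch_base (h : Rep Φ ε L hΦ hε W W' f t)
    (h0 : ∀ a ∈ V, 0 ≤ a.1) (hV : ∀ a ∈ V, a ∈ W' ∧ f a = leaf a)
    (hn : ∀ a ∈ W', a ∉ V → Disjoint (f a).leaves (V : Set Src)) (hs : s ≤ t) :
    (Y Φ ε L hΦ hε).Touch V W s ↔ (Y Φ ε L hΦ hε).Touch V W' s := by
  constructor
  · refine (Rep.refl (t := t) h0).touch h (fun a ha ha' => ((hV a ha).2).symm) hs
  · have hVf : ∀ a ∈ (V : Set Src), f a = leaf a := fun a ha => (hV a (Finset.mem_coe.1 ha)).2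
    have hVW : ∀ a ∈ V, a ∈ W := by
      intro a ha
      have := h.sub a (hV a ha).1
      rw [(hV a ha).2] at this
      exact Finset.mem_coe.1 (this (mem_singleton a))
    rintro ⟨a, hD, he⟩
    by_cases ha : a ∈ V
    · have hra : (f a).root = a := by rw [(hV a ha).2]; rfl
      refine ⟨a, ?_, he.imp id fun he => ?_⟩
      · by_contra hcon
        have hcon' := FB.Sys.not_mem_D.1 hcon
        refine (FB.Sys.not_mem_D.2 fun u hu => ?_ : a ∉ (Y Φ ε L hΦ hε).D V W' s) hD
        have hut : u ≤ t := hu.trans hs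
        have m₁ : (a ∈ (V : Set Src)) = True := eq_true (Finset.mem_coe.2 ha)
        have m₂ : (a ∈ (W' : Set Src)) = True := eq_true (Finset.mem_coe.2 (hV a ha).1)
        have b₁ : badc Φ ε L (V : Set Src) a u = badc Φ ε L (W : Set Src) a u :=
          congrArg (fun p : Prop × Option CTree × Prop => p.2.2) (hcon' u hu)
        have b₂ : badc Φ ε L (W' : Set Src) a u = badc Φ ε L (W : Set Src) a u := by
          have := h.lines.badc a (hV a ha).1 u hut
          rw [hra] at this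
          exact propext this
        have s₁ : stat Φ ε L (V : Set Src) a u = stat Φ ε L (W : Set Src) a u :=
          congrArg (fun p : Prop × Option CTree × Prop => p.2.1) (hcon' u hu)
        have s₂ : stat Φ ε L (V : Set Src) a u = stat Φ ε L (W' : Set Src) a u := by
          rcases le_or_gt a.1 u with h1 | h1
          · have h2 := h.lines.stat a (hV a ha).1 u hut h1
            rw [hra, ← s₁] at h2
            rw [h2]
            rcases h3 : stat Φ ε L (W' : Set Src) a u with _ | Z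
            · rfl
            · rw [h3, Option.map_some] at h2
              have h4 := ((stat_eq_some_iff hΦ hε V.finite_toSet).1 h2).2.sub
              have h5 := ((stat_eq_some_iff hΦ hε W'.finite_toSet).1 h3).2.sub
              rw [Option.map_some, eq_of_sbs_base hVf
                (fun a ha hna => hn a (Finset.mem_coe.1 (h5 ha)) fun h => hna h) h4]
          · rw [stat_unborn hΦ hε h1, stat_unborn hΦ hε h1]
        change sta Φ ε L (V : Set Src) a u = sta Φ ε L (W' : Set Src) a u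
        simp only [sta]
        rw [m₁, m₂, b₁, b₂, s₂]
      · have h1 := (h.lines.exp a (hV a ha).1 s hs).1 he
        rw [hra] at h1
        exact h1
    · rcases he with he | he
      · exact absurd he.mem ha
      · have haW' := he.mem
        have h1 := (h.lines.exp a haW' s hs).1 he
        refine ⟨(f a).root, mem_D_of_not_mem fun h2 => ?_, Or.inr h1⟩
        exact disjoint_left.1 (hn a haW' ha) (f a).root_mem_leaves
          (Finset.mem_coe.2 (h2.2 h1.mem))

/-- Two replacements agree on the common labels. -/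
theorem fs_agree {U₁ U₂ : Set Src} {T₁ T₂ : CTree} {r₁ r₂ : CTree → ℝ}
    (h₁ : Setup Φ ε L U₁ T₁ r₁ t) (h₂ : Setup Φ ε L U₂ T₂ r₂ t)
    (h12 : ∀ x₁ ∈ outs T₁, ∀ x₂ ∈ outs T₂, msrc Φ ε r₁ x₁ = msrc Φ ε r₂ x₂ → x₁ = x₂)
    (n₁ : ∀ x ∈ outs T₁, msrc Φ ε r₁ x ∉ U₂) (n₂ : ∀ x ∈ outs T₂, msrc Φ ε r₂ x ∉ U₁) {a : Src}
    (ha₁ : a ∈ lwd Φ ε r₁ U₁ T₁) (ha₂ : a ∈ lwd Φ ε r₂ U₂ T₂) :
    fs Φ ε r₁ T₁ a = fs Φ ε r₂ T₂ a := by
  rcases ha₁ with ha₁ | ⟨x₁, hx₁, rfl⟩
  · rcases ha₂ with ha₂ | ⟨x₂, hx₂, rfl⟩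
    · rw [fs_of_mem h₁ ha₁, fs_of_mem h₂ ha₂]
    · exact absurd ha₁ (n₂ x₂ hx₂)
  · rcases ha₂ with ha₂ | ⟨x₂, hx₂, he⟩
    · exact absurd ha₂ (n₁ x₁ hx₁)
    · have h3 := h12 x₁ hx₁ x₂ hx₂ he.symm
      rw [fs_msrc h₁ hx₁, ← he, fs_msrc h₂ hx₂, h3]

end Vale.Agent.P119.TL
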