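import Vale.Agent.P119.TL.Without
import Vale.Agent.P119.PB.RelCases

/-!
# P119: a tree which is disturbed when other particles are removed, up to a time (`helper472`)

* `cur_next`: the next collision of the current history is strictly later;
* `NiceH W T r h`: `T` is undisturbed and not bad before the births and before `h`;
* `nice_without_h`: `nice_without` before the time `h`;
* **`core`**: the tree `T` without the tree `R`, before the time `h`.
-/

open MeasureTheory Filter Topology Set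
open scoped ENNReal NNReal

noncomputable section

namespace Vale.Agent.P119.TL

open KU M M.CTree RB IND

variable {Φ : E3 → ℝ} {ε : ℝ} {L : ℕ}

/-- The next collision of the current history. -/
theorem cur_next (x : CTree) (s : ℝ) : cur Φ ε x s = x ∨
    ∃ d, Spine (node (cur Φ ε x s) d) x ∧ s < sig Φ ε (node (cur Φ ε x s) d) := by
  induction x with
  | leaf σ => exact Or.inl rfl
  | node a b iha _ =>
    rcases le_or_gt (sig Φ ε (node a b)) s with h1 | h1
    · exact Or.inl (cur_of_sig_le h1)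
    · right
      rw [cur_of_lt_sig h1]
      rcases iha with h2 | ⟨d, h2, h3⟩
      · refine ⟨b, ?_, ?_⟩
        · rw [h2]; exact Spine.refl _
        · rw [h2]; exact h1
      · exact ⟨d, Spine.left b h2, h3⟩

/-- `T` is undisturbed and not bad in the world `W` before the births of its lines and before the
time `h`. -/
structure NiceH (Φ : E3 → ℝ) (ε : ℝ) (L : ℕ) (W : Set Src) (T : CTree) (r : CTree → ℝ) (h : ℝ) :
    Prop where
  /-- a tree of `W` -/
  sub : T.leaves ⊆ W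
  /-- possible -/
  ok : M.CTree.ok Φ ε T
  /-- depth -/
  depth : T.depth ≤ L
  /-- undisturbed -/
  free : ∀ x ∈ outs T, ∀ X s, (s < r x ∨ (s = r x ∧ r x ≠ ext Φ ε x)) → s < h →
    hit Φ ε x X s → ¬M.alive Φ ε L W X s
  /-- not bad -/
  good : ∀ x ∈ outs T, ∀ s < r x, s < h → ¬badi Φ ε L W x.root s

theorem NiceH.anti {W : Set Src} {T : CTree} {r : CTree → ℝ} {h h' : ℝ}
    (hn : NiceH Φ ε L W T r h) (hh : h' ≤ h) : NiceH Φ ε L W T r h' :=
  ⟨hn.sub, hn.ok, hn.depth, fun x hx X s hs hsh => hn.free x hx X s hs (hsh.trans_le hh),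
    fun x hx s hs hsh => hn.good x hx s hs (hsh.trans_le hh)⟩

theorem NiceT.niceH (hΦ : IsPotential Φ) (hε : 0 < ε) {W : Set Src} {T : CTree} {r : CTree → ℝ}
    (hW : W.Finite) (hn : NiceT Φ ε L W T r) (h : ℝ) : NiceH Φ ε L W T r h := by
  have hT := alive_pre (hn.alive T (Or.inl rfl))
  refine ⟨hT.sub, hT.ok, hT.depth, fun x hx X s hs _ hh => ?_, fun x hx s hs _ => hn.good x hx s hs⟩
  rcases hs with hs | ⟨rfl, hs⟩
  · exact no_hit hΦ hε hW (hn.alive x hx) hs hh
  · rcases hn.lives x hx with h1 | h1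
    · exact absurd h1 hs
    · exact h1.nohit X _ le_rfl hh

/-- The current histories are living. -/
theorem NiceH.lives_cur (hΦ : IsPotential Φ) {W : Set Src} {T x : CTree}
    {r : CTree → ℝ} {h s : ℝ} (hn : NiceH Φ ε L W T r h) (hx : x ∈ outs T) (hs : s < r x)
    (hsh : s < h) (hb : x.root.1 ≤ s) : M.lives Φ ε L W (cur Φ ε x s) s := by
  have h6 : Sub (cur Φ ε x s) x := Spine.sub (cur_spine x s)
  have hok := outs_ok hΦ hn.ok hx
  refine ⟨(h6.leaves_subset.trans (outs_leaves hx)).trans hn.sub, h6.ok hok,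
    h6.depth_le.trans ((outs_depth hx).trans hn.depth), sig_cur_le hb, fun X s' hs' hh ha => ?_⟩
  exact hn.free x hx X s' (Or.inl (hs'.trans_lt hs)) (hs'.trans_lt hsh)
    (Tr.hit_of_cur hok hs' hh) ha

/-- The hypotheses of TREE -> LINES before the time `h`. -/
theorem NiceH.tsetup (hΦ : IsPotential Φ) (hε : 0 < ε) {U : Set Src} {T : CTree}
    {r : CTree → ℝ} {h : ℝ} (hn : NiceH Φ ε L (U ∪ T.leaves) T r h) (fin : U.Finite)
    (disj : Disjoint U T.leaves) (inj : InjOn (msrc Φ ε r) (outs T))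
    (fresh : ∀ x ∈ outs T, msrc Φ ε r x ∉ U) (le_r : ∀ x ∈ outs T, ext Φ ε x ≤ r x)
    (indep : ∀ p y s, s < h → live Φ ε L (lwd Φ ε r U T) p s →
      M.alive Φ ε L (lwd Φ ε r U T) y s → Disjoint p.leaves y.leaves → hit Φ ε p y s →
        p.leaves ⊆ U ∨ y.leaves ⊆ U) : TSetup Φ ε L U T r h := by
  refine TSetup.of_not_bad hΦ hε fin disj inj fresh le_r hn.ok hn.depth
    (fun x hx X s hs hsu hh => hn.free x hx X s (Or.inl hs) hsu hh) (fun x hx hr => ?_)
    (fun x hx s hs hsu => hn.good x hx s hs hsu) indep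
  by_cases h3 : r x = ext Φ ε x
  · exact Or.inl h3
  · exact Or.inr fun X hh => hn.free x hx X _ (Or.inr ⟨rfl, h3⟩) hr hh

/-- **The tree `T` without some particles**, before the time `t`. -/
theorem nice_without_h (hΦ : IsPotential Φ) (hε : 0 < ε) {V W : Set Src} {T : CTree}
    {r : CTree → ℝ} {t : ℝ} (hW : W.Finite) (hn : NiceH Φ ε L W T r t) (fin : V.Finite)
    (disj : Disjoint V T.leaves) (inj : InjOn (msrc Φ ε r) (outs T))
    (fresh : ∀ x ∈ outs T, msrc Φ ε r x ∉ V) (le_r : ∀ x ∈ outs T, ext Φ ε x ≤ r x)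
    (indep : ∀ p y s, s < t → live Φ ε L (lwd Φ ε r V T) p s →
      M.alive Φ ε L (lwd Φ ε r V T) y s → Disjoint p.leaves y.leaves → hit Φ ε p y s →
        p.leaves ⊆ V ∨ y.leaves ⊆ V)
    {D : CTree → ℝ → Prop}
    (hD : ∀ q s, s < t → Bg Φ ε q s → live Φ ε L (lwd Φ ε r V T) q s →
      live Φ ε L W (th Φ ε r T q) s ∨ D q s) :
    NiceH Φ ε L (V ∪ T.leaves) T r t ∨ ∃ x ∈ outs T, ∃ q s, s < t ∧ x.root.1 ≤ s ∧ s ≤ r x ∧
      Bg Φ ε q s ∧ D q s ∧ Ctc ε (st Φ ε q s) (st Φ ε (cur Φ ε x s) s) := by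
  have hW' : (V ∪ T.leaves).Finite := fin.union T.leaves_finite
  have hok : ∀ x ∈ outs T, ok Φ ε x := fun x hx => outs_ok hΦ hn.ok hx
  have hdep : ∀ x ∈ outs T, x.depth ≤ L := fun x hx => (outs_depth hx).trans hn.depth
  -- the failures
  set fH : ℝ → Prop := fun s => s < t ∧ ∃ x ∈ outs T, ∃ X, (s < r x ∨ (s = r x ∧
    r x ≠ ext Φ ε x)) ∧ hit Φ ε x X s ∧ M.alive Φ ε L (V ∪ T.leaves) X s with hfH
  set fB : ℝ → Prop := fun s => s < t ∧ ∃ x ∈ outs T, s < r x ∧
    badi Φ ε L (V ∪ T.leaves) x.root s with hfB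
  by_cases hA : ∃ s, fH s ∨ fB s
  swap
  · -- no failure
    left
    exact ⟨subset_union_right, hn.ok, hn.depth, fun x hx X s hs hst hh ha =>
      hA ⟨s, Or.inl ⟨hst, x, hx, X, hs, hh, ha⟩⟩, fun x hx s hs hst hb =>
        hA ⟨s, Or.inr ⟨hst, x, hx, hs, hb⟩⟩⟩
  right
  -- the first failure
  have hcl : FB.DClosed {s | fH s ∨ fB s} := by
    have e : {s | fH s ∨ fB s} = {s | s < t} ∩ ({s | ∃ x ∈ (outs_finite T).toFinset,
        s ∈ {s | ∃ X ∈ (finite_depth hW' L).toFinset, s ∈ {s | (s < r x ∨ (s = r x ∧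
          r x ≠ ext Φ ε x)) ∧ hit Φ ε x X s ∧ M.alive Φ ε L (V ∪ T.leaves) X s}}} ∪
        {s | ∃ x ∈ (outs_finite T).toFinset,
          s ∈ {s : ℝ | s < r x} ∩ {s | badi Φ ε L (V ∪ T.leaves) x.root s}}) := by
      ext s
      constructor
      · rintro (⟨h0, x, hx, X, h1, h2, h3⟩ | ⟨h0, x, hx, h1, h2⟩)
        · exact ⟨h0, Or.inl ⟨x, (outs_finite T).mem_toFinset.2 hx, X,
            (finite_depth hW' L).mem_toFinset.2 ⟨(alive_pre h3).sub, (alive_pre h3).depth⟩,
            h1, h2, h3⟩⟩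
        · exact ⟨h0, Or.inr ⟨x, (outs_finite T).mem_toFinset.2 hx, h1, h2⟩⟩
      · rintro ⟨h0, ⟨x, hx, X, -, h1, h2, h3⟩ | ⟨x, hx, h1, h2⟩⟩
        · exact Or.inl ⟨h0, x, (outs_finite T).mem_toFinset.1 hx, X, h1, h2, h3⟩
        · exact Or.inr ⟨h0, x, (outs_finite T).mem_toFinset.1 hx, h1, h2⟩
    rw [e]
    refine (dclosed_iio _).inter (FB.DClosed.union (FB.DClosed.biUnion _ fun x hx =>
      FB.DClosed.biUnion _ fun X _ => ?_)
      (FB.DClosed.biUnion _ fun x _ => (dclosed_iio _).inter (badi_closed hΦ hε hW' _)))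
    exact dclosed_hit hΦ hε (hok x ((outs_finite T).mem_toFinset.1 hx)) _ _
  have hnn : ∀ s ∈ {s | fH s ∨ fB s}, (0 : ℝ) ≤ s := by
    rintro s (⟨-, x, hx, X, -, h1, -⟩ | ⟨-, x, hx, -, h1⟩)
    · exact hit_nonneg hΦ hε (hok x hx) h1
    · exact h1.2.1
  obtain ⟨s₀, hs₀⟩ := hA
  obtain ⟨u, -, hu, hmin⟩ := hcl.first hnn hs₀
  have hut : u < t := hu.elim (fun h => h.1) fun h => h.1
  have hminH : ∀ s < u, ¬fH s := fun s hs h => hmin s hs (Or.inl h)
  have hminB : ∀ s < u, ¬fB s := fun s hs h => hmin s hs (Or.inr h)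
  have hset : TSetup Φ ε L V T r u := by
    refine TSetup.of_not_bad hΦ hε fin disj inj fresh le_r hn.ok hn.depth
      (fun x hx X s hs hsu hh ha => hminH s hsu ⟨hsu.trans hut, x, hx, X, Or.inl hs, hh, ha⟩)
      (fun x hx hr => ?_) (fun x hx s hs hsu hb => hminB s hsu ⟨hsu.trans hut, x, hx, hs, hb⟩)
      (fun p y s hs => indep p y s (hs.trans hut))
    by_cases h3 : r x = ext Φ ε x
    · exact Or.inl h3
    · exact Or.inr fun X hh ha => hminH _ hr ⟨hr.trans hut, x, hx, X, Or.inr ⟨rfl, h3⟩, hh, ha⟩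
  -- the live trees at the time `u`
  have key : ∀ Q, live Φ ε L (V ∪ T.leaves) Q u → Bg Φ ε Q u → live Φ ε L W Q u ∨
      ∃ q, Bg Φ ε q u ∧ D q u ∧ st Φ ε q u = st Φ ε Q u := by
    intro Q hQ hb
    rcases Tr.live_classify hΦ hε hset hQ hb with ⟨q, h1, h2, h3⟩ | ⟨h1, h2, h3⟩ |
      ⟨h1, x, hx, h2, h3, h4⟩
    · rcases hD q u hut h3 h2 with h4 | h4
      · left
        rw [h1]
        exact h4
      · right
        refine ⟨q, h3, h4, ?_⟩
        rw [h1, Tr.th_st hΦ hε hset h2.sub h2.sig_le]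
    · left
      have h6 := hQ.ok
      have h7 := hQ.depth
      rw [h1] at h6 h7 ⊢
      refine ⟨?_, h6, h7, h3.le, fun X s hs hh => ?_⟩
      · rintro σ rfl
        exact hn.sub h2
      · have h8 : Q.root.1 ≤ s := hh.1
        linarith
    · left
      refine live_of_lives_before h1 fun s hs hsu => ?_
      have h7 : x.root.1 ≤ s := by
        rw [h2]
        exact (root_birth_le_sig hΦ hε hQ.ok).trans hs
      rw [h4 s hs hsu]
      exact hn.lives_cur hΦ hx (hsu.trans_le h3) (hsu.trans hut) h7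
  by_cases hH : fH u
  · -- a hit
    obtain ⟨-, x, hx, X, h1, h2, h3⟩ := hH
    have h4 := (alive_iff_live hΦ hε hW').1 h3
    rcases key X h4.1 (Bg.of_alive hΦ hε h3) with h5 | ⟨q, h5, h6, h7⟩
    · exact absurd ((alive_iff_live hΦ hε hW).2 ⟨h5, h4.2⟩) (hn.free x hx X u h1 hut h2)
    · have hur : u ≤ r x := h1.elim (fun h => h.le) fun h => h.1.le
      obtain ⟨x', hx', h8, h9, h10⟩ := exists_cur_of_hit hΦ hε hn.ok le_r hx hur h4.1.ok h2
      exact ⟨x', hx', q, u, hut, h8, h9, h5, h6, by rw [h7]; exact h10⟩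
  · -- a bad particle
    obtain ⟨-, x, hx, h1, h2⟩ := hu.resolve_left hH
    obtain ⟨-, h3, h4, h5⟩ := h2
    -- the particle is alive
    have hcur : M.lives Φ ε L (V ∪ T.leaves) (cur Φ ε x u) u := by
      have h6 : Sub (cur Φ ε x u) x := Spine.sub (cur_spine x u)
      refine ⟨(h6.leaves_subset.trans (outs_leaves hx)).trans subset_union_right,
        h6.ok (hok x hx), h6.depth_le.trans (hdep x hx), sig_cur_le h4, fun X s hs hh ha => ?_⟩
      have h7 := Tr.hit_of_cur (hok x hx) hs hh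
      rcases hs.lt_or_eq with h8 | h8
      · exact hminH s h8 ⟨h8.trans hut, x, hx, X, Or.inl (h8.trans h1), h7, ha⟩
      · exact hH (h8 ▸ ⟨h8.symm ▸ hut, x, hx, X, Or.inl (h8 ▸ h1), h7, ha⟩)
    have hst : stat Φ ε L (V ∪ T.leaves) x.root u = some (cur Φ ε x u) :=
      (stat_eq_some_iff hΦ hε hW').2 ⟨cur_root x u, hcur⟩
    rcases h5 with h5 | ⟨c, h5, h6⟩
    · rw [hst] at h5
      cases h5
    · have hne := h5.1
      obtain ⟨-, P, Q₀, h7, h8, h9, h10, h11⟩ := h5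
      have h12 : st Φ ε P u = st Φ ε (cur Φ ε x u) u :=
        st_of_live hΦ hε hW' h9 (h7.symm ▸ hst)
      rw [h12] at h11
      obtain ⟨Q, h13, h14, h15, h16⟩ : ∃ Q : CTree, Q.root = Q₀.root ∧
          live Φ ε L (V ∪ T.leaves) Q u ∧ Bg Φ ε Q u ∧ st Φ ε Q u = st Φ ε Q₀ u := by
        rcases live_sig hΦ hε hW' h10 with ⟨h13, -⟩ | ⟨T₀, h13, h14, h15, h16⟩
        · exact ⟨Q₀, rfl, h10, Or.inr h13, rfl⟩
        · exact ⟨T₀, h13, h14, Or.inl h15, h16⟩
      rcases key Q h14 h15 with h17 | ⟨q, h17, h18, h19⟩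
      · exfalso
        have hcW := hn.lives_cur hΦ hx h1 hut h4
        refine hn.good x hx u h1 hut ⟨?_, h3, h4, Or.inr ⟨c, ⟨hne, cur Φ ε x u, Q,
          cur_root x u, h13.trans h8, hcW.live, h17, ?_⟩, ?_⟩⟩
        · have := live.mem hcW.live
          rwa [cur_root] at this
        · rw [h16]
          exact h11
        · -- the same partner
          rintro ⟨Z, Z', h18, h19, y, y', e1, e2, h20⟩
          have h21 := (stat_eq_some_iff hΦ hε hW).1 h18
          have h22 : Z = cur Φ ε x u :=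
            lives_unique hΦ hε hW h21.2 hcW (h21.1.trans (cur_root x u).symm)
          refine h6 ⟨Z, Z', by rw [h22]; exact hst, ?_, y, y', e1, e2, h20⟩
          rw [stat_eq_some_iff hΦ hε hW']
          refine ⟨((stat_eq_some_iff hΦ hε hW).1 h19).1, ?_⟩
          rw [e2]
          rw [e1] at h20 h22
          rw [← h22] at hcur
          exact lives_swap hΦ hcur h20
      · refine ⟨x, hx, q, u, hut, h4, h1.le, h17, h18, ?_⟩
        rw [h19, h16]
        exact h11.symm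

/-! ### Two trees -/

/-- The packets of `N` are the lines of `T`, born at the times `r`. -/
structure LinePkR {ι : Type*} (Φ : E3 → ℝ) (ε : ℝ) (r : CTree → ℝ) (T : CTree)
    (X : ι → Finset Src) (N : Finset ι) (i : CTree → ι) : Prop where
  mem : ∀ x ∈ outs T, i x ∈ N
  surj : ∀ k ∈ N, ∃ x ∈ outs T, i x = k
  pk : ∀ x ∈ outs T, X (i x) = {msrc Φ ε r x}
  inj : InjOn i (outs T)

section pk

variable {ι : Type*} [DecidableEq ι] {V : Finset Src} {X : ι → Finset Src} {K N I : Finset ι}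
  {i : CTree → ι} {T : CTree} {r : CTree → ℝ} {t : ℝ}

theorem LinePkR.wF_eq (hL : LinePkR Φ ε r T X N i) :
    (wF V X (I ∪ N) : Set Src) = lwd Φ ε r (wF V X I : Set Src) T := by
  ext a
  unfold lwd
  rw [Finset.mem_coe, mem_wF, mem_union, Finset.mem_coe, mem_wF, mem_image]
  constructor
  · rintro (h | ⟨j, hj, h⟩)
    · exact Or.inl (Or.inl h)
    · rcases Finset.mem_union.1 hj with hj | hj
      · exact Or.inl (Or.inr ⟨j, hj, h⟩)
      · obtain ⟨x, hx, rfl⟩ := hL.surj j hj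
        rw [hL.pk x hx, Finset.mem_singleton] at h
        exact Or.inr ⟨x, hx, h.symm⟩
  · rintro ((h | ⟨j, hj, h⟩) | ⟨x, hx, rfl⟩)
    · exact Or.inl h
    · exact Or.inr ⟨j, Finset.mem_union_left _ hj, h⟩
    · refine Or.inr ⟨i x, Finset.mem_union_right _ (hL.mem x hx), ?_⟩
      rw [hL.pk x hx]
      exact Finset.mem_singleton_self _

omit [DecidableEq ι] in
theorem LinePkR.idx (hL : LinePkR Φ ε r T X N i) (hN : N ⊆ K) (hg : Good Φ ε L V X K t)
    {x : CTree} (hx : x ∈ outs T) :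
    Idx (fun J => (wF V X J : Set Src)) K (i x) (msrc Φ ε r x) := by
  refine hg.idx (hN (hL.mem x hx)) ?_
  rw [hL.pk x hx]
  exact Finset.mem_singleton_self _

/-- The hypothesis `indep` over the worlds of a good family. -/
theorem LinePkR.indep (hΦ : IsPotential Φ) (hε : 0 < ε) (hL : LinePkR Φ ε r T X N i)
    (hN : N ⊆ K) (hI : I ⊆ K) (hg : Good Φ ε L V X K t) (p y : CTree) (s : ℝ) (hs : s ≤ t)
    (hp : live Φ ε L (lwd Φ ε r (wF V X I : Set Src) T) p s)
    (hy : M.alive Φ ε L (lwd Φ ε r (wF V X I : Set Src) T) y s) (hd : Disjoint p.leaves y.leaves)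
    (hh : hit Φ ε p y s) : p.leaves ⊆ (wF V X I : Set Src) ∨ y.leaves ⊆ (wF V X I : Set Src) := by
  have : Nonempty ι := ⟨i T⟩
  exact indep_of_NI hΦ hε (Wc := fun J => (wF V X J : Set Src)) hg.cubeW hg.ni
    (Finset.union_subset hI hN) hL.wF_eq.symm i (fun x hx => hL.idx hN hg hx) hL.inj p y s hs hp hy
    hd hh

theorem LinePkR.msrc_inj (hL : LinePkR Φ ε r T X N i) (hN : N ⊆ K) (hg : Good Φ ε L V X K t) :
    InjOn (msrc Φ ε r) (outs T) := by
  have : Nonempty ι := ⟨i T⟩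
  have hu : ∅ ∪ N ⊆ K := Finset.union_subset (Finset.empty_subset _) hN
  exact inj_of_idx (Wc := fun J => (wF V X J : Set Src)) hg.cubeW hu
    (hL.wF_eq (V := V) (I := ∅)).symm i (fun x hx => hL.idx hN hg hx) hL.inj

omit [DecidableEq ι] in
theorem LinePkR.fresh (hL : LinePkR Φ ε r T X N i) (hN : N ⊆ K) (hI : I ⊆ K)
    (hIN : Disjoint I N) (hg : Good Φ ε L V X K t) :
    ∀ x ∈ outs T, msrc Φ ε r x ∉ (wF V X I : Set Src) := fun x hx =>
  fresh_of_idx (Wc := fun J => (wF V X J : Set Src)) hI Set.Subset.rfl (hL.idx hN hg hx) fun h =>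
    Finset.disjoint_left.1 hIN h (hL.mem x hx)

/-- The setup of a tree which is nice before `h`, over the worlds of a good family. -/
theorem LinePkR.tsetup (hΦ : IsPotential Φ) (hε : 0 < ε) {h : ℝ} (hL : LinePkR Φ ε r T X N i)
    (hN : N ⊆ K) (hI : I ⊆ K) (hIN : Disjoint I N) (hg : Good Φ ε L V X K t) (hh : h ≤ t)
    (hd : Disjoint (wF V X I : Set Src) T.leaves) (hr : ∀ x ∈ outs T, ext Φ ε x ≤ r x)
    (hn : NiceH Φ ε L ((wF V X I : Set Src) ∪ T.leaves) T r h) :
    TSetup Φ ε L (wF V X I : Set Src) T r h :=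
  hn.tsetup hΦ hε (Finset.finite_toSet _) hd (hL.msrc_inj hN hg) (hL.fresh hN hI hIN hg) hr
    fun p y s hs => hL.indep hΦ hε hN hI hg p y s (hs.le.trans hh)

end pk

/-- A tree of the base is nice in the world of lines of `T`. -/
theorem NiceH.lwd (hΦ : IsPotential Φ) (hε : 0 < ε) {U : Set Src} {T R : CTree}
    {r r' : CTree → ℝ} {t : ℝ} (h : TSetup Φ ε L U T r t) (hR : R.leaves ⊆ U)
    (hn : NiceH Φ ε L (U ∪ T.leaves) R r' t) : NiceH Φ ε L (lwd Φ ε r U T) R r' t := by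
  have hW := Tr.lwd_finite h
  refine ⟨hR.trans subset_union_left, hn.ok, hn.depth, fun x hx X s hs hst hh ha => ?_,
    fun x hx s hs hst hb => ?_⟩
  · have hxok := outs_ok hΦ hn.ok hx
    have hxU : x.leaves ⊆ U := (outs_leaves hx).trans hR
    obtain ⟨X₁, s₁, h1, -, h2, h3, h4⟩ := exists_first_hit hΦ hε hW hxok hh ha
    have h5 := Tr.hit_th hΦ hε h (h1.trans_lt hst) (hxU.trans subset_union_left) hxok
      ((outs_depth hx).trans hn.depth) h4 h3 h2
    rw [Tr.th_of_subset h hxU] at h5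
    have h6 := ((Tr.alive_th hΦ hε h (h1.trans hst.le) (alive_pre h3).sub).1 h3).1
    refine hn.free x hx _ s₁ ?_ (h1.trans_lt hst) h5 h6
    rcases h1.lt_or_eq with h7 | h7
    · exact Or.inl (hs.elim (fun h => h7.trans h) fun h => h.1 ▸ h7)
    · rw [h7]; exact hs
  · have h1 := Tr.badi_of_lwd hΦ hε h hst hb
    rw [Tr.rt_of_mem h (hR (outs_leaves hx x.root_mem_leaves))] at h1
    exact hn.good x hx s hs hst h1

/-- **The tree `T` without the tree `R`, before the time `h`.** -/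
theorem core (hΦ : IsPotential Φ) (hε : 0 < ε) {ι : Type*} [DecidableEq ι] {V : Finset Src}
    {X : ι → Finset Src} {K NR NT : Finset ι} {iR iT : CTree → ι} {R T : CTree} {r : CTree → ℝ}
    {h t : ℝ} (hg : Good Φ ε L V X K t) (hh : h ≤ t) (hLR : LinePkR Φ ε (ext Φ ε) R X NR iR)
    (hLT : LinePkR Φ ε r T X NT iT) (hNR : NR ⊆ K) (hNT : NT ⊆ K) (hdis : Disjoint NR NT)
    (hdR : Disjoint (V : Set Src) R.leaves) (hdT : Disjoint ((V : Set Src) ∪ R.leaves) T.leaves)
    (fresh : ∀ x ∈ outs T, msrc Φ ε r x ∉ R.leaves) (le_r : ∀ x ∈ outs T, ext Φ ε x ≤ r x)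
    (indep : ∀ p y s, s < h → live Φ ε L (TL.lwd Φ ε r ((V : Set Src) ∪ R.leaves) T) p s →
      M.alive Φ ε L (TL.lwd Φ ε r ((V : Set Src) ∪ R.leaves) T) y s → Disjoint p.leaves y.leaves →
        hit Φ ε p y s → p.leaves ⊆ (V : Set Src) ∪ R.leaves ∨ y.leaves ⊆ (V : Set Src) ∪ R.leaves)
    (hnT : NiceH Φ ε L ((V : Set Src) ∪ R.leaves ∪ T.leaves) T r h)
    (hnR : NiceH Φ ε L ((V : Set Src) ∪ R.leaves ∪ T.leaves) R (ext Φ ε) h) :
    NiceH Φ ε L ((V : Set Src) ∪ T.leaves) T r h ∨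
      ∃ z ∈ outs R, ∃ x ∈ outs T, ∃ y s, s < h ∧ x.root.1 ≤ s ∧ s ≤ r x ∧ Bg Φ ε y s ∧
        live Φ ε L (V : Set Src) y s ∧
        ¬live Φ ε L (insert (msrc Φ ε (ext Φ ε) z) (V : Set Src)) y s ∧
        Ctc ε (st Φ ε y s) (st Φ ε (cur Φ ε x s) s) := by
  have hne : Nonempty ι := ⟨iT T⟩
  have e0 : (wF V X ∅ : Set Src) = (V : Set Src) := by rw [wF_empty]
  have h0 := Finset.empty_subset K
  have hinj := hLT.msrc_inj hNT hg
  have hfrV : ∀ x ∈ outs T, msrc Φ ε r x ∉ (V : Set Src) := by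
    have := hLT.fresh hNT h0 (Finset.disjoint_empty_left _) hg
    rwa [e0] at this
  have hfin : ((V : Set Src) ∪ R.leaves).Finite := V.finite_toSet.union R.leaves_finite
  -- `T` over `U = V ∪ R.leaves`
  have sT : TSetup Φ ε L ((V : Set Src) ∪ R.leaves) T r h :=
    hnT.tsetup hΦ hε hfin hdT hinj (fun x hx hm => hm.elim (hfrV x hx) (fresh x hx)) le_r indep
  -- `R` in the world of lines of `T`
  have nR := hnR.lwd hΦ hε sT subset_union_right
  have e1 : TL.lwd Φ ε r ((V : Set Src) ∪ R.leaves) T = (wF V X NT : Set Src) ∪ R.leaves := by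
    have h1 := hLT.wF_eq (V := V) (I := ∅)
    rw [Finset.empty_union, e0] at h1
    rw [h1]
    unfold TL.lwd
    rw [union_right_comm]
  have hdR' : Disjoint (wF V X NT : Set Src) R.leaves := by
    have h1 := hLT.wF_eq (V := V) (I := ∅)
    rw [Finset.empty_union, e0] at h1
    rw [h1]
    refine disjoint_union_left.2 ⟨hdR, disjoint_left.2 ?_⟩
    rintro a ⟨x, hx, rfl⟩ ha
    exact fresh x hx ha
  rw [e1] at nR
  have sR : TSetup Φ ε L (wF V X NT : Set Src) R (ext Φ ε) h :=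
    hLR.tsetup hΦ hε hNR hNT hdis.symm hg hh hdR' (fun _ _ => le_rfl) nR
  have hu : NT ∪ NR ⊆ K := Finset.union_subset hNT hNR
  have hlT : (wF V X NT : Set Src) = TL.lwd Φ ε r (V : Set Src) T := by
    have h1 := hLT.wF_eq (V := V) (I := ∅)
    rwa [Finset.empty_union, e0] at h1
  have htrans : ∀ q s, s < h → q.leaves ⊆ (wF V X NT : Set Src) →
      live Φ ε L (wF V X (NT ∪ NR) : Set Src) q s →
      live Φ ε L ((V : Set Src) ∪ R.leaves ∪ T.leaves) (th Φ ε r T q) s := by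
    intro q s hs hq hql
    rw [hLR.wF_eq] at hql
    have h1 := ((Tr.live_th hΦ hε sR hs hql.sub).1 hql).1
    rw [Tr.th_of_subset sR hq, ← e1] at h1
    exact ((Tr.live_th hΦ hε sT hs h1.sub).1 h1).1
  have hindV : ∀ p y s, s < h → live Φ ε L (TL.lwd Φ ε r (V : Set Src) T) p s →
      M.alive Φ ε L (TL.lwd Φ ε r (V : Set Src) T) y s → Disjoint p.leaves y.leaves →
        hit Φ ε p y s → p.leaves ⊆ (V : Set Src) ∨ y.leaves ⊆ (V : Set Src) := by
    intro p y s hs
    have := hLT.indep hΦ hε hNT h0 hg p y s (hs.le.trans hh)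
    rwa [e0] at this
  have hDD : ∀ q s, s < h → Bg Φ ε q s → live Φ ε L (TL.lwd Φ ε r (V : Set Src) T) q s →
      live Φ ε L ((V : Set Src) ∪ R.leaves ∪ T.leaves) (th Φ ε r T q) s ∨
        (live Φ ε L (V : Set Src) q s ∧ ∃ z ∈ outs R,
          ¬live Φ ε L (insert (msrc Φ ε (ext Φ ε) z) (V : Set Src)) q s) := by
    intro q s hs _ hq
    rw [← hlT] at hq
    obtain ⟨i, hi⟩ := hg.live_dep hΦ hε q (hs.le.trans hh)
    by_cases hiN : i ∈ NR
    · have hiT : i ∉ NT := Finset.disjoint_left.1 hdis hiN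
      by_cases hlive : live Φ ε L (wF V X (NT ∪ NR) : Set Src) q s
      · exact Or.inl (htrans q s hs hq.sub hlive)
      · right
        have h1 : live Φ ε L (wF V X ∅ : Set Src) q s := (hi _ _ hNT
          (Finset.empty_subset _) (iff_of_false hiT (Finset.notMem_empty _))).1 hq
        have h2 : ¬live Φ ε L (wF V X {i} : Set Src) q s := fun h' => hlive
          ((hi {i} _ (Finset.singleton_subset_iff.2 (hNR hiN)) hu
            (iff_of_true (Finset.mem_singleton_self _) (Finset.mem_union_right _ hiN))).1 h')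
        rw [e0] at h1
        obtain ⟨z, hz, rfl⟩ := hLR.surj i hiN
        have e2 : (wF V X {iR z} : Set Src) = insert (msrc Φ ε (ext Φ ε) z) (V : Set Src) := by
          rw [coe_wF_singleton, hLR.pk z hz, Finset.coe_singleton, union_singleton]
        rw [e2] at h2
        exact ⟨h1, z, hz, h2⟩
    · left
      refine htrans q s hs hq.sub ((hi _ _ hNT hu ?_).1 hq)
      rw [Finset.mem_union]
      tauto
  rcases nice_without_h hΦ hε (V := (V : Set Src)) (hfin.union T.leaves_finite) hnT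
    V.finite_toSet (hdT.mono_left subset_union_left) hinj hfrV le_r hindV hDD with h1 | h1
  · exact Or.inl h1
  · right
    obtain ⟨x, hx, q, s, h1, h2, h3, h4, ⟨h5, z, hz, h6⟩, h7⟩ := h1
    exact ⟨z, hz, x, hx, q, s, h1, h2, h3, h4, h5, h6, h7⟩

end Vale.Agent.P119.TL
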