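import Vale.Agent.P119.TL.Real

/-!
# P119: TREE -> LINES, the exposed particles (`helper119`)

The correspondence of the exposed particles follows from the correspondences of the contacts, of the
bad particles and of the real paths.
-/

open MeasureTheory Filter Topology Set
open scoped ENNReal NNReal

noncomputable section

namespace Vale.Agent.P119.TL

open KU M M.CTree RB

variable {Φ : E3 → ℝ} {ε : ℝ} {L : ℕ} {U : Set Src} {T : CTree} {r : CTree → ℝ} {t : ℝ}
  {hΦ : IsPotential Φ} {hε : 0 < ε} {W W' : Finset Src} {a b : Src} {s : ℝ}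

theorem con_iff (hΦ : IsPotential Φ) (hε : 0 < ε) (h : Setup Φ ε L U T r t) (hW : (W : Set Src) = U ∪ T.leaves)
    (hW' : (W' : Set Src) = lwd Φ ε r U T)
    (hp : ∀ a ∈ W', ∀ s, a.1 ≤ s → XR Φ ε W' s a = XR Φ ε W s (rt Φ ε r T a))
    (hm : mcon Φ ε L (lwd Φ ε r U T) s a b ↔
      mcon Φ ε L (U ∪ T.leaves) s (rt Φ ε r T a) (rt Φ ε r T b))
    (ha : a ∈ W') (hb : b ∈ W') (has : a.1 ≤ s) (hbs : b.1 ≤ s) :
    con Φ ε L (XR Φ ε) W' s a b ↔ con Φ ε L (XR Φ ε) W s (rt Φ ε r T a) (rt Φ ε r T b) := by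
  unfold con
  rw [hW, hW', hm]
  refine or_congr Iff.rfl ?_
  have ha' : a ∈ lwd Φ ε r U T := by rw [← hW']; exact Finset.mem_coe.2 ha
  have hb' : b ∈ lwd Φ ε r U T := by rw [← hW']; exact Finset.mem_coe.2 hb
  have h1 : rt Φ ε r T a ∈ W := by rw [← Finset.mem_coe, hW]; exact rt_mem h ha'
  have h2 : rt Φ ε r T b ∈ W := by rw [← Finset.mem_coe, hW]; exact rt_mem h hb'
  unfold rcon
  rw [hp a ha s has, hp b hb s hbs]
  constructor
  · rintro ⟨h3, -, -, h4, -, -, h5⟩
    exact ⟨fun he => h3 (rt_injOn h ha' hb' he), h1, h2, h4,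
      (rt_birth_le hΦ hε h ha').trans has, (rt_birth_le hΦ hε h hb').trans hbs, h5⟩
  · rintro ⟨h3, -, -, h4, -, -, h5⟩
    exact ⟨fun he => h3 (by rw [he]), ha, hb, h4, has, hbs, h5⟩

/-- **TREE -> LINES for the exposed particles**, abstract form. -/
theorem exp_iff_aux (h : Setup Φ ε L U T r t) (hW : (W : Set Src) = U ∪ T.leaves)
    (hW' : (W' : Set Src) = lwd Φ ε r U T)
    (hR : ∀ x ∈ outs T, ∀ s < r x, ¬(Y Φ ε L hΦ hε).Exp W x.root s)
    (hc : ∀ a ∈ W', ∀ b ∈ W', ∀ s ≤ t, a.1 ≤ s → b.1 ≤ s →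
      (con Φ ε L (XR Φ ε) W' s a b ↔ con Φ ε L (XR Φ ε) W s (rt Φ ε r T a) (rt Φ ε r T b)))
    (hb : ∀ a ∈ W', ∀ s ≤ t, (badc Φ ε L (lwd Φ ε r U T) a s ↔
      badc Φ ε L (U ∪ T.leaves) (rt Φ ε r T a) s))
    (ha : a ∈ W') (hs : s ≤ t) :
    (Y Φ ε L hΦ hε).Exp W' a s ↔ (Y Φ ε L hΦ hε).Exp W (rt Φ ε r T a) s := by
  constructor
  · intro he
    induction he with
    | @bad a u s hus hba =>
      refine .bad hus ?_
      have h1 : badc Φ ε L (W' : Set Src) a u := hba
      rw [hW'] at h1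
      have h2 := (hb a ha u (hus.trans hs)).1 h1
      rw [← hW] at h2
      exact h2
    | @con a b u s hus hbe hcon ih =>
      have h1 : con Φ ε L (XR Φ ε) W' u a b := hcon
      have hb' := h1.mem.2
      have h2 := h1.birth_le hΦ hε
      exact .con hus (ih hb' (hus.trans hs)) ((hc a ha b hb' u (hus.trans hs) h2.1 h2.2).1 h1)
  · intro he
    have key : ∀ c s, (Y Φ ε L hΦ hε).Exp W c s → s ≤ t → ∀ a ∈ W', rt Φ ε r T a = c →
        (Y Φ ε L hΦ hε).Exp W' a s := by
      intro c s he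
      -- exposed particles are born in the world of lines
      have hborn : ∀ a ∈ W', ∀ u, (Y Φ ε L hΦ hε).Exp W (rt Φ ε r T a) u → a.1 ≤ u := by
        intro a ha u hu
        have ha' : a ∈ lwd Φ ε r U T := by rw [← hW']; exact Finset.mem_coe.2 ha
        rcases ha' with ha' | ⟨x, hx, rfl⟩
        · rw [rt_of_mem h ha'] at hu
          exact exp_birth_le hu
        · rw [rt_msrc h hx] at hu
          by_contra hcon
          exact hR x hx u (not_le.1 hcon) hu
      induction he with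
      | @bad c u s hus hba =>
        rintro hs a ha rfl
        refine .bad hus ?_
        have h1 : badc Φ ε L (W : Set Src) (rt Φ ε r T a) u := hba
        rw [hW] at h1
        have h2 := (hb a ha u (hus.trans hs)).2 h1
        rw [← hW'] at h2
        exact h2
      | @con c b u s hus hbe hcon ih =>
        rintro hs a ha rfl
        have h1 : con Φ ε L (XR Φ ε) W u (rt Φ ε r T a) b := hcon
        have hbW := h1.mem.2
        obtain ⟨b', hb1, rfl⟩ : ∃ b' ∈ W', rt Φ ε r T b' = b := by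
          rw [← Finset.mem_coe, hW] at hbW
          obtain ⟨b', h2, h3⟩ := rt_surjOn h hbW
          rw [← hW'] at h2
          exact ⟨b', Finset.mem_coe.1 h2, h3⟩
        have h2 : (Y Φ ε L hΦ hε).Exp W (rt Φ ε r T a) u := exp_of_con hbe h1
        exact .con hus (ih (hus.trans hs) b' hb1 rfl)
          ((hc a ha b' hb1 u (hus.trans hs) (hborn a ha u h2) (hborn b' hb1 u hbe)).2 h1)
    exact key _ s he hs a ha rfl

end Vale.Agent.P119.TL
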