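import Vale.Agent.P119.TL.Equiv
import Vale.Agent.P119.RB.Sys
import Vale.Agent.P119.RB.New

/-!
# P119: TREE -> LINES, the legs are not exposed (`helper119`)

* `sub_live`: the subtrees of an alive tree are live until the end of their last collision;
* `out_alive`: the histories of the other particles are alive at their exits;
* `leg_lemma`: if the root of `T` is not exposed before its exit then no particle of `T` is exposed
  before its exit;
* `rho T ρ`: the births `ext x`, and `ρ` for the root.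
-/

open MeasureTheory Filter Topology Set
open scoped ENNReal NNReal

noncomputable section

namespace Vale.Agent.P119.TL

open KU M M.CTree RB

variable {Φ : E3 → ℝ} {ε : ℝ} {L : ℕ} {W : Set Src} {T : CTree} {u : ℝ}

theorem sub_live (hΦ : IsPotential Φ) (hε : 0 < ε) (hW : W.Finite) (hT : alive Φ ε L W T u)
    {Q : CTree} (hQ : Sub Q T) : live Φ ε L W Q (ext Φ ε Q) := by
  have hok := (alive_pre hT).ok
  refine ⟨hQ.leaves_subset.trans (alive_pre hT).sub, hQ.ok hok,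
    hQ.depth_le.trans (alive_pre hT).depth, sig_le_ext hΦ hε (hQ.ok hok), fun y s hs hy => ?_⟩
  exact no_hit hΦ hε hW hT ((hs.trans_le (hQ.ext_le hΦ hε hok)).trans_le (alive_pre hT).ext_le)
    (hit_of_sub hΦ hε hQ hok hs.le hy)

theorem out_alive (hΦ : IsPotential Φ) (hε : 0 < ε) (hW : W.Finite) (hT : alive Φ ε L W T u)
    {x : CTree} (hx : x ∈ exs T) : alive Φ ε L W x (ext Φ ε x) := by
  obtain ⟨a, b, h, rfl⟩ := exs_iff.1 hx
  rw [alive_iff_live hΦ hε hW]
  have he : ext Φ ε (node b a) = ext Φ ε (node a b) := ext_swap hΦ a b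
  refine ⟨?_, le_rfl⟩
  rw [he]
  exact live_swap hΦ (sub_live hΦ hε hW hT h) le_rfl

section exposure

variable {X : Finset Src → ℝ → Src → Ph} {hΦ : IsPotential Φ} {hε : 0 < ε} {hX : IsFam X}
  {V : Finset Src}

theorem exp_partner {x y : CTree} {s : ℝ} (h : live Φ ε L (V : Set Src) (node x y) s)
    (h2 : s < ext Φ ε (node x y)) (he : (sys Φ ε L X hΦ hε hX).Exp V y.root s) :
    (sys Φ ε L X hΦ hε hX).Exp V x.root s :=
  exp_of_con he (Or.inl (mcon_partner hΦ hε h h2))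

theorem exp_root_of_sub {Q : CTree} (hQ : Sub Q T) (hok : ok Φ ε T)
    (hl : ∀ Q, Sub Q T → live Φ ε L (V : Set Src) Q (ext Φ ε Q)) {s : ℝ} (hs : s < ext Φ ε Q)
    (he : (sys Φ ε L X hΦ hε hX).Exp V Q.root s) :
    ∃ s', s ≤ s' ∧ s' < ext Φ ε T ∧ (sys Φ ε L X hΦ hε hX).Exp V T.root s' := by
  induction hQ with
  | refl => exact ⟨s, le_rfl, hs, he⟩
  | @left a b h ih =>
    obtain ⟨s', h1, h2, h3⟩ := ih hok.1 fun Q hQ => hl Q (Sub.left b hQ)
    refine ⟨s', h1, ?_, h3⟩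
    exact (h2.trans hok.2.2.2.2.2.1).trans (sig_lt_ext hΦ hε hok)
  | @right b a h ih =>
    obtain ⟨s', h1, h2, h3⟩ := ih hok.2.1 fun Q hQ => hl Q (Sub.right a hQ)
    have h4 : s' < sig Φ ε (node a b) := h2.trans hok.2.2.2.2.2.2
    have h5 := sig_lt_ext hΦ hε hok
    refine ⟨sig Φ ε (node a b), h1.trans h4.le, h5, ?_⟩
    exact exp_partner (x := a) ((hl _ (Sub.refl _)).anti h5.le le_rfl) h5 (h3.mono h4.le)

/-- **Leg lemma.** -/
theorem leg_lemma (hT : alive Φ ε L (V : Set Src) T u)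
    (h : ∀ s < ext Φ ε T, ¬(sys Φ ε L X hΦ hε hX).Exp V T.root s) {x : CTree} (hx : x ∈ exs T)
    {s : ℝ} (hs : s < ext Φ ε x) : ¬(sys Φ ε L X hΦ hε hX).Exp V x.root s := by
  obtain ⟨a, b, hab, rfl⟩ := exs_iff.1 hx
  intro he
  have e1 : ext Φ ε (node b a) = ext Φ ε (node a b) := ext_swap hΦ a b
  rw [e1] at hs
  have hl := sub_live hΦ hε V.finite_toSet hT hab
  have h1 := sig_lt_ext hΦ hε hl.ok
  have h2 : max s (sig Φ ε (node a b)) < ext Φ ε (node a b) := max_lt hs h1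
  have h3 : (sys Φ ε L X hΦ hε hX).Exp V a.root (max s (sig Φ ε (node a b))) :=
    exp_partner (hl.anti h2.le (le_max_right _ _)) h2 (he.mono (le_max_left _ _))
  obtain ⟨s', -, h5, h6⟩ := exp_root_of_sub (Q := node a b) hab (alive_pre hT).ok
    (fun Q hQ => sub_live hΦ hε V.finite_toSet hT hQ) h2 h3
  exact h s' h5 h6

end exposure

/-! ### The births -/

open Classical in
/-- The births: at the exits, except for the root, which is born at the time `ρ`. -/
def rho (Φ : E3 → ℝ) (ε : ℝ) (T : CTree) (ρ : ℝ) (x : CTree) : ℝ :=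
  if x = T then ρ else ext Φ ε x

theorem rho_self (ρ : ℝ) : rho Φ ε T ρ T = ρ := by
  classical
  unfold rho
  rw [if_pos rfl]

theorem rho_exs (hT : ok Φ ε T) {x : CTree} (hx : x ∈ exs T) (ρ : ℝ) :
    rho Φ ε T ρ x = ext Φ ε x := by
  classical
  unfold rho
  rw [if_neg]
  rintro rfl
  exact exs_root_ne hT hx rfl

theorem le_rho (hT : ok Φ ε T) {ρ : ℝ} (hρ : ext Φ ε T ≤ ρ) {x : CTree} (hx : x ∈ outs T) :
    ext Φ ε x ≤ rho Φ ε T ρ x := by
  rcases hx with rfl | hx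
  · rw [rho_self]; exact hρ
  · rw [rho_exs hT hx]

theorem out_ext_le (hΦ : IsPotential Φ) (hε : 0 < ε) (hT : ok Φ ε T) {x : CTree}
    (hx : x ∈ outs T) : ext Φ ε x ≤ ext Φ ε T := by
  rcases hx with rfl | hx
  · exact le_rfl
  · obtain ⟨a, b, hab, rfl⟩ := exs_iff.1 hx
    rw [ext_swap hΦ a b]
    exact hab.ext_le hΦ hε hT

theorem rho_le (hΦ : IsPotential Φ) (hε : 0 < ε) (hT : ok Φ ε T) {ρ : ℝ}
    (hρ : ext Φ ε T ≤ ρ) {x : CTree} (hx : x ∈ outs T) : rho Φ ε T ρ x ≤ ρ := by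
  rcases hx with rfl | hx
  · rw [rho_self]
  · rw [rho_exs hT hx]
    exact (out_ext_le hΦ hε hT (Or.inr hx)).trans hρ

end Vale.Agent.P119.TL
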