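import Vale.Agent.P119.TL.Expo
import Vale.Agent.P119.TL.Bad

/-!
# P119: TREE -> LINES, the full correspondence (`helper119`)

`Lines`: the worlds `W = U ∪ T.leaves` and `W' = lwd Φ ε r U T` (world of lines) have the same real
paths, contacts, bad particles and exposed particles, with the labels `rt : W' → W`.
-/

open MeasureTheory Filter Topology Set
open scoped ENNReal NNReal

noncomputable section

namespace Vale.Agent.P119.TL

open KU M M.CTree RB

/-- The correspondence of the world `W` with the world `W'` in which some particles are born later;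
`g` sends the labels of `W'` to those of `W` and `θ` the trees of `W'` to those of `W`. -/
structure Lines (Φ : E3 → ℝ) (ε : ℝ) (L : ℕ) (hΦ : IsPotential Φ) (hε : 0 < ε)
    (W W' : Finset Src) (g : Src → Src) (θ : CTree → CTree) (t : ℝ) : Prop where
  /-- the labels -/
  bij : BijOn g W' W
  /-- births -/
  birth : ∀ a ∈ W', (g a).1 ≤ a.1
  /-- nobody is exposed before the new birth -/
  unexp : ∀ a ∈ W', ∀ s ≤ t, (Y Φ ε L hΦ hε).Exp W (g a) s → a.1 ≤ s
  /-- real paths -/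
  pos : ∀ a ∈ W', ∀ s, a.1 ≤ s → XR Φ ε W' s a = XR Φ ε W s (g a)
  /-- statuses -/
  stat : ∀ a ∈ W', ∀ s ≤ t, a.1 ≤ s → stat Φ ε L (W : Set Src) (g a) s =
    (stat Φ ε L (W' : Set Src) a s).map θ
  /-- contacts in the M-world -/
  mcon : ∀ a ∈ W', ∀ b ∈ W', ∀ s ≤ t, a.1 ≤ s → b.1 ≤ s →
    (mcon Φ ε L (W' : Set Src) s a b ↔ mcon Φ ε L (W : Set Src) s (g a) (g b))
  /-- colliding pairs -/
  part : ∀ a ∈ W', ∀ b ∈ W', ∀ s ≤ t, a.1 ≤ s → b.1 ≤ s →
    (part Φ ε L (W' : Set Src) s a b ↔ part Φ ε L (W : Set Src) s (g a) (g b))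
  /-- contacts -/
  con : ∀ a ∈ W', ∀ b ∈ W', ∀ s ≤ t, a.1 ≤ s → b.1 ≤ s →
    (con Φ ε L (XR Φ ε) W' s a b ↔ con Φ ε L (XR Φ ε) W s (g a) (g b))
  /-- bad particles -/
  badc : ∀ a ∈ W', ∀ s ≤ t, (badc Φ ε L (W' : Set Src) a s ↔ badc Φ ε L (W : Set Src) (g a) s)
  /-- exposed particles -/
  exp : ∀ a ∈ W', ∀ s ≤ t, ((Y Φ ε L hΦ hε).Exp W' a s ↔ (Y Φ ε L hΦ hε).Exp W (g a) s)

variable {Φ : E3 → ℝ} {ε : ℝ} {L : ℕ} {U : Set Src} {T : CTree} {r : CTree → ℝ} {t : ℝ}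
  {hΦ : IsPotential Φ} {hε : 0 < ε} {W W' W'' : Finset Src}

/-- **TREE -> LINES**, given the correspondence of the real paths. -/
theorem lines_of_pos (h : Setup Φ ε L U T r t) (hW : (W : Set Src) = U ∪ T.leaves)
    (hW' : (W' : Set Src) = lwd Φ ε r U T)
    (hR : ∀ x ∈ outs T, ∀ s < r x, ¬(Y Φ ε L hΦ hε).Exp W x.root s)
    (hp : ∀ a ∈ W', ∀ s, a.1 ≤ s → XR Φ ε W' s a = XR Φ ε W s (rt Φ ε r T a)) :
    Lines Φ ε L hΦ hε W W' (rt Φ ε r T) (th Φ ε r T) t := by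
  have hmem : ∀ a ∈ W', a ∈ lwd Φ ε r U T := fun a ha => by
    rw [← hW']; exact Finset.mem_coe.2 ha
  have hb : ∀ x ∈ outs T, ∀ u < r x, u ≤ t → ¬badi Φ ε L (U ∪ T.leaves) x.root u := by
    intro x hx u hu _ hbad
    rw [← hW] at hbad
    exact hR x hx u hu (exp_of_badi hbad le_rfl)
  have hm : ∀ a ∈ W', ∀ b ∈ W', ∀ s ≤ t, a.1 ≤ s → b.1 ≤ s →
      (mcon Φ ε L (lwd Φ ε r U T) s a b ↔
        mcon Φ ε L (U ∪ T.leaves) s (rt Φ ε r T a) (rt Φ ε r T b)) :=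
    fun a ha b hb s hs has hbs => mcon_th hΦ hε h hs (hmem a ha) (hmem b hb) has hbs
  have hbad : ∀ a ∈ W', ∀ s ≤ t, (badc Φ ε L (lwd Φ ε r U T) a s ↔
      badc Φ ε L (U ∪ T.leaves) (rt Φ ε r T a) s) := fun a ha s hs =>
    badc_th hΦ hε h hb hs (hmem a ha)
  have hc : ∀ a ∈ W', ∀ b ∈ W', ∀ s ≤ t, a.1 ≤ s → b.1 ≤ s →
      (con Φ ε L (XR Φ ε) W' s a b ↔
        con Φ ε L (XR Φ ε) W s (rt Φ ε r T a) (rt Φ ε r T b)) :=
    fun a ha b hb s hs has hbs =>
      con_iff hΦ hε h hW hW' hp (hm a ha b hb s hs has hbs) ha hb has hbs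
  refine ⟨?_, fun a ha => rt_birth_le hΦ hε h (hmem a ha), fun a ha s _ he => ?_, hp,
    fun a ha s hs has => ?_, fun a ha b hb s hs has hbs => ?_, fun a ha b hb s hs has hbs => ?_,
    hc, fun a ha s hs => ?_, fun a ha s hs => exp_iff_aux h hW hW' hR hc hbad ha hs⟩
  · rw [hW, hW']
    exact rt_bijOn h
  · rcases hmem a ha with ha' | ⟨x, hx, rfl⟩
    · rw [rt_of_mem h ha'] at he
      exact exp_birth_le he
    · rw [rt_msrc h hx] at he
      by_contra hcon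
      exact hR x hx s (not_le.1 hcon) he
  · rw [hW, hW']
    exact stat_rt hΦ hε h hs (hmem a ha) has
  · rw [hW, hW']
    exact hm a ha b hb s hs has hbs
  · rw [hW, hW']
    exact part_th hΦ hε h hs (hmem a ha) (hmem b hb) has hbs
  · rw [hW, hW']
    exact hbad a ha s hs

/-- Composition. -/
theorem Lines.trans {g g' : Src → Src} {θ θ' : CTree → CTree}
    (h : Lines Φ ε L hΦ hε W W' g θ t) (h' : Lines Φ ε L hΦ hε W' W'' g' θ' t) :
    Lines Φ ε L hΦ hε W W'' (g ∘ g') (θ ∘ θ') t := by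
  have hg : ∀ a ∈ W'', g' a ∈ W' := fun a ha => h'.bij.mapsTo (Finset.mem_coe.2 ha)
  refine ⟨h.bij.comp h'.bij, fun a ha => (h.birth _ (hg a ha)).trans (h'.birth a ha),
    fun a ha s hs he => ?_, fun a ha s has => ?_, fun a ha s hs has => ?_,
    fun a ha b hb s hs has hbs => ?_, fun a ha b hb s hs has hbs => ?_,
    fun a ha b hb s hs has hbs => ?_, fun a ha s hs => ?_, fun a ha s hs => ?_⟩
  · exact h'.unexp a ha s hs ((h.exp _ (hg a ha) s hs).2 he)
  · rw [h'.pos a ha s has, h.pos _ (hg a ha) s ((h'.birth a ha).trans has)]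
    rfl
  · rw [Function.comp_apply, h.stat _ (hg a ha) s hs ((h'.birth a ha).trans has), h'.stat a ha s hs has,
      Option.map_map]
  · rw [h'.mcon a ha b hb s hs has hbs, h.mcon _ (hg a ha) _ (hg b hb) s hs
      ((h'.birth a ha).trans has) ((h'.birth b hb).trans hbs)]
    rfl
  · rw [h'.part a ha b hb s hs has hbs, h.part _ (hg a ha) _ (hg b hb) s hs
      ((h'.birth a ha).trans has) ((h'.birth b hb).trans hbs)]
    rfl
  · rw [h'.con a ha b hb s hs has hbs, h.con _ (hg a ha) _ (hg b hb) s hs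
      ((h'.birth a ha).trans has) ((h'.birth b hb).trans hbs)]
    rfl
  · rw [h'.badc a ha s hs, h.badc _ (hg a ha) s hs]
    rfl
  · rw [h'.exp a ha s hs, h.exp _ (hg a ha) s hs]
    rfl

end Vale.Agent.P119.TL
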