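import Vale.Agent.P119.TL.Base
import Vale.Agent.P119.M.Good

/-!
# P119: TREE -> LINES for the statuses only (`helper472`)

`MRep W V f t`: as `Rep`, without the real dynamics (no exposed particles): the source `a` of the
world `V` stands for the history `f a` of the world `W`.

* `MRep.of_setup`: the particles of `T` are not bad before the births of the lines;
* `MRep.refl`, `MRep.trans`, `MRep.congr`, `Rep.mrep`;
* `MRep.sta_eq`: equal statuses stand for equal statuses;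
* **`MRep.sta_dep`**, **`MRep.cube`**: if the worlds `W' J` form a cube and `W' J` stands for `W J`
  (with the same histories) then the worlds `W J` form a cube.
-/

open MeasureTheory Filter Topology Set
open scoped ENNReal NNReal

noncomputable section

namespace Vale.Agent.P119.TL

open KU M M.CTree RB

variable {Φ : E3 → ℝ} {ε : ℝ} {L : ℕ}

/-- The source `a` of the world `V` stands for the history `f a` of the world `W`. -/
structure MRep (Φ : E3 → ℝ) (ε : ℝ) (L : ℕ) (W V : Finset Src) (f : Src → CTree) (t : ℝ) :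
    Prop where
  /-- the labels -/
  bij : BijOn (fun a => (f a).root) V W
  /-- births -/
  birth : ∀ a ∈ V, (f a).root.1 ≤ a.1
  /-- statuses -/
  stat : ∀ a ∈ V, ∀ s ≤ t, a.1 ≤ s → M.stat Φ ε L (W : Set Src) (f a).root s =
    (M.stat Φ ε L (V : Set Src) a s).map (sbs f)
  /-- bad particles -/
  badc : ∀ a ∈ V, ∀ s ≤ t,
    (RB.badc Φ ε L (V : Set Src) a s ↔ RB.badc Φ ε L (W : Set Src) (f a).root s)
  /-- the histories are histories in `W` -/
  sub : ∀ a ∈ V, (f a).leaves ⊆ W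
  /-- they are possible -/
  ok : ∀ a ∈ V, ok Φ ε (f a)
  /-- lines -/
  ln : ∀ a ∈ V, ln Φ ε (f a) = a.2.1
  /-- the sources are born after the exits -/
  ext_le : ∀ a ∈ V, ext Φ ε (f a) ≤ a.1
  /-- new sources are born before `t` -/
  birth_le : ∀ a ∈ V, f a = leaf a ∨ a.1 ≤ t
  /-- before the birth the particle follows the history -/
  leg : ∀ a ∈ V, ∀ s ≤ t, s < a.1 → (f a).root.1 ≤ s →
    M.stat Φ ε L (W : Set Src) (f a).root s = some (cur Φ ε (f a) s)

variable {hΦ : IsPotential Φ} {hε : 0 < ε} {W V V' W₁ W₂ V₁ V₂ : Finset Src}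
  {f f' f₁ f₂ : Src → CTree} {t s : ℝ}

theorem Rep.mrep (h : Rep Φ ε L hΦ hε W V f t) : MRep Φ ε L W V f t :=
  ⟨h.lines.bij, h.lines.birth, h.lines.stat, h.lines.badc, h.sub, h.ok, h.ln, h.ext_le,
    h.birth_le, h.leg⟩

theorem MRep.refl (hW : ∀ a ∈ W, 0 ≤ a.1) : MRep Φ ε L W W leaf t := by
  have e : sbs leaf = id := funext sbs_leaf
  refine ⟨?_, fun a _ => le_rfl, fun a _ s _ _ => ?_, fun a _ s _ => Iff.rfl,
    fun a ha => ?_, fun a ha => hW a ha, fun a _ => rfl, fun a _ => le_rfl, fun a _ => Or.inl rfl,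
    fun a _ s _ hs h => absurd h (not_le.2 hs)⟩
  · exact bijOn_id _
  · rw [e, Option.map_id]
    rfl
  · rintro σ hσ
    have : σ = a := hσ
    rw [this]
    exact Finset.mem_coe.2 ha

/-- Only the histories of the labels of `V` matter. -/
theorem MRep.congr (hΦ : IsPotential Φ) (hε : 0 < ε) (h : MRep Φ ε L W V f t)
    (hf : ∀ a ∈ V, f a = f' a) : MRep Φ ε L W V f' t := by
  refine ⟨h.bij.congr fun a ha => ?_, fun a ha => hf a ha ▸ h.birth a ha, fun a ha s hs has => ?_,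
    fun a ha s hs => ?_, fun a ha => hf a ha ▸ h.sub a ha, fun a ha => hf a ha ▸ h.ok a ha,
    fun a ha => hf a ha ▸ h.ln a ha, fun a ha => hf a ha ▸ h.ext_le a ha,
    fun a ha => hf a ha ▸ h.birth_le a ha, fun a ha => hf a ha ▸ h.leg a ha⟩
  · change (f a).root = (f' a).root
    rw [hf a (Finset.mem_coe.1 ha)]
  · rw [← hf a ha, h.stat a ha s hs has]
    rcases h4 : M.stat Φ ε L (V : Set Src) a s with _ | Z
    · rfl
    · have h5 := ((stat_eq_some_iff hΦ hε V.finite_toSet).1 h4).2.sub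
      rw [Option.map_some, Option.map_some, sbs_congr fun σ hσ =>
        hf σ (Finset.mem_coe.1 (h5 hσ))]
  · rw [← hf a ha]
    exact h.badc a ha s hs

theorem MRep.mem (h : MRep Φ ε L W V f t) {a : Src} (ha : a ∈ V) : (f a).root ∈ W :=
  Finset.mem_coe.1 (h.bij.mapsTo (Finset.mem_coe.2 ha))

theorem MRep.trans (hΦ : IsPotential Φ) (hε : 0 < ε) (h : MRep Φ ε L W V f t)
    (h' : MRep Φ ε L V V' f' t) : MRep Φ ε L W V' (fun a => sbs f (f' a)) t := by
  have hmem : ∀ a ∈ V', (f' a).root ∈ V := fun a ha =>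
    Finset.mem_coe.1 (h'.sub a ha (f' a).root_mem_leaves)
  have hln : ∀ a ∈ V', ∀ σ ∈ (f' a).leaves, CTree.ln Φ ε (f σ) = σ.2.1 := fun a ha σ hσ =>
    h.ln σ (Finset.mem_coe.1 (h'.sub a ha hσ))
  have e1 : (fun a => (sbs f (f' a)).root) = (fun a => (f a).root) ∘ fun a => (f' a).root := by
    funext a
    exact sbs_root (f' a)
  have e2 : sbs (fun a => sbs f (f' a)) = sbs f ∘ sbs f' := by
    funext X
    exact (sbs_sbs f f' X).symm
  have hok : ∀ a ∈ V', M.CTree.ok Φ ε (sbs f (f' a)) := by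
    intro a ha
    rcases hX : f' a with σ | ⟨x, y⟩
    · refine h.ok σ (Finset.mem_coe.1 (h'.sub a ha ?_))
      rw [hX]
      exact mem_singleton σ
    · have h1 : a.1 ≤ t := by
        rcases h'.birth_le a ha with h1 | h1
        · rw [hX] at h1
          cases h1
        · exact h1
      have h2 := h'.ok a ha
      have h3 := h'.ext_le a ha
      have h4 := h'.leg a ha (sig Φ ε (f' a))
      rw [hX] at h2 h3 h4
      have h5 := sig_lt_ext hΦ hε h2
      have h6 := root_birth_le_sig hΦ hε h2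
      have h7 := h4 ((h5.le.trans h3).trans h1) (h5.trans_le h3) h6
      rw [cur_of_sig_le le_rfl] at h7
      have hr : (node x y).root ∈ V := hX ▸ hmem a ha
      have h8 := h.stat _ hr _ ((h5.le.trans h3).trans h1) h6
      rw [h7, Option.map_some] at h8
      exact ((stat_eq_some_iff hΦ hε W.finite_toSet).1 h8).2.ok
  refine ⟨?_, fun a ha => ?_, fun a ha s hs has => ?_, fun a ha s hs => ?_, fun a ha => ?_, hok,
    fun a ha => ?_, fun a ha => ?_, fun a ha => ?_, fun a ha s hst hs hb => ?_⟩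
  · rw [e1]
    exact h.bij.comp h'.bij
  · rw [sbs_root]
    exact (h.birth _ (hmem a ha)).trans (h'.birth a ha)
  · rw [sbs_root, e2, h.stat _ (hmem a ha) s hs ((h'.birth a ha).trans has), h'.stat a ha s hs has,
      Option.map_map]
  · rw [sbs_root, h'.badc a ha s hs, h.badc _ (hmem a ha) s hs]
  · rw [sbs_leaves]
    exact iUnion₂_subset fun σ hσ => h.sub σ (Finset.mem_coe.1 (h'.sub a ha hσ))
  · rw [sbs_ln (hln a ha)]
    exact h'.ln a ha
  · have h2 := h'.ext_le a ha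
    have h3 := hln a ha
    have h4 := h'.sub a ha
    rcases hX : f' a with σ | ⟨x, y⟩
    · rw [hX] at h2 h4
      exact (h.ext_le σ (Finset.mem_coe.1 (h4 (mem_singleton σ)))).trans h2
    · rw [hX] at h2 h3
      rw [ext_sbs h3]
      exact h2
  · rcases h'.birth_le a ha with h1 | h1
    · rw [h1]
      have h2 : a ∈ V := by
        have := hmem a ha
        rw [h1] at this
        exact this
      rcases h.birth_le a h2 with h3 | h3
      · exact Or.inl h3
      · exact Or.inr h3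
    · exact Or.inr h1
  · have hb' := hmem a ha
    have hr : (sbs f (f' a)).root = (f (f' a).root).root := sbs_root _
    rw [hr] at hb ⊢
    rcases le_or_gt (f' a).root.1 s with h1 | h1
    · rw [h.stat _ hb' s hst h1, h'.leg a ha s hst hs h1, Option.map_some,
        cur_sbs hΦ hε (hln a ha) (fun σ hσ => h.ok σ (Finset.mem_coe.1 (h'.sub a ha hσ)))
          (fun σ hσ => h.ext_le σ (Finset.mem_coe.1 (h'.sub a ha hσ))) h1]
    · rw [h.leg _ hb' s hst h1 hb, cur_sbs_of_lt hΦ hε (hln a ha) (h'.ok a ha) h1]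

/-- A single tree whose particles are not bad before the births of the lines. -/
theorem MRep.of_setup (hΦ : IsPotential Φ) (hε : 0 < ε) {U : Set Src} {T : CTree}
    {r : CTree → ℝ} (h : Setup Φ ε L U T r t)
    (hW : (W : Set Src) = U ∪ T.leaves) (hV : (V : Set Src) = lwd Φ ε r U T)
    (h0 : ∀ a ∈ W, 0 ≤ a.1) (hrt : ∀ x ∈ outs T, r x ≤ t)
    (hb : ∀ x ∈ outs T, ∀ u < r x, ¬badi Φ ε L (W : Set Src) x.root u) :
    MRep Φ ε L W V (fs Φ ε r T) t := by
  have hmem : ∀ a ∈ V, a ∈ lwd Φ ε r U T := fun a ha => by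
    rw [← hV]; exact Finset.mem_coe.2 ha
  have hb' : ∀ x ∈ outs T, ∀ u < r x, u ≤ t → ¬badi Φ ε L (U ∪ T.leaves) x.root u := by
    intro x hx u hu _
    rw [← hW]
    exact hb x hx u hu
  refine ⟨?_, fun a ha => rt_birth_le hΦ hε h (hmem a ha), fun a ha s hs has => ?_,
    fun a ha s hs => ?_, fun a ha => ?_, fun a ha => ?_,
    fun a ha => fs_ln h (hmem a ha), fun a ha => fs_ext h (hmem a ha), fun a ha => ?_,
    fun a ha s hst hs hb => ?_⟩
  · rw [hW, hV]
    exact rt_bijOn h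
  · rw [hW, hV]
    exact stat_rt hΦ hε h hs (hmem a ha) has
  · rw [hW, hV]
    exact badc_th hΦ hε h hb' hs (hmem a ha)
  · rw [hW]
    refine (fs_leaves h (hmem a ha)).trans ?_
    rintro σ (⟨-, hσ⟩ | hσ)
    · exact Or.inl hσ
    · exact Or.inr hσ
  · rcases hmem a ha with ha' | ⟨x, hx, rfl⟩
    · rw [fs_of_mem h ha']
      refine h0 a ?_
      rw [← Finset.mem_coe, hW]
      exact Or.inl ha'
    · rw [fs_msrc h hx]
      exact ok_out h hx
  · rcases hmem a ha with ha' | ⟨x, hx, rfl⟩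
    · exact Or.inl (fs_of_mem h ha')
    · exact Or.inr (hrt x hx)
  · rcases hmem a ha with ha' | ⟨x, hx, rfl⟩
    · rw [fs_of_mem h ha'] at hb
      exact absurd hb (not_le.2 hs)
    · rw [fs_msrc h hx] at hb ⊢
      rw [hW]
      exact stat_leg hΦ hε h hx hs hb

/-! ### Equal statuses -/

theorem MRep.sta_eq (hΦ : IsPotential Φ) (hε : 0 < ε) (h₁ : MRep Φ ε L W₁ V₁ f₁ t)
    (h₂ : MRep Φ ε L W₂ V₂ f₂ t)
    (hf : ∀ a ∈ V₁, a ∈ V₂ → f₁ a = f₂ a) {a : Src} (ha₁ : a ∈ V₁) (ha₂ : a ∈ V₂) (hs : s ≤ t)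
    (h : sta Φ ε L (V₁ : Set Src) a s = sta Φ ε L (V₂ : Set Src) a s) :
    sta Φ ε L (W₁ : Set Src) (f₁ a).root s = sta Φ ε L (W₂ : Set Src) (f₂ a).root s := by
  have hst : M.stat Φ ε L (V₁ : Set Src) a s = M.stat Φ ε L (V₂ : Set Src) a s :=
    congrArg (fun p => p.2.1) h
  have hbc : RB.badc Φ ε L (V₁ : Set Src) a s = RB.badc Φ ε L (V₂ : Set Src) a s :=
    congrArg (fun p => p.2.2) h
  have m₁ : ((f₁ a).root ∈ (W₁ : Set Src)) = True := eq_true (h₁.bij.mapsTo (Finset.mem_coe.2 ha₁))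
  have m₂ : ((f₂ a).root ∈ (W₂ : Set Src)) = True := eq_true (h₂.bij.mapsTo (Finset.mem_coe.2 ha₂))
  have b₁ : RB.badc Φ ε L (W₁ : Set Src) (f₁ a).root s = RB.badc Φ ε L (V₁ : Set Src) a s :=
    propext (h₁.badc a ha₁ s hs).symm
  have b₂ : RB.badc Φ ε L (W₂ : Set Src) (f₂ a).root s = RB.badc Φ ε L (V₂ : Set Src) a s :=
    propext (h₂.badc a ha₂ s hs).symm
  have key : M.stat Φ ε L (W₁ : Set Src) (f₁ a).root s =
      M.stat Φ ε L (W₂ : Set Src) (f₂ a).root s := by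
    rcases le_or_gt a.1 s with h3 | h3
    · rw [h₁.stat a ha₁ s hs h3, h₂.stat a ha₂ s hs h3, hst]
      rcases h4 : M.stat Φ ε L (V₂ : Set Src) a s with _ | Z
      · rfl
      · rw [h4] at hst
        have h5 := ((stat_eq_some_iff hΦ hε V₁.finite_toSet).1 hst).2.sub
        have h6 := ((stat_eq_some_iff hΦ hε V₂.finite_toSet).1 h4).2.sub
        rw [Option.map_some, Option.map_some, sbs_congr fun σ hσ =>
          hf σ (Finset.mem_coe.1 (h5 hσ)) (Finset.mem_coe.1 (h6 hσ))]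
    · rw [← hf a ha₁ ha₂]
      rcases le_or_gt (f₁ a).root.1 s with h4 | h4
      · rw [h₁.leg a ha₁ s hs h3 h4]
        have h5 := h₂.leg a ha₂ s hs h3
        rw [← hf a ha₁ ha₂] at h5
        rw [h5 h4]
      · rw [stat_unborn hΦ hε h4, stat_unborn hΦ hε h4]
  simp only [sta]
  rw [m₁, m₂, b₁, b₂, hbc, key]

/-- The full status of a label outside the world. -/
theorem sta_not_mem {X : Set Src} {a : Src} (h : a ∉ X) :
    sta Φ ε L X a s = (False, none, False) := by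
  unfold sta
  rw [stat_not_mem h, Prod.mk.injEq, Prod.mk.injEq]
  refine ⟨eq_false h, rfl, eq_false ?_⟩
  rintro ⟨u, -, h1⟩
  exact h h1.1

/-! ### Cubes -/

section cube

variable {ι : Type*} {K : Finset ι} {Wr Wl : Finset ι → Finset Src}

/-- **A cube of worlds of lines is a cube of real worlds.** -/
theorem MRep.sta_dep (hΦ : IsPotential Φ) (hε : 0 < ε)
    (hR : ∀ J, J ⊆ K → MRep Φ ε L (Wr J) (Wl J) f t) (hm : ∀ J, J ⊆ K → Wl J ⊆ Wl K)
    (h : ∀ a, ∃ i, ∀ J J', J ⊆ K → J' ⊆ K → (i ∈ J ↔ i ∈ J') →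
      ∀ s ≤ t, sta Φ ε L (Wl J : Set Src) a s = sta Φ ε L (Wl J' : Set Src) a s) (a : Src) :
    ∃ i, ∀ J J', J ⊆ K → J' ⊆ K → (i ∈ J ↔ i ∈ J') →
      ∀ s ≤ t, sta Φ ε L (Wr J : Set Src) a s = sta Φ ε L (Wr J' : Set Src) a s := by
  have hK := hR K (Finset.Subset.refl K)
  by_cases ha : ∃ a' ∈ Wl K, (f a').root = a
  · obtain ⟨a', ha', rfl⟩ := ha
    obtain ⟨i, hi⟩ := h a'
    have hmem : ∀ J, J ⊆ K → a' ∉ Wl J → (f a').root ∉ (Wr J : Set Src) := by
      intro J hJ h1 h2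
      obtain ⟨b, hb, he⟩ := (hR J hJ).bij.surjOn h2
      have h3 := hK.bij.injOn (Finset.mem_coe.2 (hm J hJ (Finset.mem_coe.1 hb)))
        (Finset.mem_coe.2 ha') he
      exact h1 (h3 ▸ Finset.mem_coe.1 hb)
    refine ⟨i, fun J J' hJ hJ' hij s hs => ?_⟩
    have h1 := hi J J' hJ hJ' hij s hs
    have h2 : a' ∈ Wl J ↔ a' ∈ Wl J' := by
      have h3 : (a' ∈ (Wl J : Set Src)) = (a' ∈ (Wl J' : Set Src)) :=
        congrArg (fun p : Prop × Option CTree × Prop => p.1) h1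
      exact Iff.of_eq h3
    by_cases h3 : a' ∈ Wl J
    · exact (hR J hJ).sta_eq hΦ hε (hR J' hJ') (fun _ _ _ => rfl) h3 (h2.1 h3) hs h1
    · rw [sta_not_mem (hmem J hJ h3), sta_not_mem (hmem J' hJ' fun h4 => h3 (h2.2 h4))]
  · obtain ⟨i, -⟩ := h a
    have hn : ∀ J, J ⊆ K → a ∉ (Wr J : Set Src) := by
      intro J hJ h1
      obtain ⟨b, hb, he⟩ := (hR J hJ).bij.surjOn h1
      exact ha ⟨b, hm J hJ (Finset.mem_coe.1 hb), he⟩
    refine ⟨i, fun J J' hJ hJ' _ s _ => ?_⟩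
    rw [sta_not_mem (hn J hJ), sta_not_mem (hn J' hJ')]

/-- Several packets together. -/
theorem sta_dep_merge {κ : Type*} [DecidableEq ι] [Nonempty κ] {K' : Finset κ} {m : κ → Finset ι}
    (hm : ∀ k ∈ K', m k ⊆ K) (hd : ∀ k ∈ K', ∀ l ∈ K', k ≠ l → Disjoint (m k) (m l))
    {S : Finset ι → ℝ → Prop × Option CTree × Prop}
    (h : ∃ i, ∀ J J', J ⊆ K → J' ⊆ K → (i ∈ J ↔ i ∈ J') → ∀ s ≤ t, S J s = S J' s) :
    ∃ k, ∀ J J', J ⊆ K' → J' ⊆ K' → (k ∈ J ↔ k ∈ J') → ∀ s ≤ t,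
      S (J.biUnion m) s = S (J'.biUnion m) s := by
  obtain ⟨i, hi⟩ := h
  have hs : ∀ J, J ⊆ K' → J.biUnion m ⊆ K := fun J hJ =>
    Finset.biUnion_subset.2 fun k hk => hm k (hJ hk)
  by_cases hk : ∃ k ∈ K', i ∈ m k
  · obtain ⟨k, hk, hik⟩ := hk
    refine ⟨k, fun J J' hJ hJ' hkJ => hi _ _ (hs J hJ) (hs J' hJ') ?_⟩
    have h1 : ∀ J, J ⊆ K' → (i ∈ J.biUnion m ↔ k ∈ J) := by
      intro J hJ
      rw [Finset.mem_biUnion]
      refine ⟨?_, fun h => ⟨k, h, hik⟩⟩
      rintro ⟨l, hl, hil⟩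
      by_cases hkl : k = l
      · rw [hkl]; exact hl
      · exact absurd hil (Finset.disjoint_left.1 (hd k hk l (hJ hl) hkl) hik)
    rw [h1 J hJ, h1 J' hJ', hkJ]
  · refine ⟨Classical.arbitrary κ, fun J J' hJ hJ' _ => hi _ _ (hs J hJ) (hs J' hJ') ?_⟩
    have h1 : ∀ J, J ⊆ K' → i ∉ J.biUnion m := by
      intro J hJ h
      obtain ⟨l, hl, hil⟩ := Finset.mem_biUnion.1 h
      exact hk ⟨l, hJ hl, hil⟩
    exact iff_of_false (h1 J hJ) (h1 J' hJ')

end cube

end Vale.Agent.P119.TL
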