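import Vale.Agent.P119.TL.Bad
import Vale.Agent.P119.TL.Leg

/-!
# P119: TREE -> LINES up to the first disturbance (`helper119`)

`TSetup`: as `Setup`, but the tree `T` is only known to be undisturbed before the time `t`, which may
be earlier than its exit.  The names are those of `TL/Setup`, in the namespace `TL.Tr`.
-/

open MeasureTheory Filter Topology Set
open scoped ENNReal NNReal

noncomputable section

namespace Vale.Agent.P119.TL

open KU M M.CTree

/-- The hypotheses of TREE -> LINES before the time `t`; the tree `T` is possible and has no hit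
before `t`. -/
structure TSetup (Φ : E3 → ℝ) (ε : ℝ) (L : ℕ) (U : Set Src) (T : CTree) (r : CTree → ℝ) (t : ℝ) :
    Prop where
  /-- the environment is finite -/
  fin : U.Finite
  /-- the environment does not contain the particles of `T` -/
  disj : Disjoint U T.leaves
  /-- the new sources are distinct -/
  inj : InjOn (msrc Φ ε r) (outs T)
  /-- the new sources are not in the environment -/
  fresh : ∀ x ∈ outs T, msrc Φ ε r x ∉ U
  /-- the sources are born after the exits -/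
  le_r : ∀ x ∈ outs T, ext Φ ε x ≤ r x
  /-- the histories are possible -/
  okO : ∀ x ∈ outs T, ok Φ ε x
  /-- the depth -/
  depth : T.depth ≤ L
  /-- the histories are not disturbed before `t` and before the births -/
  free : ∀ x ∈ outs T, ∀ X s, s < r x → s < t → hit Φ ε x X s → ¬alive Φ ε L (U ∪ T.leaves) X s
  /-- if the birth is later than the exit then there is no hit at the birth -/
  lives : ∀ x ∈ outs T, r x < t → r x = ext Φ ε x ∨
    ∀ X, hit Φ ε x X (r x) → ¬alive Φ ε L (U ∪ T.leaves) X (r x)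
  /-- the legs of `T` make no contact with a colliding pair -/
  legs : ∀ X p s, s < t → Leg r T X s → M.alive Φ ε L (U ∪ T.leaves) X s →
    live Φ ε L (U ∪ T.leaves) p s → s < ext Φ ε p → ¬hit Φ ε p X s
  /-- in the world of lines there is no contact between two descendants of `T` -/
  indep : ∀ p y s, s < t → live Φ ε L (lwd Φ ε r U T) p s → M.alive Φ ε L (lwd Φ ε r U T) y s →
    Disjoint p.leaves y.leaves → hit Φ ε p y s → p.leaves ⊆ U ∨ y.leaves ⊆ U

namespace Tr

variable {Φ : E3 → ℝ} {ε : ℝ} {L : ℕ} {U : Set Src} {T : CTree} {r : CTree → ℝ} {t : ℝ}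

theorem lwd_finite (h : TSetup Φ ε L U T r t) : (lwd Φ ε r U T).Finite :=
  h.fin.union ((outs_finite T).image _)

theorem wd_finite (h : TSetup Φ ε L U T r t) : (U ∪ T.leaves).Finite :=
  h.fin.union T.leaves_finite

theorem fs_msrc (h : TSetup Φ ε L U T r t) {x : CTree} (hx : x ∈ outs T) :
    fs Φ ε r T (msrc Φ ε r x) = x := by
  classical
  have h1 : ∃ x' ∈ outs T, msrc Φ ε r x' = msrc Φ ε r x := ⟨x, hx, rfl⟩
  unfold fs
  rw [dif_pos h1]
  exact h.inj h1.choose_spec.1 hx h1.choose_spec.2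

theorem fs_of_mem (h : TSetup Φ ε L U T r t) {σ : Src} (hσ : σ ∈ U) : fs Φ ε r T σ = leaf σ := by
  classical
  unfold fs
  rw [dif_neg]
  rintro ⟨x, hx, rfl⟩
  exact h.fresh x hx hσ

theorem ok_T (h : TSetup Φ ε L U T r t) : ok Φ ε T := h.okO T (Or.inl rfl)

theorem ok_out (h : TSetup Φ ε L U T r t) {x : CTree} (hx : x ∈ outs T) : ok Φ ε x :=
  h.okO x hx

theorem fs_ln (h : TSetup Φ ε L U T r t) {σ : Src} (hσ : σ ∈ lwd Φ ε r U T) :
    ln Φ ε (fs Φ ε r T σ) = σ.2.1 := by
  rcases hσ with hσ | ⟨x, hx, rfl⟩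
  · rw [fs_of_mem h hσ]; rfl
  · rw [fs_msrc h hx]; rfl

theorem fs_depth (h : TSetup Φ ε L U T r t) {σ : Src} (hσ : σ ∈ lwd Φ ε r U T) :
    (fs Φ ε r T σ).depth = σ.2.2 := by
  rcases hσ with hσ | ⟨x, hx, rfl⟩
  · rw [fs_of_mem h hσ]; rfl
  · rw [fs_msrc h hx]; rfl

theorem fs_ext (h : TSetup Φ ε L U T r t) {σ : Src} (hσ : σ ∈ lwd Φ ε r U T) :
    ext Φ ε (fs Φ ε r T σ) ≤ σ.1 := by
  rcases hσ with hσ | ⟨x, hx, rfl⟩
  · rw [fs_of_mem h hσ]; exact le_rfl
  · rw [fs_msrc h hx]; exact h.le_r x hx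

theorem fs_leaves (h : TSetup Φ ε L U T r t) {σ : Src} (hσ : σ ∈ lwd Φ ε r U T) :
    (fs Φ ε r T σ).leaves ⊆ ({σ} ∩ U) ∪ T.leaves := by
  rcases hσ with hσ | ⟨x, hx, rfl⟩
  · rw [fs_of_mem h hσ]
    intro τ hτ
    have : τ = σ := hτ
    exact Or.inl ⟨this, this ▸ hσ⟩
  · rw [fs_msrc h hx]
    exact (outs_leaves hx).trans subset_union_right

variable {y : CTree}

theorem th_leaf_msrc (h : TSetup Φ ε L U T r t) {x : CTree} (hx : x ∈ outs T) :
    th Φ ε r T (leaf (msrc Φ ε r x)) = x := fs_msrc h hx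

theorem th_ln (h : TSetup Φ ε L U T r t) (hy : y.leaves ⊆ lwd Φ ε r U T) :
    ln Φ ε (th Φ ε r T y) = ln Φ ε y := sbs_ln fun _ hσ => fs_ln h (hy hσ)

theorem th_depth (h : TSetup Φ ε L U T r t) (hy : y.leaves ⊆ lwd Φ ε r U T) :
    (th Φ ε r T y).depth = y.depth := sbs_depth fun _ hσ => fs_depth h (hy hσ)

theorem th_of_subset (h : TSetup Φ ε L U T r t) (hy : y.leaves ⊆ U) : th Φ ε r T y = y := by
  have h1 : sbs (fs Φ ε r T) y = sbs leaf y := sbs_congr fun σ hσ => fs_of_mem h (hy hσ)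
  exact h1.trans (sbs_leaf y)

theorem th_sig (h : TSetup Φ ε L U T r t) {a b : CTree} (hy : (node a b).leaves ⊆ lwd Φ ε r U T) :
    sig Φ ε (th Φ ε r T (node a b)) = sig Φ ε (node a b) := by
  change hitT ε (ln Φ ε (th Φ ε r T a), ln Φ ε (th Φ ε r T b)) = hitT ε (ln Φ ε a, ln Φ ε b)
  rw [th_ln h (leaves_left hy), th_ln h (leaves_right hy)]

theorem th_ext (h : TSetup Φ ε L U T r t) {a b : CTree} (hy : (node a b).leaves ⊆ lwd Φ ε r U T) :
    ext Φ ε (th Φ ε r T (node a b)) = ext Φ ε (node a b) := by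
  change sepT Φ ε (ln Φ ε (th Φ ε r T a), ln Φ ε (th Φ ε r T b)) = sepT Φ ε (ln Φ ε a, ln Φ ε b)
  rw [th_ln h (leaves_left hy), th_ln h (leaves_right hy)]

theorem th_st_node (h : TSetup Φ ε L U T r t) {a b : CTree}
    (hy : (node a b).leaves ⊆ lwd Φ ε r U T) (s : ℝ) :
    st Φ ε (th Φ ε r T (node a b)) s = st Φ ε (node a b) s := by
  change (pairLine Φ ε (ln Φ ε (th Φ ε r T a), ln Φ ε (th Φ ε r T b)) s).1 =
    (pairLine Φ ε (ln Φ ε a, ln Φ ε b) s).1
  rw [th_ln h (leaves_left hy), th_ln h (leaves_right hy)]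

theorem th_ext_le (h : TSetup Φ ε L U T r t) (hy : y.leaves ⊆ lwd Φ ε r U T) :
    ext Φ ε (th Φ ε r T y) ≤ ext Φ ε y := by
  cases y with
  | leaf σ => exact fs_ext h (hy (mem_singleton σ))
  | node a b => exact (th_ext h hy).le

theorem th_sig_le (hΦ : IsPotential Φ) (hε : 0 < ε) (h : TSetup Φ ε L U T r t)
    (hy : y.leaves ⊆ lwd Φ ε r U T) : sig Φ ε (th Φ ε r T y) ≤ sig Φ ε y := by
  cases y with
  | leaf σ =>
    refine le_trans ?_ (fs_ext h (hy (mem_singleton σ)))
    change sig Φ ε (fs Φ ε r T σ) ≤ _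
    rcases hy (mem_singleton σ) with hσ | ⟨x, hx, rfl⟩
    · rw [fs_of_mem h hσ]; exact le_rfl
    · rw [fs_msrc h hx]; exact sig_le_ext hΦ hε (ok_out h hx)
  | node a b => exact (th_sig h hy).le

theorem th_leaves (h : TSetup Φ ε L U T r t) (hy : y.leaves ⊆ lwd Φ ε r U T) :
    (th Φ ε r T y).leaves ⊆ (y.leaves ∩ U) ∪ T.leaves := by
  intro τ hτ
  have h1 : (th Φ ε r T y).leaves = ⋃ σ ∈ y.leaves, (fs Φ ε r T σ).leaves := sbs_leaves y
  rw [h1] at hτ
  obtain ⟨σ, hσ, hτ⟩ := mem_iUnion₂.1 hτ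
  rcases fs_leaves h (hy hσ) hτ with h2 | h2
  · have : τ = σ := h2.1
    exact Or.inl ⟨this ▸ hσ, h2.2⟩
  · exact Or.inr h2

theorem th_leaves_wd (h : TSetup Φ ε L U T r t) (hy : y.leaves ⊆ lwd Φ ε r U T) :
    (th Φ ε r T y).leaves ⊆ U ∪ T.leaves :=
  (th_leaves h hy).trans (union_subset_union_left _ inter_subset_right)

/-- The leaves of `y` in `U` are leaves of `th y`. -/
theorem mem_th_leaves (h : TSetup Φ ε L U T r t) {σ : Src} (hσ : σ ∈ y.leaves) (hU : σ ∈ U) :
    σ ∈ (th Φ ε r T y).leaves := by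
  have h1 : (th Φ ε r T y).leaves = ⋃ σ ∈ y.leaves, (fs Φ ε r T σ).leaves := sbs_leaves y
  rw [h1]
  refine mem_iUnion₂.2 ⟨σ, hσ, ?_⟩
  rw [fs_of_mem h hU]
  exact mem_singleton σ

/-- If `y` and `y'` have no common particle and one of them does not descend from `T`. -/
theorem disjoint_th (h : TSetup Φ ε L U T r t) {y' : CTree} (hy : y.leaves ⊆ lwd Φ ε r U T)
    (hy' : y'.leaves ⊆ lwd Φ ε r U T) (hd : Disjoint y.leaves y'.leaves)
    (hU : y.leaves ⊆ U ∨ y'.leaves ⊆ U) :
    Disjoint (th Φ ε r T y).leaves (th Φ ε r T y').leaves := by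
  have hUT := disjoint_left.1 h.disj
  rw [disjoint_left] at hd ⊢
  intro σ h1 h2
  rcases hU with hU | hU
  · rw [th_of_subset h hU] at h1
    rcases th_leaves h hy' h2 with h3 | h3
    · exact hd h1 h3.1
    · exact hUT (hU h1) h3
  · rw [th_of_subset h hU] at h2
    rcases th_leaves h hy h1 with h3 | h3
    · exact hd h3.1 h2
    · exact hUT (hU h2) h3

/-- The current line is the same. -/
theorem th_st (hΦ : IsPotential Φ) (hε : 0 < ε) (h : TSetup Φ ε L U T r t)
    (hy : y.leaves ⊆ lwd Φ ε r U T) {s : ℝ} (hs : sig Φ ε y ≤ s) :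
    st Φ ε (th Φ ε r T y) s = st Φ ε y s := by
  cases y with
  | leaf σ =>
    change st Φ ε (fs Φ ε r T σ) s = free s σ.2.1
    rcases hy (mem_singleton σ) with hσ | ⟨x, hx, rfl⟩
    · rw [fs_of_mem h hσ]; rfl
    · rw [fs_msrc h hx, st_after hΦ hε (ok_out h hx) ((h.le_r x hx).trans hs)]
      rfl
  | node a b => exact th_st_node h hy s

/-- `own` for the two worlds. -/
theorem own_of_th (hΦ : IsPotential Φ) (hε : 0 < ε) (h : TSetup Φ ε L U T r t) {q : CTree}
    (hq : q.leaves ⊆ lwd Φ ε r U T) (hy : y.leaves ⊆ lwd Φ ε r U T) {s : ℝ}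
    (hsq : sig Φ ε q ≤ s) (hsy : ext Φ ε y ≤ s)
    (ho : own Φ ε (th Φ ε r T q) (th Φ ε r T y) s) : own Φ ε q y s := by
  obtain ⟨-, -, h3, h4⟩ := ho
  refine ⟨hsq, hsy, disjoint_of_th h3, ?_⟩
  rw [th_st hΦ hε h hq hsq, th_ln h hy] at h4
  refine h4.imp id ?_
  rintro ⟨h5, a, b, h6, h7⟩
  cases q with
  | leaf σ =>
    exfalso
    have h8 := (fs_ext h (hq (mem_singleton σ)))
    exact absurd h5 (not_lt.2 (h8.trans hsq))
  | node c d =>
    rw [th_ext h hq] at h5
    rw [th_node] at h6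
    injection h6 with h6 h8
    refine ⟨h5, c, d, rfl, ?_⟩
    have hdc : (node d c).leaves ⊆ lwd Φ ε r U T := union_subset (leaves_right hq) (leaves_left hq)
    rw [← h6, ← h8, ← th_node, th_st_node h hdc] at h7
    exact h7

theorem th_own (hΦ : IsPotential Φ) (hε : 0 < ε) (h : TSetup Φ ε L U T r t) {q : CTree}
    (hq : q.leaves ⊆ lwd Φ ε r U T) (hy : y.leaves ⊆ lwd Φ ε r U T) {s : ℝ}
    (hU : q.leaves ⊆ U ∨ y.leaves ⊆ U) (ho : own Φ ε q y s) :
    own Φ ε (th Φ ε r T q) (th Φ ε r T y) s := by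
  obtain ⟨h1, h2, h3, h4⟩ := ho
  refine ⟨(th_sig_le hΦ hε h hq).trans h1, (th_ext_le h hy).trans h2,
    disjoint_th h hq hy h3 hU, ?_⟩
  rw [th_st hΦ hε h hq h1, th_ln h hy]
  refine h4.imp id ?_
  rintro ⟨h5, a, b, rfl, h7⟩
  have hdc : (node b a).leaves ⊆ lwd Φ ε r U T := union_subset (leaves_right hq) (leaves_left hq)
  refine ⟨by rw [th_ext h hq]; exact h5, _, _, th_node a b, ?_⟩
  rw [← th_node, th_st_node h hdc]
  exact h7



/-! ### Subtrees of `T` -/

theorem outs_depth' (h : TSetup Φ ε L U T r t) {x : CTree} (hx : x ∈ outs T) : x.depth ≤ L :=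
  (outs_depth hx).trans h.depth

/-- The final histories are alive at the births of their sources. -/
theorem alive_out (hΦ : IsPotential Φ) (hε : 0 < ε) (h : TSetup Φ ε L U T r t) {x : CTree}
    (hx : x ∈ outs T) (hr : r x ≤ t) : alive Φ ε L (U ∪ T.leaves) x (r x) :=
  (alive_iff hΦ hε (wd_finite h)).2 ⟨⟨(outs_leaves hx).trans subset_union_right, ok_out h hx,
    outs_depth' h hx, h.le_r x hx⟩, fun X s hs hh => h.free x hx X s hs (hs.trans_le hr) hh⟩

/-- The subtrees of `T` are not hit before the end of their last collision. -/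
theorem sub_free (hΦ : IsPotential Φ) (hε : 0 < ε) (h : TSetup Φ ε L U T r t) {Q y : CTree}
    {s : ℝ} (hQ : Sub Q T) (hs : s < ext Φ ε Q) (hst : s < t) (hy : hit Φ ε Q y s) :
    ¬alive Φ ε L (U ∪ T.leaves) y s :=
  h.free T (Or.inl rfl) y s ((hs.trans_le (hQ.ext_le hΦ hε (ok_T h))).trans_le
    (h.le_r T (Or.inl rfl))) hst (hit_of_sub hΦ hε hQ (ok_T h) hs.le hy)

theorem sub_live (hΦ : IsPotential Φ) (hε : 0 < ε) (h : TSetup Φ ε L U T r t) {P : CTree}
    (hP : Sub P T) (hs : sig Φ ε P ≤ t) : live Φ ε L (U ∪ T.leaves) P (sig Φ ε P) :=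
  ⟨hP.leaves_subset.trans subset_union_right, hP.ok (ok_T h), hP.depth_le.trans h.depth, le_rfl,
    fun _ _ hu hy => sub_free hΦ hε h hP (hu.trans_le (sig_le_ext hΦ hε (hP.ok (ok_T h))))
      (hu.trans_le hs) hy⟩

/-- A proper subtree of `T` which is in contact with an alive tree: this is the collision in `T`. -/
theorem sub_hit (hΦ : IsPotential Φ) (hε : 0 < ε) (h : TSetup Φ ε L U T r t) {c d : CTree}
    {τ : ℝ} (hτ : τ < t) (hc : Sub c T) (hne : c ≠ T)
    (hca : alive Φ ε L (U ∪ T.leaves) c τ) (hda : alive Φ ε L (U ∪ T.leaves) d τ)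
    (hh : hit Φ ε c d τ) :
    (Sub (node c d) T ∧ τ = sig Φ ε (node c d)) ∨ (Sub (node d c) T ∧ τ = sig Φ ε (node d c)) := by
  have hW := wd_finite h
  obtain ⟨P, hP, hPT⟩ := hc.exists_par hne
  have hPok := hPT.ok (ok_T h)
  rcases hP with ⟨b, rfl⟩ | ⟨a, rfl⟩
  · have hse := sig_lt_ext hΦ hε hPok
    rcases lt_trichotomy τ (sig Φ ε (node c b)) with h1 | h1 | h1
    · exact absurd hda (sub_free hΦ hε h hPT (h1.trans hse) hτ
        (Or.inl ⟨h1.le, Or.inl ⟨hh, fun hcon => h1.ne hcon.2⟩⟩))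
    · by_cases hdb : d = b
      · subst hdb
        exact Or.inl ⟨hPT, h1⟩
      · exact absurd hda (sub_free hΦ hε h hPT (h1 ▸ hse) hτ
          (Or.inl ⟨h1.le, Or.inl ⟨hh, fun hcon => hdb hcon.1⟩⟩))
    · have hb := live_right hΦ hε hW (sub_live hΦ hε h hPT (h1.trans hτ).le)
      exact absurd hb (no_hit hΦ hε hW hca h1 (hit_sig hΦ hε hPok))
  · have hse := sig_lt_ext hΦ hε hPok
    rcases lt_trichotomy τ (sig Φ ε (node a c)) with h1 | h1 | h1
    · exact absurd hda (sub_free hΦ hε h hPT (h1.trans hse) hτ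
        (Or.inl ⟨h1.le, Or.inr ⟨hh, fun hcon => h1.ne hcon.2⟩⟩))
    · by_cases hdb : d = a
      · subst hdb
        exact Or.inr ⟨hPT, h1⟩
      · exact absurd hda (sub_free hΦ hε h hPT (h1 ▸ hse) hτ
          (Or.inl ⟨h1.le, Or.inr ⟨hh, fun hcon => hdb hcon.1⟩⟩))
    · have ha := live_left hΦ hε hW (sub_live hΦ hε h hPT (h1.trans hτ).le)
      exact absurd ha (no_hit hΦ hε hW hca h1 (hit_sig' hΦ hε hPok))

/-- The legs are not hit by alive trees, except for the collisions of `T`. -/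
theorem leg_hit (hΦ : IsPotential Φ) (hε : 0 < ε) (h : TSetup Φ ε L U T r t) {X d : CTree}
    {s : ℝ} (hst : s < t) (hX : Leg r T X s) (hXa : alive Φ ε L (U ∪ T.leaves) X s)
    (hda : alive Φ ε L (U ∪ T.leaves) d s) (hh : hit Φ ε X d s) :
    (Sub (node X d) T ∧ s = sig Φ ε (node X d)) ∨ (Sub (node d X) T ∧ s = sig Φ ε (node d X)) := by
  rcases hX with ⟨h1, h2⟩ | ⟨h1, h2⟩
  · exact sub_hit hΦ hε h hst h1 h2 hXa hda hh
  · exact absurd hda (h.free X h1 d s h2 hst hh)

/-- **The alive trees of `U ∪ T.leaves`**: they come from the world of lines, or are legs. -/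
theorem alive_classify (hΦ : IsPotential Φ) (hε : 0 < ε) (h : TSetup Φ ε L U T r t) {X : CTree}
    {s : ℝ} (hst : s ≤ t) (hX : alive Φ ε L (U ∪ T.leaves) X s) :
    (∃ y, y.leaves ⊆ lwd Φ ε r U T ∧ X = th Φ ε r T y ∧ ext Φ ε y ≤ s) ∨ Leg r T X s := by
  have hW := wd_finite h
  -- a final history
  have hout : ∀ x ∈ outs T, ∀ s, ext Φ ε x ≤ s →
      (∃ y, y.leaves ⊆ lwd Φ ε r U T ∧ x = th Φ ε r T y ∧ ext Φ ε y ≤ s) ∨ Leg r T x s := by
    intro x hx s hs
    rcases lt_or_ge s (r x) with h1 | h1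
    · exact Or.inr (Or.inr ⟨hx, h1⟩)
    · refine Or.inl ⟨leaf (msrc Φ ε r x), ?_, (th_leaf_msrc h hx).symm, h1⟩
      rintro σ rfl
      exact Or.inr ⟨x, hx, rfl⟩
  -- a subtree of `T`
  have hsub : ∀ X, Sub X T → ∀ s, ext Φ ε X ≤ s →
      (∃ y, y.leaves ⊆ lwd Φ ε r U T ∧ X = th Φ ε r T y ∧ ext Φ ε y ≤ s) ∨ Leg r T X s := by
    intro X hX s hs
    by_cases hXT : X = T
    · exact hout X (Or.inl hXT) s hs
    · exact Or.inr (Or.inl ⟨hX, hXT⟩)
  induction X generalizing s with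
  | leaf σ =>
    have h1 : σ ∈ U ∪ T.leaves := (alive_pre hX).sub (mem_singleton σ)
    rcases h1 with h1 | h1
    · refine Or.inl ⟨leaf σ, ?_, ?_, (alive_pre hX).ext_le⟩
      · rintro τ rfl
        exact Or.inl h1
      · refine (th_of_subset h ?_).symm
        rintro τ rfl
        exact h1
    · exact hsub _ (sub_leaf_of_mem h1) s (alive_pre hX).ext_le
  | node c d ihc ihd =>
    have hok := (alive_pre hX).ok
    have hc := alive_left hΦ hε hW hX
    have hd := alive_right hΦ hε hW hX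
    have hXs := (alive_pre hX).ext_le
    have hsig : sig Φ ε (node c d) < t := ((sig_lt_ext hΦ hε hok).trans_le hXs).trans_le hst
    have hcd := hit_sig hΦ hε hok
    have hdc := hit_sig' hΦ hε hok
    have key : (Sub (node c d) T ∨ Sub (node d c) T) →
        (∃ y, y.leaves ⊆ lwd Φ ε r U T ∧ node c d = th Φ ε r T y ∧ ext Φ ε y ≤ s) ∨
          Leg r T (node c d) s := by
      rintro (h1 | h1)
      · exact hsub _ h1 s hXs
      · exact hout _ (Or.inr (exs_iff.2 ⟨d, c, h1, rfl⟩)) s hXs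
    rcases ihc hsig.le hc with ⟨y, hy, hcy, hye⟩ | hleg
    · rcases ihd hsig.le hd with ⟨y', hy', hdy', hye'⟩ | hleg
      · refine Or.inl ⟨node y y', union_subset hy hy', by rw [th_node, ← hcy, ← hdy'], ?_⟩
        have h2 : (node y y').leaves ⊆ lwd Φ ε r U T := union_subset hy hy'
        rw [← th_ext h h2, th_node, ← hcy, ← hdy']
        exact hXs
      · rcases leg_hit hΦ hε h hsig hleg hd hc hdc with h1 | h1
        · exact key (Or.inr h1.1)
        · exact key (Or.inl h1.1)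
    · rcases leg_hit hΦ hε h hsig hleg hc hd hcd with h1 | h1
      · exact key (Or.inl h1.1)
      · exact key (Or.inr h1.1)

/-- A leg is never in contact with a flying tree that comes from the world of lines. -/
theorem leg_not_own (hΦ : IsPotential Φ) (hε : 0 < ε) (h : TSetup Φ ε L U T r t) {X q : CTree}
    {s : ℝ} (hs : s < t) (hX : Leg r T X s) (hXa : alive Φ ε L (U ∪ T.leaves) X s)
    (hq : q.leaves ⊆ lwd Φ ε r U T) (hql : live Φ ε L (U ∪ T.leaves) (th Φ ε r T q) s) :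
    ¬own Φ ε (th Φ ε r T q) X s := by
  intro ho
  have hW := wd_finite h
  rcases lt_or_ge s (ext Φ ε (th Φ ε r T q)) with h1 | h1
  · exact h.legs X _ s hs hX hXa hql h1 (ho.hit hΦ)
  · have hqa : alive Φ ε L (U ∪ T.leaves) (th Φ ε r T q) s :=
      (alive_iff_live hΦ hε hW).2 ⟨hql, h1⟩
    have h2 := ho.symm hΦ hε hql.ok (alive_pre hXa).ok h1
    have key : Sub (th Φ ε r T q) T → (th Φ ε r T q) ≠ T → False := by
      intro h3 h4
      -- `q` contains a source `msrc x`, then `x` is a subtree of `T`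
      have h5 : ∀ p : CTree, p.leaves ⊆ lwd Φ ε r U T → Sub (th Φ ε r T p) T →
          ∃ x ∈ outs T, Sub x (th Φ ε r T p) := by
        intro p hp hpT
        obtain ⟨σ, hσ⟩ := p.leaves_nonempty
        rcases hp hσ with h6 | ⟨x, hx, rfl⟩
        · exact absurd (hpT.leaves_subset (mem_th_leaves h hσ h6)) (disjoint_left.1 h.disj h6)
        · refine ⟨x, hx, ?_⟩
          have h7 : ∀ p : CTree, msrc Φ ε r x ∈ p.leaves → Sub x (th Φ ε r T p) := by
            intro p
            induction p with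
            | leaf τ =>
              intro hτ
              rw [← mem_singleton_iff.1 hτ, th_leaf_msrc h hx]
              exact Sub.refl _
            | node a b iha ihb =>
              rintro (hτ | hτ)
              · exact Sub.left _ (iha hτ)
              · exact Sub.right _ (ihb hτ)
          exact h7 p hσ
      obtain ⟨x, hx, h6⟩ := h5 q hq h3
      rcases hx with rfl | hx
      · exact h4 (h3.eq_of_card h6.card_le)
      · exact not_sub_of_exs (ok_T h) hx (h6.trans h3)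
    rcases leg_hit hΦ hε h hs hX hXa hqa h2 with ⟨h3, -⟩ | ⟨h3, -⟩
    · refine key ((Sub.right _ (Sub.refl _)).trans h3) fun hcon => ?_
      rw [hcon] at h3
      exact not_sub_right _ _ (show Sub (node X T) T from h3)
    · refine key ((Sub.left _ (Sub.refl _)).trans h3) fun hcon => ?_
      rw [hcon] at h3
      exact not_sub_left _ _ (show Sub (node T X) T from h3)

/-! ### Roots -/

theorem fs_root_inj (h : TSetup Φ ε L U T r t) {σ σ' : Src} (hσ : σ ∈ lwd Φ ε r U T)
    (hσ' : σ' ∈ lwd Φ ε r U T) (he : (fs Φ ε r T σ).root = (fs Φ ε r T σ').root) : σ = σ' := by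
  have hUT := disjoint_left.1 h.disj
  rcases hσ with hσ | ⟨x, hx, rfl⟩ <;> rcases hσ' with hσ' | ⟨x', hx', rfl⟩
  · rwa [fs_of_mem h hσ, fs_of_mem h hσ'] at he
  · rw [fs_of_mem h hσ, fs_msrc h hx'] at he
    have he : σ = x'.root := he
    exact absurd (outs_leaves hx' x'.root_mem_leaves) (he ▸ hUT hσ)
  · rw [fs_of_mem h hσ', fs_msrc h hx] at he
    have he : x.root = σ' := he
    exact absurd (outs_leaves hx x.root_mem_leaves) (he ▸ hUT hσ')
  · rw [fs_msrc h hx, fs_msrc h hx'] at he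
    rw [outs_root_inj (ok_T h) hx hx' he]

theorem th_root_inj (h : TSetup Φ ε L U T r t) {y y' : CTree} (hy : y.leaves ⊆ lwd Φ ε r U T)
    (hy' : y'.leaves ⊆ lwd Φ ε r U T) (he : (th Φ ε r T y).root = (th Φ ε r T y').root) :
    y.root = y'.root := by
  have e1 : (th Φ ε r T y).root = (fs Φ ε r T y.root).root := sbs_root y
  have e2 : (th Φ ε r T y').root = (fs Φ ε r T y'.root).root := sbs_root y'
  exact fs_root_inj h (hy y.root_mem_leaves) (hy' y'.root_mem_leaves) (e1 ▸ e2 ▸ he)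

/-! ### The geometric conditions -/

/-- The histories are not in contact with an alive tree before or at the birth of the source. -/
theorem birth_lt (h : TSetup Φ ε L U T r t) {x b : CTree}
    {τ : ℝ} (hx : x ∈ outs T) (hb : alive Φ ε L (U ∪ T.leaves) b τ) (hτt : τ < t)
    (hτ : ext Φ ε x < τ) (hh : hit Φ ε x b τ) : r x < τ := by
  rcases lt_trichotomy τ (r x) with h1 | h1 | h1
  · exact absurd hb (h.free x hx b τ h1 hτt hh)
  · rcases h.lives x hx (h1 ▸ hτt) with h2 | h2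
    · rw [← h1] at h2
      exact absurd h2 hτ.ne'
    · exact absurd (h1 ▸ hb) (h2 b (h1 ▸ hh))
  · exact h1

theorem ok_of_th (hΦ : IsPotential Φ) (hε : 0 < ε) (h : TSetup Φ ε L U T r t) {p : CTree} {s : ℝ}
    (hp : p.leaves ⊆ lwd Φ ε r U T) (hst : s < t)
    (hl : live Φ ε L (U ∪ T.leaves) (th Φ ε r T p) s) : ok Φ ε p := by
  have hW := wd_finite h
  induction p generalizing s with
  | leaf σ =>
    rcases hp (mem_singleton σ) with hσ | ⟨x, hx, rfl⟩
    · have h1 := hl.ok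
      change ok Φ ε (fs Φ ε r T σ) at h1
      rwa [fs_of_mem h hσ] at h1
    · exact (ext_nonneg hΦ hε (ok_out h hx)).trans (h.le_r x hx)
  | node a b iha ihb =>
    have ha := leaves_left hp
    have hb := leaves_right hp
    rw [th_node] at hl
    have hla := live_left hΦ hε hW hl
    have hlb := live_right hΦ hε hW hl
    have hok := hl.ok
    have hsg := hl.sig_le.trans_lt hst
    have h1 := hit_sig hΦ hε hok
    have h2 := hit_sig' hΦ hε hok
    rw [← th_node, th_sig h hp] at hla hlb h1 h2 hsg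
    obtain ⟨-, -, h3, h4, h5, h6, h7⟩ := hok
    rw [th_ln h ha, th_ln h hb] at h4 h5 h6 h7
    -- the ends of the last collisions
    have key : ∀ c d : CTree, c.leaves ⊆ lwd Φ ε r U T →
        alive Φ ε L (U ∪ T.leaves) (th Φ ε r T d) (sig Φ ε (node a b)) →
        ext Φ ε (th Φ ε r T c) < sig Φ ε (node a b) →
        hit Φ ε (th Φ ε r T c) (th Φ ε r T d) (sig Φ ε (node a b)) →
        ext Φ ε c < sig Φ ε (node a b) := by
      intro c d hc hd he hh
      cases c with
      | leaf σ =>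
        rcases hc (mem_singleton σ) with hσ | ⟨x, hx, rfl⟩
        · have e : th Φ ε r T (leaf σ) = leaf σ := fs_of_mem h hσ
          rwa [e] at he
        · rw [th_leaf_msrc h hx] at he hh
          exact birth_lt h hx hd hsg he hh
      | node c d => rwa [th_ext h hc] at he
    exact ⟨iha ha hsg ((alive_iff_live hΦ hε hW).1 hla).1,
      ihb hb hsg ((alive_iff_live hΦ hε hW).1 hlb).1, disjoint_of_th h3, h4, h5, key a b ha hlb h6 h1, key b a hb hla h7 h2⟩

theorem ok_th (hΦ : IsPotential Φ) (hε : 0 < ε) (h : TSetup Φ ε L U T r t) {p : CTree} {s : ℝ}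
    (hp : p.leaves ⊆ lwd Φ ε r U T) (hs : s < t) (hl : live Φ ε L (lwd Φ ε r U T) p s) :
    ok Φ ε (th Φ ε r T p) := by
  have hW := lwd_finite h
  induction p generalizing s with
  | leaf σ =>
    rcases hp (mem_singleton σ) with hσ | ⟨x, hx, rfl⟩
    · change ok Φ ε (fs Φ ε r T σ)
      rw [fs_of_mem h hσ]
      exact hl.ok
    · rw [th_leaf_msrc h hx]
      exact ok_out h hx
  | node a b iha ihb =>
    have ha := leaves_left hp
    have hb := leaves_right hp
    have hla := live_left hΦ hε hW hl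
    have hlb := live_right hΦ hε hW hl
    have hst : sig Φ ε (node a b) < t := hl.sig_le.trans_lt hs
    have hla' := ((alive_iff_live hΦ hε hW).1 hla).1
    have hlb' := ((alive_iff_live hΦ hε hW).1 hlb).1
    have h1 := h.indep a b _ hst hla' hlb hl.ok.2.2.1 (hit_sig hΦ hε hl.ok)
    obtain ⟨-, -, h3, h4, h5, h6, h7⟩ := hl.ok
    rw [th_node]
    refine ⟨iha ha hst hla', ihb hb hst hlb', disjoint_th h ha hb h3 h1, ?_, ?_, ?_, ?_⟩
    · rw [th_ln h ha, th_ln h hb]; exact h4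
    · rw [th_ln h ha, th_ln h hb]; exact h5
    · rw [th_ln h ha, th_ln h hb]; exact (th_ext_le h ha).trans_lt h6
    · rw [th_ln h ha, th_ln h hb]; exact (th_ext_le h hb).trans_lt h7

/-! ### Hits in the two worlds -/

/-- The path to the relevant subtree, from the world of lines to the real one. -/
theorem at_th (hΦ : IsPotential Φ) (hε : 0 < ε) (h : TSetup Φ ε L U T r t) {p q y : CTree} {s : ℝ}
    (hp : p.leaves ⊆ lwd Φ ε r U T) (hok : ok Φ ε p) (hd : p.depth ≤ L)
    (hno : ∀ X s', s' < s → hit Φ ε p X s' → ¬alive Φ ε L (lwd Φ ε r U T) X s')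
    (hy : alive Φ ε L (lwd Φ ε r U T) y s) (hat : At Φ ε y s q p) :
    At Φ ε (th Φ ε r T y) s (th Φ ε r T q) (th Φ ε r T p) := by
  have hW := lwd_finite h
  have hyl := (alive_pre hy).sub
  induction hat with
  | refl => exact At.refl
  | @left a b h1 hs hne ih =>
    have ha := leaves_left hp
    have hb := leaves_right hp
    have hda : a.depth ≤ L := (le_max_left a.depth b.depth).trans (Nat.le_of_succ_le hd)
    have hdb : b.depth ≤ L := (le_max_right a.depth b.depth).trans (Nat.le_of_succ_le hd)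
    rw [th_node]
    refine At.left (ih ha hok.1 hda fun X s' hs' hh =>
      hno X s' hs' (hit_left_of_lt (hs'.trans_le hs) hh)) (by rw [← th_node, th_sig h hp]; exact hs)
      ?_
    rintro ⟨h2, h3⟩
    rw [← th_node, th_sig h hp] at h3
    refine hne ⟨?_, h3⟩
    have hba : alive Φ ε L (lwd Φ ε r U T) b s := by
      rw [alive_iff hΦ hε hW]
      refine ⟨⟨hb, hok.2.1, hdb, ?_⟩, fun X s' hs' hh =>
        hno X s' hs' (hit_right_of_lt (hs'.trans_le hs) hh)⟩
      rw [h3]
      exact hok.2.2.2.2.2.2.le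
    exact alive_unique hΦ hε hW hy hba (th_root_inj h hyl hb (by rw [h2]))
  | @right a b h1 hs hne ih =>
    have ha := leaves_left hp
    have hb := leaves_right hp
    have hda : a.depth ≤ L := (le_max_left a.depth b.depth).trans (Nat.le_of_succ_le hd)
    have hdb : b.depth ≤ L := (le_max_right a.depth b.depth).trans (Nat.le_of_succ_le hd)
    rw [th_node]
    refine At.right (ih hb hok.2.1 hdb fun X s' hs' hh =>
      hno X s' hs' (hit_right_of_lt (hs'.trans_le hs) hh)) (by rw [← th_node, th_sig h hp]; exact hs)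
      ?_
    rintro ⟨h2, h3⟩
    rw [← th_node, th_sig h hp] at h3
    refine hne ⟨?_, h3⟩
    have haa : alive Φ ε L (lwd Φ ε r U T) a s := by
      rw [alive_iff hΦ hε hW]
      refine ⟨⟨ha, hok.1, hda, ?_⟩, fun X s' hs' hh =>
        hno X s' hs' (hit_left_of_lt (hs'.trans_le hs) hh)⟩
      rw [h3]
      exact hok.2.2.2.2.2.1.le
    exact alive_unique hΦ hε hW hy haa (th_root_inj h hyl ha (by rw [h2]))

/-- **From the world of lines to the real one.** -/
theorem hit_th (hΦ : IsPotential Φ) (hε : 0 < ε) (h : TSetup Φ ε L U T r t) {p y : CTree} {s : ℝ}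
    (hs : s < t) (hp : p.leaves ⊆ lwd Φ ε r U T) (hok : ok Φ ε p) (hd : p.depth ≤ L)
    (hno : ∀ X s', s' < s → hit Φ ε p X s' → ¬alive Φ ε L (lwd Φ ε r U T) X s')
    (hy : alive Φ ε L (lwd Φ ε r U T) y s) (hh : hit Φ ε p y s) :
    hit Φ ε (th Φ ε r T p) (th Φ ε r T y) s := by
  obtain ⟨q, h1, h2⟩ := (hit_iff_at hΦ).1 hh
  have hq : q.leaves ⊆ lwd Φ ε r U T := h1.sub.leaves_subset.trans hp
  have hql : live Φ ε L (lwd Φ ε r U T) q s :=
    ⟨hq, h1.sub.ok hok, h1.sub.depth_le.trans hd, h2.1, fun X s' hs' hX =>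
      hno X s' hs' (hit_of_at hΦ h1 hs' hX)⟩
  have h3 := h.indep q y s hs hql hy h2.2.2.1 (h2.hit hΦ)
  exact (hit_iff_at hΦ).2 ⟨_, at_th hΦ hε h hp hok hd hno hy h1,
    th_own hΦ hε h hq (alive_pre hy).sub h3 h2⟩

/-- The path to the relevant subtree, from the real world to the world of lines. -/
theorem at_of_th (hΦ : IsPotential Φ) (hε : 0 < ε) (h : TSetup Φ ε L U T r t) {p q' X : CTree}
    {s : ℝ} (hs : s < t) (hp : p.leaves ⊆ lwd Φ ε r U T)
    (hX : alive Φ ε L (U ∪ T.leaves) X s) (hat : At Φ ε X s q' (th Φ ε r T p)) (ho : own Φ ε q' X s) :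
    ∃ q, q.leaves ⊆ lwd Φ ε r U T ∧ q' = th Φ ε r T q ∧ sig Φ ε q ≤ s ∧
      ∀ y, X = th Φ ε r T y → At Φ ε y s q p := by
  induction p with
  | leaf σ =>
    rcases hp (mem_singleton σ) with hσ | ⟨x, hx, rfl⟩
    · have e : th Φ ε r T (leaf σ) = leaf σ := fs_of_mem h hσ
      rw [e] at hat
      cases hat
      exact ⟨leaf σ, hp, e.symm, ho.1, fun y _ => At.refl⟩
    · rw [th_leaf_msrc h hx] at hat
      have hh : hit Φ ε x X s := (hit_iff_at hΦ).2 ⟨q', hat, ho⟩
      have h1 : r x ≤ s := by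
        by_contra hcon
        exact h.free x hx X s (not_le.1 hcon) hs hh hX
      refine ⟨leaf (msrc Φ ε r x), hp, ?_, h1, fun y _ => ?_⟩
      · rw [th_leaf_msrc h hx]
        have hokx := ok_out h hx
        have hex := (h.le_r x hx).trans h1
        cases hat with
        | refl => rfl
        | left _ h2 _ => exact absurd (hex.trans h2) (not_le.2 (sig_lt_ext hΦ hε hokx))
        | right _ h2 _ => exact absurd (hex.trans h2) (not_le.2 (sig_lt_ext hΦ hε hokx))
      · exact At.refl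
  | node a b iha ihb =>
    rw [th_node] at hat
    cases hat with
    | refl =>
      refine ⟨node a b, hp, rfl, ?_, fun y _ => At.refl⟩
      rw [← th_sig h hp]
      exact ho.1
    | left h1 hs hne =>
      obtain ⟨q, h2, h3, h4, h5⟩ := iha (leaves_left hp) h1
      rw [← th_node, th_sig h hp] at hs hne
      exact ⟨q, h2, h3, h4, fun y hy => At.left (h5 y hy) hs fun hcon =>
        hne ⟨by rw [hy, hcon.1], hcon.2⟩⟩
    | right h1 hs hne =>
      obtain ⟨q, h2, h3, h4, h5⟩ := ihb (leaves_right hp) h1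
      rw [← th_node, th_sig h hp] at hs hne
      exact ⟨q, h2, h3, h4, fun y hy => At.right (h5 y hy) hs fun hcon =>
        hne ⟨by rw [hy, hcon.1], hcon.2⟩⟩

/-- **From the real world to the world of lines.** -/
theorem hit_of_th (hΦ : IsPotential Φ) (hε : 0 < ε) (h : TSetup Φ ε L U T r t) {p X : CTree}
    {s : ℝ} (hs : s < t) (hp : p.leaves ⊆ lwd Φ ε r U T) (hok : ok Φ ε (th Φ ε r T p))
    (hd : p.depth ≤ L)
    (hno : ∀ X s', s' < s → hit Φ ε (th Φ ε r T p) X s' → ¬alive Φ ε L (U ∪ T.leaves) X s')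
    (hX : alive Φ ε L (U ∪ T.leaves) X s) (hh : hit Φ ε (th Φ ε r T p) X s) :
    ∃ y, y.leaves ⊆ lwd Φ ε r U T ∧ X = th Φ ε r T y ∧ ext Φ ε y ≤ s ∧ hit Φ ε p y s := by
  obtain ⟨q', h1, h2⟩ := (hit_iff_at hΦ).1 hh
  obtain ⟨q, hq, rfl, hqs, hat⟩ := at_of_th hΦ hε h hs hp hX h1 h2
  have hql : live Φ ε L (U ∪ T.leaves) (th Φ ε r T q) s :=
    ⟨th_leaves_wd h hq, h1.sub.ok hok, by
      have := h1.sub.depth_le
      rw [th_depth h hp] at this
      exact this.trans hd, h2.1, fun X s' hs' hX' => hno X s' hs' (hit_of_at hΦ h1 hs' hX')⟩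
  rcases alive_classify hΦ hε h hs.le hX with ⟨y, hy, hXy, hye⟩ | hleg
  · refine ⟨y, hy, hXy, hye, (hit_iff_at hΦ).2 ⟨q, hat y hXy, ?_⟩⟩
    rw [hXy] at h2
    exact own_of_th hΦ hε h hq hy hqs hye h2
  · exact absurd h2 (leg_not_own hΦ hε h hs hleg hX hq hql)



end Tr

end Vale.Agent.P119.TL
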