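import Vale.Agent.P119.TL.Trunc1

/-!
# P119: TREE -> LINES up to the first disturbance, the two worlds (`helper119`)

* `live_th`, `lives_th`, `stat_th`, `stat_out`, `stat_leg` for `s < t`, `alive_th`,
  `alive_classify` for `s ≤ t`.
-/

open MeasureTheory Filter Topology Set
open scoped ENNReal NNReal

noncomputable section

namespace Vale.Agent.P119.TL.Tr

open KU M M.CTree

variable {Φ : E3 → ℝ} {ε : ℝ} {L : ℕ} {U : Set Src} {T : CTree} {r : CTree → ℝ} {t : ℝ}

/-- The condition that the last collision of `p` is before `t`. -/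
def Bef (Φ : E3 → ℝ) (ε t : ℝ) (p : CTree) : Prop := ∀ a b, p = node a b → sig Φ ε p < t

theorem Bef.of_lt {p : CTree} (h : sig Φ ε p < t) : Bef Φ ε t p := fun _ _ _ => h

theorem Bef.node {a b : CTree} (h : Bef Φ ε t (node a b)) : sig Φ ε (node a b) < t := h a b rfl

theorem ok_th' (hΦ : IsPotential Φ) (hε : 0 < ε) (h : TSetup Φ ε L U T r t) {p : CTree} {s : ℝ}
    (hp : p.leaves ⊆ lwd Φ ε r U T) (hb : Bef Φ ε t p) (hl : live Φ ε L (lwd Φ ε r U T) p s) :
    ok Φ ε (th Φ ε r T p) := by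
  cases p with
  | leaf σ =>
    rcases hp (mem_singleton σ) with hσ | ⟨x, hx, rfl⟩
    · change ok Φ ε (fs Φ ε r T σ)
      rw [fs_of_mem h hσ]
      exact hl.ok
    · rw [th_leaf_msrc h hx]
      exact ok_out h hx
  | node a b => exact ok_th hΦ hε h hp hb.node (hl.anti hl.sig_le le_rfl)

theorem ok_of_th' (hΦ : IsPotential Φ) (hε : 0 < ε) (h : TSetup Φ ε L U T r t) {p : CTree}
    {s : ℝ} (hp : p.leaves ⊆ lwd Φ ε r U T) (hb : Bef Φ ε t p)
    (hl : live Φ ε L (U ∪ T.leaves) (th Φ ε r T p) s) : ok Φ ε p := by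
  cases p with
  | leaf σ =>
    rcases hp (mem_singleton σ) with hσ | ⟨x, hx, rfl⟩
    · have h1 := hl.ok
      change ok Φ ε (fs Φ ε r T σ) at h1
      rwa [fs_of_mem h hσ] at h1
    · exact (ext_nonneg hΦ hε (ok_out h hx)).trans (h.le_r x hx)
  | node a b =>
    have h1 : sig Φ ε (th Φ ε r T (node a b)) < t := by rw [th_sig h hp]; exact hb.node
    exact ok_of_th hΦ hε h hp h1 (hl.anti hl.sig_le le_rfl)

theorem live_th_aux (hΦ : IsPotential Φ) (hε : 0 < ε) (h : TSetup Φ ε L U T r t) (n : ℕ) :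
    ∀ s ≤ t, (cand Φ ε L U T r ∩ Iio s).ncard ≤ n → ∀ p : CTree, p.leaves ⊆ lwd Φ ε r U T →
      Bef Φ ε t p → (live Φ ε L (lwd Φ ε r U T) p s ↔
        live Φ ε L (U ∪ T.leaves) (th Φ ε r T p) s ∧ sig Φ ε p ≤ s) := by
  have hW := lwd_finite h
  have hW' := wd_finite h
  have hfin : ∀ s, (cand Φ ε L U T r ∩ Iio s).Finite := fun s =>
    ((times_finite hW).union (times_finite hW')).inter_of_left _
  induction n using Nat.strong_induction_on with
  | _ n IH =>
    intro s hst hcard p hp hpb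
    -- the equivalence for alive trees at earlier candidate times
    have hAE : ∀ u ∈ cand Φ ε L U T r, u < s → ∀ y : CTree, y.leaves ⊆ lwd Φ ε r U T →
        (alive Φ ε L (lwd Φ ε r U T) y u ↔
          alive Φ ε L (U ∪ T.leaves) (th Φ ε r T y) u ∧ ext Φ ε y ≤ u) := by
      intro u hu hus y hy
      have h3 : (cand Φ ε L U T r ∩ Iio u).ncard < (cand Φ ε L U T r ∩ Iio s).ncard := by
        refine ncard_lt_ncard ?_ (hfin s)
        refine ⟨fun x hx => ⟨hx.1, lt_trans hx.2 hus⟩, fun hcon => ?_⟩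
        exact absurd (hcon ⟨hu, hus⟩).2 (lt_irrefl u)
      have h4 := IH _ (h3.trans_le hcard) u (hus.le.trans hst) le_rfl y hy
      have hut := hus.trans_le hst
      rw [alive_iff_live hΦ hε hW, alive_iff_live hΦ hε hW']
      constructor
      · rintro ⟨h5, h7⟩
        have h6 := (h4 (Bef.of_lt (h5.sig_le.trans_lt hut))).1 h5
        exact ⟨⟨h6.1, (th_ext_le h hy).trans h7⟩, h7⟩
      · rintro ⟨⟨h5, h6⟩, h7⟩
        have hoky : ok Φ ε y := ok_of_th hΦ hε h hy hut h5
        have h8 := (sig_le_ext hΦ hε hoky).trans h7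
        exact ⟨(h4 (Bef.of_lt (h8.trans_lt hut))).2 ⟨h5, h8⟩, h7⟩
    constructor
    · intro hl
      have hok := ok_th' hΦ hε h hp hpb hl
      refine ⟨⟨th_leaves_wd h hp, hok, (th_depth h hp).le.trans hl.depth,
        (th_sig_le hΦ hε h hp).trans hl.sig_le, fun X u hu hh ha => ?_⟩, hl.sig_le⟩
      obtain ⟨X', v, hv, hvf, h1, h2, h3⟩ := exists_first_hit hΦ hε hW' hok hh ha
      have hvs : v < s := hv.trans_lt hu
      obtain ⟨y, hy, hXy, hye, hyh⟩ := hit_of_th hΦ hε h (hvs.trans_le hst) hp hok hl.depth h3 h2 h1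
      have hvc : v ∈ cand Φ ε L U T r := Or.inr ⟨(th Φ ε r T p, X'),
        ⟨⟨th_leaves_wd h hp, (th_depth h hp).le.trans hl.depth⟩,
          ⟨(alive_pre h2).sub, (alive_pre h2).depth⟩⟩, hvf.symm⟩
      refine hl.nohit y v hvs hyh ?_
      rw [hAE v hvc hvs y hy]
      exact ⟨hXy ▸ h2, hye⟩
    · rintro ⟨hl, hps⟩
      have hok := ok_of_th' hΦ hε h hp hpb hl
      have hd : p.depth ≤ L := (th_depth h hp).ge.trans hl.depth
      refine ⟨hp, hok, hd, hps, fun X u hu hh ha => ?_⟩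
      obtain ⟨y, v, hv, hvf, h1, h2, h3⟩ := exists_first_hit hΦ hε hW hok hh ha
      have hvs : v < s := hv.trans_lt hu
      have hvc : v ∈ cand Φ ε L U T r := Or.inl ⟨(p, y),
        ⟨⟨hp, hd⟩, ⟨(alive_pre h2).sub, (alive_pre h2).depth⟩⟩, hvf.symm⟩
      have h4 := hit_th hΦ hε h (hvs.trans_le hst) hp hok hd h3 h2 h1
      exact hl.nohit _ v hvs h4 ((hAE v hvc hvs y (alive_pre h2).sub).1 h2).1

/-- **TREE -> LINES** for `live`. -/
theorem live_th_bef (hΦ : IsPotential Φ) (hε : 0 < ε) (h : TSetup Φ ε L U T r t) {p : CTree}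
    {s : ℝ} (hs : s ≤ t) (hp : p.leaves ⊆ lwd Φ ε r U T) (hb : Bef Φ ε t p) :
    live Φ ε L (lwd Φ ε r U T) p s ↔
      live Φ ε L (U ∪ T.leaves) (th Φ ε r T p) s ∧ sig Φ ε p ≤ s :=
  live_th_aux hΦ hε h _ s hs le_rfl p hp hb

/-- **TREE -> LINES** for `live`. -/
theorem live_th (hΦ : IsPotential Φ) (hε : 0 < ε) (h : TSetup Φ ε L U T r t) {p : CTree} {s : ℝ}
    (hs : s < t) (hp : p.leaves ⊆ lwd Φ ε r U T) :
    live Φ ε L (lwd Φ ε r U T) p s ↔
      live Φ ε L (U ∪ T.leaves) (th Φ ε r T p) s ∧ sig Φ ε p ≤ s :=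
  ⟨fun hl => (live_th_bef hΦ hε h hs.le hp (Bef.of_lt (hl.sig_le.trans_lt hs))).1 hl,
    fun hl => (live_th_bef hΦ hε h hs.le hp (Bef.of_lt (hl.2.trans_lt hs))).2 hl⟩

/-- **TREE -> LINES** for `alive`. -/
theorem alive_th (hΦ : IsPotential Φ) (hε : 0 < ε) (h : TSetup Φ ε L U T r t) {p : CTree} {s : ℝ}
    (hs : s ≤ t) (hp : p.leaves ⊆ lwd Φ ε r U T) :
    alive Φ ε L (lwd Φ ε r U T) p s ↔
      alive Φ ε L (U ∪ T.leaves) (th Φ ε r T p) s ∧ ext Φ ε p ≤ s := by
  rw [alive_iff_live hΦ hε (lwd_finite h), alive_iff_live hΦ hε (wd_finite h)]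
  constructor
  · rintro ⟨h5, h7⟩
    have hb : Bef Φ ε t p := by
      rintro a b rfl
      exact (sig_lt_ext hΦ hε h5.ok).trans_le (h7.trans hs)
    exact ⟨⟨((live_th_bef hΦ hε h hs hp hb).1 h5).1, (th_ext_le h hp).trans h7⟩, h7⟩
  · rintro ⟨⟨h5, h6⟩, h7⟩
    have hb : Bef Φ ε t p := by
      rintro a b rfl
      have h8 := sig_lt_ext hΦ hε h5.ok
      change sig Φ ε (th Φ ε r T (node a b)) < ext Φ ε (th Φ ε r T (node a b)) at h8
      rw [th_sig h hp, th_ext h hp] at h8
      exact h8.trans_le (h7.trans hs)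
    have hok := ok_of_th' hΦ hε h hp hb h5
    exact ⟨(live_th_bef hΦ hε h hs hp hb).2 ⟨h5, (sig_le_ext hΦ hε hok).trans h7⟩, h7⟩

/-- **TREE -> LINES** for `lives`. -/
theorem lives_th (hΦ : IsPotential Φ) (hε : 0 < ε) (h : TSetup Φ ε L U T r t) {p : CTree} {s : ℝ}
    (hs : s < t) (hp : p.leaves ⊆ lwd Φ ε r U T) :
    lives Φ ε L (lwd Φ ε r U T) p s ↔
      lives Φ ε L (U ∪ T.leaves) (th Φ ε r T p) s ∧ sig Φ ε p ≤ s := by
  rw [lives_iff, lives_iff, live_th hΦ hε h hs hp]
  constructor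
  · rintro ⟨⟨h1, h2⟩, h3⟩
    refine ⟨⟨h1, fun X hh ha => ?_⟩, h2⟩
    have hd : p.depth ≤ L := (th_depth h hp).ge.trans h1.depth
    obtain ⟨y, hy, hXy, hye, hyh⟩ := hit_of_th hΦ hε h hs hp h1.ok hd h1.nohit ha hh
    exact h3 y hyh ((alive_th hΦ hε h hs.le hy).2 ⟨hXy ▸ ha, hye⟩)
  · rintro ⟨⟨h1, h2⟩, h3⟩
    refine ⟨⟨h1, h3⟩, fun X hh ha => ?_⟩
    have h4 := (live_th hΦ hε h hs hp).2 ⟨h1, h3⟩
    exact h2 _ (hit_th hΦ hε h hs hp h4.ok h4.depth h4.nohit ha hh)
      ((alive_th hΦ hε h hs.le (alive_pre ha).sub).1 ha).1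

/-! ### Statuses -/

/-- The status of a particle of the environment. -/
theorem stat_th (hΦ : IsPotential Φ) (hε : 0 < ε) (h : TSetup Φ ε L U T r t) {a : Src} {s : ℝ}
    (hs : s < t) (ha : a ∈ U) :
    stat Φ ε L (U ∪ T.leaves) a s = (stat Φ ε L (lwd Φ ε r U T) a s).map (th Φ ε r T) := by
  have hW := lwd_finite h
  have hW' := wd_finite h
  have hUT := disjoint_left.1 h.disj
  -- living trees of `U ∪ T.leaves` with root in `U` come from the world of lines
  have key : ∀ X : CTree, lives Φ ε L (U ∪ T.leaves) X s → X.root = a →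
      ∃ y, y.leaves ⊆ lwd Φ ε r U T ∧ X = th Φ ε r T y ∧ sig Φ ε y ≤ s := by
    intro X hX hXa
    have hleg : ∀ (Y : CTree) (u : ℝ), Y.root = a → ¬Leg r T Y u := by
      rintro Y u hY (⟨h1, -⟩ | ⟨h1, -⟩)
      · exact hUT ha (hY ▸ h1.leaves_subset Y.root_mem_leaves)
      · exact hUT ha (hY ▸ outs_leaves h1 Y.root_mem_leaves)
    cases X with
    | leaf σ =>
      have h1 := (alive_iff_live hΦ hε hW').2 ⟨hX.live, hX.sig_le⟩
      rcases alive_classify hΦ hε h hs.le h1 with ⟨y, hy, hXy, hye⟩ | h2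
      · have hoky := ok_of_th hΦ hε h hy hs (hXy ▸ hX.live)
        exact ⟨y, hy, hXy, (sig_le_ext hΦ hε hoky).trans hye⟩
      · exact absurd h2 (hleg _ _ hXa)
    | node c d =>
      have hc := live_left hΦ hε hW' hX.live
      have hd := live_right hΦ hε hW' hX.live
      have hsg := hX.sig_le.trans_lt hs
      rcases alive_classify hΦ hε h hsg.le hc with ⟨y, hy, hXy, hye⟩ | h2
      · rcases alive_classify hΦ hε h hsg.le hd with ⟨y', hy', hXy', hye'⟩ | h2
        · have h3 : (node y y').leaves ⊆ lwd Φ ε r U T := union_subset hy hy'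
          refine ⟨node y y', h3, by rw [th_node, ← hXy, ← hXy'], ?_⟩
          rw [← th_sig h h3, th_node, ← hXy, ← hXy']
          exact hX.sig_le
        · exfalso
          rcases leg_hit hΦ hε h hsg h2 hd hc (hit_sig' hΦ hε hX.ok) with h4 | h4
          · exact hUT ha (h4.1.leaves_subset (Or.inr (hXa ▸ c.root_mem_leaves)))
          · exact hUT ha (h4.1.leaves_subset (Or.inl (hXa ▸ c.root_mem_leaves)))
      · exact absurd h2 (hleg c _ hXa)
  rcases hst : stat Φ ε L (lwd Φ ε r U T) a s with _ | y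
  · rw [Option.map_none, stat_eq_none_iff]
    intro X hXa hX
    obtain ⟨y, hy, rfl, hys⟩ := key X hX hXa
    have h1 := (lives_th hΦ hε h hs hy).2 ⟨hX, hys⟩
    refine (stat_eq_none_iff.1 hst) y ?_ h1
    have h2 : (leaf a).leaves ⊆ lwd Φ ε r U T := by
      rintro σ rfl
      exact Or.inl ha
    refine th_root_inj h hy h2 ?_
    rw [hXa]
    change a = (fs Φ ε r T a).root
    rw [fs_of_mem h ha]
    rfl
  · rw [Option.map_some, stat_eq_some_iff hΦ hε hW']
    rw [stat_eq_some_iff hΦ hε hW] at hst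
    refine ⟨?_, ((lives_th hΦ hε h hs hst.2.sub).1 hst.2).1⟩
    have e1 : (th Φ ε r T y).root = (fs Φ ε r T y.root).root := sbs_root y
    rw [e1, hst.1, fs_of_mem h ha]
    rfl

/-- A tree of a particle of `T` which is its current tree after the birth of the source. -/
theorem eq_out (hΦ : IsPotential Φ) (hε : 0 < ε) (h : TSetup Φ ε L U T r t) {x c d : CTree}
    {s : ℝ} (hs : s < t) (hx : x ∈ outs T) (hxs : r x ≤ s)
    (hY : Sub (node c d) T ∨ node c d ∈ outs T) (hr : (node c d).root = x.root)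
    (hl : M.lives Φ ε L (U ∪ T.leaves) (node c d) s) : node c d = x := by
  have hW := wd_finite h
  rcases hY with hY | hY
  swap
  · exact outs_root_inj (ok_T h) hY hx hr
  have hxa := alive_out hΦ hε h hx (hxs.trans hs.le)
  have hxl := ((alive_iff_live hΦ hε hW).1 hxa).1
  have hc := live_left hΦ hε hW hl.live
  have h0 : Sub x (node c d) → node c d = x := by
    intro h1
    rcases hx with rfl | hx
    · exact hY.eq_of_card h1.card_le
    · exact absurd (h1.trans hY) (not_sub_of_exs (ok_T h) hx)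
  have hss : ∀ {P Q : CTree}, Spine P Q → Sub P Q := by
    intro P Q h
    induction h with
    | refl => exact Sub.refl _
    | left b _ ih => exact Sub.left b ih
  have h1 : Spine (node c d) x ∨ Sub x (node c d) := by
    rcases alive_comparable hΦ hε hW hc hxa hr with h1 | h1
    · by_cases hne : c = x
      · exact Or.inr (hne ▸ Sub.left _ (Sub.refl _))
      · obtain ⟨b, u, h2, h3, -⟩ := live_spine hΦ hε hW hxl h1 hne
        rw [lives_node_unique hΦ hε hW hl h3]
        exact Or.inl h2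
    · exact Or.inr (Sub.left _ (hss h1))
  rcases h1 with h1 | h1
  · by_contra hne
    obtain ⟨b, u, -, h3, h4⟩ := live_spine hΦ hε hW hxl h1 hne
    exact hl.nohit b _ (h3.sig_le.trans (h4.trans hxs)) (hit_sig hΦ hε h3.ok)
      (live_right hΦ hε hW h3)
  · exact h0 h1

/-- The status of a particle of `T` after the birth of its source. -/
theorem stat_out (hΦ : IsPotential Φ) (hε : 0 < ε) (h : TSetup Φ ε L U T r t) {x : CTree} {s : ℝ}
    (hs : s < t) (hx : x ∈ outs T) (hxs : r x ≤ s) :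
    stat Φ ε L (U ∪ T.leaves) x.root s =
      (stat Φ ε L (lwd Φ ε r U T) (msrc Φ ε r x) s).map (th Φ ε r T) := by
  have hW := lwd_finite h
  have hW' := wd_finite h
  have hmx : msrc Φ ε r x ∈ lwd Φ ε r U T := Or.inr ⟨x, hx, rfl⟩
  have hml : (leaf (msrc Φ ε r x)).leaves ⊆ lwd Φ ε r U T := by
    rintro σ rfl
    exact hmx
  have hroot : ∀ y : CTree, y.leaves ⊆ lwd Φ ε r U T →
      ((th Φ ε r T y).root = x.root ↔ y.root = msrc Φ ε r x) := by
    intro y hy
    constructor
    · intro h1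
      refine th_root_inj h hy hml ?_
      rw [h1, th_leaf_msrc h hx]
    · intro h1
      have e1 : (th Φ ε r T y).root = (fs Φ ε r T y.root).root := sbs_root y
      rw [e1, h1, fs_msrc h hx]
  -- the history of the particle at a time after the exit extends `x`
  have key : ∀ X : CTree, lives Φ ε L (U ∪ T.leaves) X s → X.root = x.root →
      ∃ y, y.leaves ⊆ lwd Φ ε r U T ∧ X = th Φ ε r T y ∧ sig Φ ε y ≤ s := by
    intro X hX hXr
    have hxa := alive_out hΦ hε h hx (hxs.trans hs.le)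
    have hxl := ((alive_iff_live hΦ hε hW').1 hxa).1
    -- a proper subtree of `T` with root `x.root` is an earlier history of `x`
    by_cases hXx : X = x
    · exact ⟨leaf (msrc Φ ε r x), hml, by rw [th_leaf_msrc h hx, hXx], hxs⟩
    · cases X with
      | leaf σ =>
        -- `x` is not a leaf, the particle `σ` has been hit before `r x`
        exfalso
        have hsp : Spine (leaf σ) x := by
          have := Spine.leaf x
          rwa [← hXr] at this
        obtain ⟨b, u, h1, h2, h3⟩ := live_spine hΦ hε hW' hxl hsp hXx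
        exact hX.nohit b _ ((h2.sig_le.trans h3).trans hxs) (hit_sig hΦ hε h2.ok)
          (live_right hΦ hε hW' h2)
      | node c d =>
        have hXlive := hX.live
        have hc := live_left hΦ hε hW' hX.live
        have hd := live_right hΦ hε hW' hX.live
        have hsg := hX.sig_le.trans_lt hs
        rcases alive_classify hΦ hε h hsg.le hc with ⟨y, hy, hXy, hye⟩ | h2
        · rcases alive_classify hΦ hε h hsg.le hd with ⟨y', hy', hXy', hye'⟩ | h2
          · have h3 : (node y y').leaves ⊆ lwd Φ ε r U T := union_subset hy hy'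
            refine ⟨node y y', h3, by rw [th_node, ← hXy, ← hXy'], ?_⟩
            rw [← th_sig h h3, th_node, ← hXy, ← hXy']
            exact hX.sig_le
          · exfalso
            rcases leg_hit hΦ hε h hsg h2 hd hc (hit_sig' hΦ hε hX.ok) with h4 | h4
            · exact hXx (eq_out hΦ hε h hs hx hxs (Or.inr (Or.inr (exs_iff.2 ⟨d, c, h4.1, rfl⟩))) hXr hX)
            · exact hXx (eq_out hΦ hε h hs hx hxs (Or.inl h4.1) hXr hX)
        · exfalso
          rcases leg_hit hΦ hε h hsg h2 hc hd (hit_sig hΦ hε hX.ok) with h4 | h4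
          · exact hXx (eq_out hΦ hε h hs hx hxs (Or.inl h4.1) hXr hX)
          · exact hXx (eq_out hΦ hε h hs hx hxs (Or.inr (Or.inr (exs_iff.2 ⟨d, c, h4.1, rfl⟩))) hXr hX)
  rcases hst : stat Φ ε L (lwd Φ ε r U T) (msrc Φ ε r x) s with _ | y
  · rw [Option.map_none, stat_eq_none_iff]
    intro X hXa hX
    obtain ⟨y, hy, rfl, hys⟩ := key X hX hXa
    exact (stat_eq_none_iff.1 hst) y ((hroot y hy).1 hXa)
      ((lives_th hΦ hε h hs hy).2 ⟨hX, hys⟩)
  · rw [Option.map_some, stat_eq_some_iff hΦ hε hW']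
    rw [stat_eq_some_iff hΦ hε hW] at hst
    exact ⟨(hroot y hst.2.sub).2 hst.1, ((lives_th hΦ hε h hs hst.2.sub).1 hst.2).1⟩

/-- The hits of an earlier history of `x` are hits of `x`. -/
theorem hit_of_cur {x y : CTree} {s u : ℝ} (hok : ok Φ ε x) (hu : u ≤ s)
    (hh : hit Φ ε (cur Φ ε x s) y u) : hit Φ ε x y u := by
  induction x with
  | leaf σ => exact hh
  | node a b iha _ =>
    rcases le_or_gt (sig Φ ε (node a b)) s with h1 | h1
    · rwa [cur_of_sig_le h1] at hh
    · rw [cur_of_lt_sig h1] at hh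
      exact hit_left_of_lt (hu.trans_lt h1) (iha hok.1 hh)

/-- The status of a particle of `T` before the birth of its source. -/
theorem stat_leg (hΦ : IsPotential Φ) (hε : 0 < ε) (h : TSetup Φ ε L U T r t) {x : CTree} {s : ℝ}
    (hs : s < t) (hx : x ∈ outs T) (hxs : s < r x) (hxb : x.root.1 ≤ s) :
    stat Φ ε L (U ∪ T.leaves) x.root s = some (cur Φ ε x s) := by
  rw [stat_eq_some_iff hΦ hε (wd_finite h)]
  have hss : ∀ {P Q : CTree}, Spine P Q → Sub P Q := by
    intro P Q h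
    induction h with
    | refl => exact Sub.refl _
    | left b _ ih => exact Sub.left b ih
  have h1 : Sub (cur Φ ε x s) x := hss (cur_spine x s)
  have hok := ok_out h hx
  exact ⟨cur_root x s, (h1.leaves_subset.trans (outs_leaves hx)).trans subset_union_right,
    h1.ok hok, h1.depth_le.trans (outs_depth' h hx), sig_cur_le hxb, fun y u hu hh =>
      h.free x hx y u (hu.trans_lt hxs) (hu.trans_lt hs) (hit_of_cur hok hu hh)⟩

end Vale.Agent.P119.TL.Tr
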