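import Vale.Agent.P119.TL.Trunc2
import Vale.Agent.P119.TL.Part

/-!
# P119: TREE -> LINES up to the first disturbance, bad particles (`helper119`)

* `mcon_th`, `part_th`, `badi_th`, `badc_th`, `sta_th` for `s < t`;
* `part_mem`, `part_out`: the partners of the legs;
* `legs_of_not_bad`, `TSetup.of_not_bad`: the hypothesis `legs`;
* `Setup.trunc`: the old hypotheses imply the new ones.
-/

open MeasureTheory Filter Topology Set
open scoped ENNReal NNReal

noncomputable section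

namespace Vale.Agent.P119.TL

open KU M M.CTree RB

/-- The hypotheses of TREE -> LINES imply the truncated ones. -/
theorem Setup.trunc {Φ : E3 → ℝ} {ε : ℝ} {L : ℕ} {U : Set Src} {T : CTree} {r : CTree → ℝ}
    {t t' : ℝ} (hΦ : IsPotential Φ) (hε : 0 < ε) (h : Setup Φ ε L U T r t) (ht : t' ≤ t) :
    TSetup Φ ε L U T r t' :=
  ⟨h.fin, h.disj, h.inj, h.fresh, h.le_r, fun _ hx => ok_out h hx,
    (alive_pre (h.alive T (Or.inl rfl))).depth,
    fun x hx _ _ hs _ hh => no_hit hΦ hε (wd_finite h) (h.alive x hx) hs hh,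
    fun x hx _ => (h.lives x hx).imp id fun h1 X => h1.nohit X _ le_rfl,
    fun X p s hs => h.legs X p s (hs.le.trans ht), fun p y s hs => h.indep p y s (hs.le.trans ht)⟩

/-- The truncated hypotheses up to an earlier time. -/
theorem TSetup.anti {Φ : E3 → ℝ} {ε : ℝ} {L : ℕ} {U : Set Src} {T : CTree} {r : CTree → ℝ}
    {t t' : ℝ} (h : TSetup Φ ε L U T r t) (ht : t' ≤ t) : TSetup Φ ε L U T r t' :=
  ⟨h.fin, h.disj, h.inj, h.fresh, h.le_r, h.okO, h.depth,
    fun x hx X s hs hs' => h.free x hx X s hs (hs'.trans_le ht),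
    fun x hx hr => h.lives x hx (hr.trans_le ht),
    fun X p s hs => h.legs X p s (hs.trans_le ht), fun p y s hs => h.indep p y s (hs.trans_le ht)⟩

namespace Tr

variable {Φ : E3 → ℝ} {ε : ℝ} {L : ℕ} {U W : Set Src} {T : CTree} {r : CTree → ℝ} {t : ℝ}

theorem rt_msrc (h : TSetup Φ ε L U T r t) {x : CTree} (hx : x ∈ outs T) :
    rt Φ ε r T (msrc Φ ε r x) = x.root := by
  unfold rt
  rw [fs_msrc h hx]

theorem rt_of_mem (h : TSetup Φ ε L U T r t) {σ : Src} (hσ : σ ∈ U) : rt Φ ε r T σ = σ := by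
  unfold rt
  rw [fs_of_mem h hσ]
  rfl

theorem rt_mem (h : TSetup Φ ε L U T r t) {σ : Src} (hσ : σ ∈ lwd Φ ε r U T) :
    rt Φ ε r T σ ∈ U ∪ T.leaves := by
  rcases hσ with hσ | ⟨x, hx, rfl⟩
  · rw [rt_of_mem h hσ]; exact Or.inl hσ
  · rw [rt_msrc h hx]; exact Or.inr (outs_leaves hx x.root_mem_leaves)

theorem rt_injOn (h : TSetup Φ ε L U T r t) : InjOn (rt Φ ε r T) (lwd Φ ε r U T) :=
  fun _ hσ _ hσ' he => fs_root_inj h hσ hσ' he

theorem rt_surjOn (h : TSetup Φ ε L U T r t) :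
    SurjOn (rt Φ ε r T) (lwd Φ ε r U T) (U ∪ T.leaves) := by
  rintro σ (hσ | hσ)
  · exact ⟨σ, Or.inl hσ, rt_of_mem h hσ⟩
  · obtain ⟨x, hx, rfl⟩ := exists_out hσ
    exact ⟨msrc Φ ε r x, Or.inr ⟨x, hx, rfl⟩, rt_msrc h hx⟩

theorem rt_bijOn (h : TSetup Φ ε L U T r t) :
    BijOn (rt Φ ε r T) (lwd Φ ε r U T) (U ∪ T.leaves) :=
  ⟨fun _ => rt_mem h, rt_injOn h, rt_surjOn h⟩

/-- The births are later in the world of lines. -/
theorem rt_birth_le (hΦ : IsPotential Φ) (hε : 0 < ε) (h : TSetup Φ ε L U T r t) {σ : Src}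
    (hσ : σ ∈ lwd Φ ε r U T) : (rt Φ ε r T σ).1 ≤ σ.1 := by
  rcases hσ with hσ | ⟨x, hx, rfl⟩
  · rw [rt_of_mem h hσ]
  · rw [rt_msrc h hx]
    exact ((root_birth_le_sig hΦ hε (ok_out h hx)).trans (sig_le_ext hΦ hε (ok_out h hx))).trans
      (h.le_r x hx)


theorem rt_inj (h : TSetup Φ ε L U T r t) {a b : Src} (ha : a ∈ lwd Φ ε r U T)
    (hb : b ∈ lwd Φ ε r U T) (he : rt Φ ε r T a = rt Φ ε r T b) : a = b :=
  fs_root_inj h ha hb he

theorem exists_rt (h : TSetup Φ ε L U T r t) {a : Src} (ha : a ∈ U ∪ T.leaves) :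
    ∃ b ∈ lwd Φ ε r U T, rt Φ ε r T b = a := by
  rcases ha with ha | ha
  · exact ⟨a, mem_lwd ha, rt_of_mem h ha⟩
  · obtain ⟨x, hx, rfl⟩ := exists_out ha
    exact ⟨_, msrc_mem hx, rt_msrc h hx⟩

/-- The statuses in the two worlds, from the birth of the source on. -/
theorem stat_rt (hΦ : IsPotential Φ) (hε : 0 < ε) (h : TSetup Φ ε L U T r t) {a : Src} {s : ℝ}
    (hs : s < t) (ha : a ∈ lwd Φ ε r U T) (has : a.1 ≤ s) :
    stat Φ ε L (U ∪ T.leaves) (rt Φ ε r T a) s =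
      (stat Φ ε L (lwd Φ ε r U T) a s).map (th Φ ε r T) := by
  rcases ha with ha | ⟨x, hx, rfl⟩
  · rw [rt_of_mem h ha]
    exact stat_th hΦ hε h hs ha
  · rw [rt_msrc h hx]
    exact stat_out hΦ hε h hs hx has

/-! ### Contacts -/

/-- The live trees of `U ∪ T.leaves` come from the world of lines, up to the representation at the
beginning of a collision. -/
theorem live_back (hΦ : IsPotential Φ) (hε : 0 < ε) (h : TSetup Φ ε L U T r t) {a : Src} {s : ℝ}
    {X : CTree} (hs : s < t) (ha : a ∈ lwd Φ ε r U T) (has : a.1 ≤ s)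
    (hX : live Φ ε L (U ∪ T.leaves) X s) (hXa : X.root = rt Φ ε r T a) :
    ∃ Y, Y.root = a ∧ live Φ ε L (lwd Φ ε r U T) Y s ∧ st Φ ε Y s = st Φ ε X s := by
  have hW := lwd_finite h
  have hW' := wd_finite h
  have hal : (leaf a).leaves ⊆ lwd Φ ε r U T := by
    rintro σ rfl
    exact ha
  have hra := rt_birth_le hΦ hε h ha
  -- a tree which began before `s`
  have key : ∀ X₀ : CTree, X₀.root = rt Φ ε r T a → live Φ ε L (U ∪ T.leaves) X₀ s →
      sig Φ ε X₀ < s → ∃ Y, Y.root = a ∧ live Φ ε L (lwd Φ ε r U T) Y s ∧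
        st Φ ε Y s = st Φ ε X₀ s := by
    intro X₀ hr hl hsig
    rcases has.lt_or_eq with h1 | h1
    · have h2 : max (sig Φ ε X₀) a.1 < s := max_lt hsig h1
      have h3 := hl.lives_of_lt h2 (le_max_left _ _)
      have h4 : stat Φ ε L (U ∪ T.leaves) (rt Φ ε r T a) (max (sig Φ ε X₀) a.1) = some X₀ :=
        (stat_eq_some_iff hΦ hε hW').2 ⟨hr, h3⟩
      rw [stat_rt hΦ hε h (h2.trans hs) ha (le_max_right _ _), Option.map_eq_some_iff] at h4
      obtain ⟨Y, h5, rfl⟩ := h4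
      rw [stat_eq_some_iff hΦ hε hW] at h5
      have h6 := h5.2.sig_le.trans h2.le
      exact ⟨Y, h5.1, (live_th hΦ hε h hs h5.2.sub).2 ⟨hl, h6⟩,
        (th_st hΦ hε h h5.2.sub h6).symm⟩
    · -- the source is born at `s`
      subst h1
      rcases ha with ha | ⟨x, hx, rfl⟩
      · rw [rt_of_mem h ha] at hr
        have h2 := (root_birth_le_sig hΦ hε hl.ok).trans_lt hsig
        rw [hr] at h2
        exact absurd h2 (lt_irrefl _)
      · rw [rt_msrc h hx] at hr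
        have h2 := (alive_iff_live hΦ hε hW').1 (alive_out hΦ hε h hx hs.le)
        have h3 : sig Φ ε x < r x := by
          cases x with
          | leaf σ =>
            have h4 := (root_birth_le_sig hΦ hε hl.ok).trans_lt hsig
            rw [hr] at h4
            exact h4
          | node c d => exact (sig_lt_ext hΦ hε h2.1.ok).trans_le h2.2
        have h4 : X₀ = x := live_unique hΦ hε hW' hl h2.1 hr hsig h3
        subst h4
        refine ⟨leaf (msrc Φ ε r X₀), rfl, (live_th hΦ hε h hs hal).2 ⟨?_, le_rfl⟩, ?_⟩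
        · rw [th_leaf_msrc h hx]
          exact hl
        · rw [← th_st hΦ hε h hal (s := (msrc Φ ε r X₀).1) le_rfl, th_leaf_msrc h hx]
  rcases live_sig hΦ hε hW' hX with ⟨h1, h2⟩ | ⟨X₀, h1, h2, h3, h4⟩
  · -- the birth
    rw [hXa] at h1 h2
    have h3 : a.1 = s := le_antisymm has (h2 ▸ hra)
    have h5 : th Φ ε r T (leaf a) = leaf (rt Φ ε r T a) := by
      rcases ha with ha | ⟨x, hx, rfl⟩
      · rw [rt_of_mem h ha]
        exact fs_of_mem h ha
      · rw [rt_msrc h hx] at h2 ⊢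
        rw [th_leaf_msrc h hx]
        cases x with
        | leaf σ => rfl
        | node c d =>
          exfalso
          have h6 := (root_birth_le_sig hΦ hε (ok_out h hx)).trans_lt
            (sig_lt_ext hΦ hε (ok_out h hx))
          have h7 := h.le_r _ hx
          change r (node c d) = s at h3
          linarith
    refine ⟨leaf a, rfl, (live_th hΦ hε h hs hal).2 ⟨?_, has⟩, ?_⟩
    · rw [h5, ← h1]
      exact hX
    · rw [← th_st hΦ hε h hal (s := s) has, h5, ← h1]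
  · obtain ⟨Y, h5, h6, h7⟩ := key X₀ (h1.trans hXa) h2 h3
    exact ⟨Y, h5, h6, h7.trans h4⟩

/-- **Contacts in the two worlds.** -/
theorem mcon_th (hΦ : IsPotential Φ) (hε : 0 < ε) (h : TSetup Φ ε L U T r t) {a b : Src} {s : ℝ}
    (hs : s < t) (ha : a ∈ lwd Φ ε r U T) (hb : b ∈ lwd Φ ε r U T) (has : a.1 ≤ s)
    (hbs : b.1 ≤ s) : mcon Φ ε L (lwd Φ ε r U T) s a b ↔
      mcon Φ ε L (U ∪ T.leaves) s (rt Φ ε r T a) (rt Φ ε r T b) := by
  constructor
  · rintro ⟨h0, Y, Y', h1, h2, h3, h4, h5⟩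
    refine ⟨fun he => h0 (rt_inj h ha hb he), th Φ ε r T Y, th Φ ε r T Y', ?_, ?_,
      ((live_th hΦ hε h hs h3.sub).1 h3).1, ((live_th hΦ hε h hs h4.sub).1 h4).1, ?_⟩
    · rw [th_root, h1]
    · rw [th_root, h2]
    · rw [th_st hΦ hε h h3.sub h3.sig_le, th_st hΦ hε h h4.sub h4.sig_le]
      exact h5
  · rintro ⟨h0, X, X', h1, h2, h3, h4, h5⟩
    obtain ⟨Y, k1, k2, k3⟩ := live_back hΦ hε h hs ha has h3 h1
    obtain ⟨Y', k1', k2', k3'⟩ := live_back hΦ hε h hs hb hbs h4 h2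
    exact ⟨fun he => h0 (he ▸ rfl), Y, Y', k1, k1', k2, k2', by rw [k3, k3']; exact h5⟩

/-- A tree which is colliding comes from a tree which is colliding. -/
theorem node_of_th (h : TSetup Φ ε L U T r t) {Y : CTree} {s : ℝ}
    (hY : Y.leaves ⊆ lwd Φ ε r U T) (hYs : sig Φ ε Y ≤ s) (hs : s < ext Φ ε (th Φ ε r T Y)) :
    ∃ c d, Y = node c d := by
  cases Y with
  | leaf σ =>
    have h1 : ext Φ ε (th Φ ε r T (leaf σ)) ≤ σ.1 := fs_ext h (hY (mem_singleton σ))
    exact absurd hs (not_lt.2 (h1.trans hYs))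
  | node c d => exact ⟨c, d, rfl⟩

/-- **Colliding pairs in the two worlds.** -/
theorem part_th (hΦ : IsPotential Φ) (hε : 0 < ε) (h : TSetup Φ ε L U T r t) {a b : Src} {s : ℝ}
    (hs : s < t) (ha : a ∈ lwd Φ ε r U T) (hb : b ∈ lwd Φ ε r U T) (has : a.1 ≤ s)
    (hbs : b.1 ≤ s) : part Φ ε L (lwd Φ ε r U T) s a b ↔
      part Φ ε L (U ∪ T.leaves) s (rt Φ ε r T a) (rt Φ ε r T b) := by
  have hW := lwd_finite h
  constructor
  · rintro ⟨Y, Y', h1, h2, x, y, rfl, rfl, h3⟩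
    have h4 := ((stat_eq_some_iff hΦ hε hW).1 h1).2.sub
    refine ⟨th Φ ε r T (node x y), th Φ ε r T (node y x), ?_, ?_, th Φ ε r T x, th Φ ε r T y, rfl,
      rfl, ?_⟩
    · rw [stat_rt hΦ hε h hs ha has, h1, Option.map_some]
    · rw [stat_rt hΦ hε h hs hb hbs, h2, Option.map_some]
    · rw [th_ext h h4]
      exact h3
  · rintro ⟨X, X', h1, h2, h3⟩
    rw [stat_rt hΦ hε h hs ha has, Option.map_eq_some_iff] at h1
    rw [stat_rt hΦ hε h hs hb hbs, Option.map_eq_some_iff] at h2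
    obtain ⟨Y, h1, rfl⟩ := h1
    obtain ⟨Y', h2, rfl⟩ := h2
    have h4 := (stat_eq_some_iff hΦ hε hW).1 h1
    have h5 := (stat_eq_some_iff hΦ hε hW).1 h2
    obtain ⟨x, y, h6, h7, h8⟩ := h3
    obtain ⟨c, d, rfl⟩ := node_of_th h h4.2.sub h4.2.sig_le h8
    rw [th_ext h h4.2.sub] at h8
    rw [th_node] at h6
    injection h6 with h6 h6'
    -- the partner in the world of lines
    have h9 := lives_swap hΦ h4.2 h8
    have h10 : (node d c).root = Y'.root := by
      refine rt_inj h (h9.sub (node d c).root_mem_leaves) (h5.2.sub Y'.root_mem_leaves) ?_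
      rw [← th_root, ← th_root, h7, th_node]
      change (th Φ ε r T d).root = y.root
      rw [h6']
    have h11 : Y' = node d c := (lives_unique hΦ hε hW h9 h5.2 h10).symm
    exact ⟨node c d, node d c, h1, h11 ▸ h2, c, d, rfl, rfl, h8⟩

/-! ### Bad particles -/

/-- A bad particle of the world of lines is bad. -/
theorem badi_of_lwd (hΦ : IsPotential Φ) (hε : 0 < ε) (h : TSetup Φ ε L U T r t) {a : Src} {s : ℝ}
    (hs : s < t) (hbad : badi Φ ε L (lwd Φ ε r U T) a s) :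
    badi Φ ε L (U ∪ T.leaves) (rt Φ ε r T a) s := by
  obtain ⟨ha, h0, has, h1⟩ := hbad
  refine ⟨rt_mem h ha, h0, (rt_birth_le hΦ hε h ha).trans has, ?_⟩
  rcases h1 with h1 | ⟨c, h1, h2⟩
  · left
    rw [stat_rt hΦ hε h hs ha has, h1, Option.map_none]
  · have hc := h1.mem.2
    have hcs := (h1.birth_le hΦ hε).2
    refine Or.inr ⟨rt Φ ε r T c, (mcon_th hΦ hε h hs ha hc has hcs).1 h1, fun hp => h2 ?_⟩
    exact (part_th hΦ hε h hs ha hc has hcs).2 hp

/-- **Bad particles in the two worlds.** -/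
theorem badi_th (hΦ : IsPotential Φ) (hε : 0 < ε) (h : TSetup Φ ε L U T r t)
    (hb : ∀ x ∈ outs T, ∀ u < r x, u < t → ¬badi Φ ε L (U ∪ T.leaves) x.root u)
    {a : Src} {s : ℝ} (hs : s < t) (ha : a ∈ lwd Φ ε r U T) (has : a.1 ≤ s) :
    badi Φ ε L (lwd Φ ε r U T) a s ↔ badi Φ ε L (U ∪ T.leaves) (rt Φ ε r T a) s := by
  refine ⟨badi_of_lwd hΦ hε h hs, ?_⟩
  rintro ⟨h1, h2, h3, h4⟩
  refine ⟨ha, h2, has, ?_⟩
  rcases h4 with h4 | ⟨c', h4, h5⟩
  · left
    rw [stat_rt hΦ hε h hs ha has, Option.map_eq_none_iff] at h4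
    exact h4
  · right
    obtain ⟨c, hc, rfl⟩ := exists_rt h h4.mem.2
    have hcs : c.1 ≤ s := by
      by_contra hcon
      rcases hc with hc | ⟨x, hx, rfl⟩
      · rw [rt_of_mem h hc] at h4
        exact hcon (h4.birth_le hΦ hε).2
      · rw [rt_msrc h hx] at h4 h5
        exact hb x hx s (not_le.1 hcon) hs ⟨h4.mem.2, h2, (h4.birth_le hΦ hε).2,
          Or.inr ⟨_, h4.symm, fun hp => h5 ((part_comm hΦ).1 hp)⟩⟩
    exact ⟨c, (mcon_th hΦ hε h hs ha hc has hcs).2 h4, fun hp =>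
      h5 ((part_th hΦ hε h hs ha hc has hcs).1 hp)⟩

/-- **The particles which were bad, in the two worlds.** -/
theorem badc_th (hΦ : IsPotential Φ) (hε : 0 < ε) (h : TSetup Φ ε L U T r t)
    (hb : ∀ x ∈ outs T, ∀ u < r x, u < t → ¬badi Φ ε L (U ∪ T.leaves) x.root u)
    {a : Src} {s : ℝ} (hs : s < t) (ha : a ∈ lwd Φ ε r U T) :
    badc Φ ε L (lwd Φ ε r U T) a s ↔ badc Φ ε L (U ∪ T.leaves) (rt Φ ε r T a) s := by
  constructor
  · rintro ⟨u, hu, h1⟩
    exact ⟨u, hu, badi_of_lwd hΦ hε h (hu.trans_lt hs) h1⟩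
  · rintro ⟨u, hu, h1⟩
    have hau : a.1 ≤ u := by
      by_contra hcon
      rcases ha with ha | ⟨x, hx, rfl⟩
      · rw [rt_of_mem h ha] at h1
        exact hcon h1.2.2.1
      · rw [rt_msrc h hx] at h1
        exact hb x hx u (not_le.1 hcon) (hu.trans_lt hs) h1
    exact ⟨u, hu, (badi_th hΦ hε h hb (hu.trans_lt hs) ha hau).2 h1⟩

theorem badc_of_lwd (hΦ : IsPotential Φ) (hε : 0 < ε) (h : TSetup Φ ε L U T r t) {a : Src} {s : ℝ}
    (hs : s < t) (hbad : badc Φ ε L (lwd Φ ε r U T) a s) :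
    badc Φ ε L (U ∪ T.leaves) (rt Φ ε r T a) s := by
  obtain ⟨u, hu, h1⟩ := hbad
  exact ⟨u, hu, badi_of_lwd hΦ hε h (hu.trans_lt hs) h1⟩

/-- **The full statuses in the two worlds**, from the birth of the source on. -/
theorem sta_th (hΦ : IsPotential Φ) (hε : 0 < ε) (h : TSetup Φ ε L U T r t)
    (hb : ∀ x ∈ outs T, ∀ u < r x, u < t → ¬badi Φ ε L (U ∪ T.leaves) x.root u)
    {a : Src} {s : ℝ} (hs : s < t) (ha : a ∈ lwd Φ ε r U T) (has : a.1 ≤ s) :
    sta Φ ε L (U ∪ T.leaves) (rt Φ ε r T a) s = ((sta Φ ε L (lwd Φ ε r U T) a s).1,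
      (sta Φ ε L (lwd Φ ε r U T) a s).2.1.map (th Φ ε r T),
      (sta Φ ε L (lwd Φ ε r U T) a s).2.2) := by
  have h1 : (rt Φ ε r T a ∈ U ∪ T.leaves) = (a ∈ lwd Φ ε r U T) :=
    propext ⟨fun _ => ha, fun _ => rt_mem h ha⟩
  have h2 : badc Φ ε L (U ∪ T.leaves) (rt Φ ε r T a) s = badc Φ ε L (lwd Φ ε r U T) a s :=
    propext (badc_th hΦ hε h hb hs ha).symm
  simp only [sta]
  rw [h1, h2, stat_rt hΦ hε h hs ha has]



/-! ### The partners of the legs -/

theorem stat_leg' (hΦ : IsPotential Φ) (hε : 0 < ε) (h : TSetup Φ ε L U T r t) {x X : CTree}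
    {s : ℝ} (hst : s < t) (hx : x ∈ outs T) (hxs : s < r x)
    (hl : lives Φ ε L (U ∪ T.leaves) X s) (hX : X.root = x.root) : X = cur Φ ε x s := by
  have h1 : stat Φ ε L (U ∪ T.leaves) x.root s = some X :=
    (stat_eq_some_iff hΦ hε (wd_finite h)).2 ⟨hX, hl⟩
  have h2 : x.root.1 ≤ s := hX ▸ live.birth_le hΦ hε hl.live
  rw [stat_leg hΦ hε h hst hx hxs h2] at h1
  exact (Option.some_inj.1 h1).symm

/-- The current tree of a leg in a collision. -/
theorem leg_node (hΦ : IsPotential Φ) (hε : 0 < ε) (h : TSetup Φ ε L U T r t) {x p q : CTree}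
    {s : ℝ} (hst : s < t) (hx : x ∈ outs T) (hxs : s < r x)
    (hl : lives Φ ε L (U ∪ T.leaves) (node p q) s) (hp : p.root = x.root) (hs : s < ext Φ ε (node p q)) :
    Sub (node p q) x ∧ s < ext Φ ε x := by
  have h1 := stat_leg' hΦ hε h hst hx hxs hl hp
  refine ⟨h1 ▸ Spine.sub (cur_spine x s), ?_⟩
  by_contra hcon
  rw [not_lt] at hcon
  have h2 : cur Φ ε x s = x := cur_of_sig_le ((sig_le_ext hΦ hε (ok_out h hx)).trans hcon)
  rw [h2] at h1
  rw [h1] at hs
  exact absurd hs (not_lt.2 hcon)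

/-- The partner of a leg belongs to `T`. -/
theorem part_mem (hΦ : IsPotential Φ) (hε : 0 < ε) (h : TSetup Φ ε L U T r t) {x : CTree}
    {b : Src} {s : ℝ} (hst : s < t) (hx : x ∈ outs T) (hxs : s < r x)
    (hp : part Φ ε L (U ∪ T.leaves) s x.root b) : b ∈ T.leaves := by
  obtain ⟨p, q, hp1, rfl, h1, h2, h3, h4, h5⟩ := part_spec hΦ hε (wd_finite h) hp
  obtain ⟨h6, -⟩ := leg_node hΦ hε h hst hx hxs h3 hp1 h5
  exact outs_leaves hx (h6.leaves_subset (Or.inr q.root_mem_leaves))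

/-- **A leg and its partner are before their exits.** -/
theorem part_out (hΦ : IsPotential Φ) (hε : 0 < ε) (h : TSetup Φ ε L U T r t) {x x' : CTree}
    {s : ℝ} (hs : s < t) (hx : x ∈ outs T) (hx' : x' ∈ outs T) (hxs : s < r x)
    (hp : part Φ ε L (U ∪ T.leaves) s x.root x'.root) :
    s < ext Φ ε x ∧ s < ext Φ ε x' ∧ x.root.1 < s ∧ x'.root.1 < s := by
  obtain ⟨p, q, hp1, hq1, h1, h2, h3, h4, h5⟩ := part_spec hΦ hε (wd_finite h) hp
  obtain ⟨h6, h7⟩ := leg_node hΦ hε h hs hx hxs h3 hp1 h5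
  have hb := births_lt hΦ hε h3.ok
  have h5' : s < ext Φ ε (node q p) := by rw [ext_swap hΦ p q]; exact h5
  refine ⟨h7, ?_, hp1 ▸ hb.1.trans_le h3.sig_le, hq1 ▸ hb.2.trans_le h3.sig_le⟩
  rcases lt_or_ge s (r x') with h8 | h8
  · exact (leg_node hΦ hε h hs hx' h8 h4 hq1 h5').2
  · exfalso
    -- the tree of the partner comes from the world of lines
    have h9 := stat_out hΦ hε h hs hx' h8
    rw [h2] at h9
    obtain ⟨y, hy, hy'⟩ := Option.map_eq_some_iff.1 h9.symm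
    have h10 := (stat_eq_some_iff hΦ hε (lwd_finite h)).1 hy
    have h11 : Sub x' (node q p) := by
      have h12 : Sub (fs Φ ε r T y.root) (th Φ ε r T y) := sub_sbs y.root_mem_leaves
      rwa [h10.1, fs_msrc h hx', hy'] at h12
    have h13 : r x' < ext Φ ε (node q p) := h8.trans_lt h5'
    have h14 := h.le_r x' hx'
    have hcx := h6.card_le
    have hpc := p.card_pos
    have hqc := q.card_pos
    simp only [CTree.card] at hcx
    have key : Sub x' x → x'.card < x.card → False := by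
      intro h15 h16
      have := outs_eq_of_sub (ok_T h) hx hx' h15
      rw [this] at h16
      exact lt_irrefl _ h16
    cases h11 with
    | refl => linarith
    | left _ h12 =>
      have h15 : Sub x' x := h12.trans ((Sub.right p (Sub.refl q)).trans h6)
      exact key h15 (by have := h12.card_le; omega)
    | right _ h12 =>
      have h15 : Sub x' x := h12.trans ((Sub.left q (Sub.refl p)).trans h6)
      exact key h15 (by have := h12.card_le; omega)


/-! ### The hypothesis `legs` -/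

/-- The alive legs are histories of the particles of `T` before the births of the sources. -/
theorem leg_root (hΦ : IsPotential Φ) (hε : 0 < ε) (hW : W.Finite) (hok : ok Φ ε T)
    {X : CTree} {s : ℝ} (hal : ∀ x ∈ outs T, r x ≤ s → alive Φ ε L W x (r x))
    (hX : Leg r T X s) (hXa : alive Φ ε L W X s) : ∃ x ∈ outs T, x.root = X.root ∧ s < r x := by
  rcases hX with ⟨h1, h2⟩ | ⟨h1, h2⟩
  · obtain ⟨x, hx, hxr⟩ := exists_out (h1.leaves_subset X.root_mem_leaves)
    refine ⟨x, hx, hxr, ?_⟩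
    by_contra hcon
    rw [not_lt] at hcon
    have hxa := hal x hx hcon
    -- `x` is not a subtree of `X`
    have hnot : ¬Sub x X := by
      intro h3
      rcases hx with rfl | hx
      · exact h2 (h1.eq_of_card h3.card_le)
      · exact not_sub_of_exs hok hx (h3.trans h1)
    rcases alive_comparable hΦ hε hW hxa hXa hxr with h3 | h3
    · exact absurd (Spine.sub h3) hnot
    · have hne : X ≠ x := fun he => hnot (he ▸ Sub.refl _)
      obtain ⟨b, t', h4, h5, h6⟩ := alive_spine hΦ hε hW hxa h3 hne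
      have h7 := alive_right hΦ hε hW h5
      have h8 := hit_sig hΦ hε (alive_pre h5).ok
      exact no_hit hΦ hε hW hXa ((sig_le_of_pre hΦ hε (alive_pre h5)).trans_le
        (h6.trans hcon)) h8 h7
  · exact ⟨X, h1, rfl, h2⟩

/-- **The hypothesis `legs` of `TSetup`** holds if the particles of `T` are not bad before the
births of their sources. -/
theorem legs_of_not_bad (hΦ : IsPotential Φ) (hε : 0 < ε) (hW : W.Finite) (hok : ok Φ ε T)
    (hal : ∀ x ∈ outs T, r x < t → alive Φ ε L W x (r x))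
    (hb : ∀ x ∈ outs T, ∀ u < r x, u < t → ¬badi Φ ε L W x.root u) (X p : CTree) (s : ℝ)
    (hs : s < t) (hX : Leg r T X s) (hXa : alive Φ ε L W X s) (hp : live Φ ε L W p s)
    (hsp : s < ext Φ ε p) : ¬hit Φ ε p X s := by
  intro hh
  obtain ⟨x, hx, hxr, hxs⟩ := leg_root hΦ hε hW hok (fun x hx hr => hal x hx (hr.trans_lt hs))
    hX hXa
  refine hb x hx s hxs hs ?_
  rw [hxr]
  exact badi_of_hit hΦ hε hW hXa hp hsp hh

end Tr

/-- **Constructor of `TSetup`.** -/
theorem TSetup.of_not_bad {Φ : E3 → ℝ} {ε : ℝ} {L : ℕ} {U : Set Src} {T : CTree}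
    {r : CTree → ℝ} {t : ℝ} (hΦ : IsPotential Φ) (hε : 0 < ε) (fin : U.Finite)
    (disj : Disjoint U T.leaves) (inj : InjOn (msrc Φ ε r) (outs T))
    (fresh : ∀ x ∈ outs T, msrc Φ ε r x ∉ U) (le_r : ∀ x ∈ outs T, ext Φ ε x ≤ r x)
    (okT : ok Φ ε T) (depth : T.depth ≤ L)
    (free : ∀ x ∈ outs T, ∀ X s, s < r x → s < t → hit Φ ε x X s →
      ¬M.alive Φ ε L (U ∪ T.leaves) X s)
    (lives : ∀ x ∈ outs T, r x < t → r x = ext Φ ε x ∨
      ∀ X, hit Φ ε x X (r x) → ¬M.alive Φ ε L (U ∪ T.leaves) X (r x))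
    (hb : ∀ x ∈ outs T, ∀ u < r x, u < t → ¬badi Φ ε L (U ∪ T.leaves) x.root u)
    (indep : ∀ p y s, s < t → live Φ ε L (lwd Φ ε r U T) p s →
      M.alive Φ ε L (lwd Φ ε r U T) y s → Disjoint p.leaves y.leaves → hit Φ ε p y s →
        p.leaves ⊆ U ∨ y.leaves ⊆ U) :
    TSetup Φ ε L U T r t := by
  have hW : (U ∪ T.leaves).Finite := fin.union T.leaves_finite
  have okO : ∀ x ∈ outs T, ok Φ ε x := fun x hx => outs_ok hΦ okT hx
  refine ⟨fin, disj, inj, fresh, le_r, okO, depth, free, lives,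
    Tr.legs_of_not_bad hΦ hε hW okT (fun x hx hr => ?_) hb, indep⟩
  exact (alive_iff hΦ hε hW).2 ⟨⟨(outs_leaves hx).trans subset_union_right, okO x hx,
    (outs_depth hx).trans depth, le_r x hx⟩, fun X s hs hh => free x hx X s hs (hs.trans hr) hh⟩

end Vale.Agent.P119.TL
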